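import Vale.Agent.P157.RSB.Top

/-!
Gaussian averages of the expansions, and elementary facts about the level pairing.
-/

namespace Vale.Agent.P157.RSB

open MeasureTheory ProbabilityTheory Filter
open scoped RealInnerProductSpace Topology

section pairing

variable {ι : Type} (m : ι → ℝ)

/-- Accumulated sums along the levels. -/
def cum (d : ι → ℝ) : List ι → ℝ → ℕ → ℝ
  | [], q, _ => q
  | _ :: _, q, 0 => q
  | i :: ls, q, j + 1 => cum d ls (q + d i) j

lemma cum_zero (d : ι → ℝ) (ls : List ι) (q : ℝ) : cum d ls q 0 = q := by cases ls <;> rfl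

lemma pen_ext (d : ι → ℝ) : ∀ (ls : List ι) (q : ℝ) {R R' : ℕ → ℝ},
    (∀ j, j ≤ ls.length → R j = R' j) → pen m d ls q R = pen m d ls q R'
  | [], q, R, R', h => by simp only [pen, h 0 le_rfl]
  | i :: ls, q, R, R', h => by
    simp only [pen, h 0 (Nat.zero_le _), h 1 (by simp)]
    rw [pen_ext d ls _ fun j hj => h (j + 1) (by simpa using hj)]

lemma pen_scale (d : ι → ℝ) (c : ℝ) : ∀ (ls : List ι) (q : ℝ) (R : ℕ → ℝ),
    pen m (fun i => c * d i) ls (c * q) R = c * pen m d ls q R
  | [], q, R => by simp only [pen]; ring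
  | i :: ls, q, R => by
    simp only [pen, ← mul_add]
    rw [pen_scale d c ls]
    ring

lemma pen_zero_scale (c : ℝ) (ls : List ι) (R : ℕ → ℝ) :
    pen m (fun _ => 0) ls c R = c * pen m (fun _ => 0) ls 1 R := by
  have h := pen_scale m (fun _ => (0 : ℝ)) c ls 1 R
  simpa using h

lemma pen_eq_zero_cum (d : ι → ℝ) : ∀ (ls : List ι) (q : ℝ) (R : ℕ → ℝ),
    pen m d ls q R = pen m (fun _ => 0) ls 1 fun j => cum d ls q j * R j
  | [], q, R => by simp [pen, cum]
  | i :: ls, q, R => by
    simp only [pen, cum, cum_zero, add_zero]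
    rw [pen_eq_zero_cum d ls]
    ring

lemma abs_pen_zero_le {D : ℝ} : ∀ (ls : List ι), (∀ i ∈ ls, 0 ≤ m i ∧ m i ≤ 1) → ∀ {R : ℕ → ℝ},
    (∀ j, j ≤ ls.length → |R j| ≤ D) → |pen m (fun _ => 0) ls 1 R| ≤ (2 * ls.length + 1) * D
  | [], _, R, h => by simpa [pen] using h 0 le_rfl
  | i :: ls, hm, R, h => by
    obtain ⟨h0, h1⟩ := hm i (List.mem_cons_self ..)
    have ih := abs_pen_zero_le ls (fun j hj => hm j (List.mem_cons_of_mem _ hj))
      (R := fun j => R (j + 1)) fun j hj => h (j + 1) (by simpa using hj)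
    simp only [pen, add_zero, mul_one, List.length_cons]
    push_cast
    have a0 : |m i * R 0| ≤ D := by
      rw [abs_mul, abs_of_nonneg h0]
      exact (mul_le_of_le_one_left (abs_nonneg _) h1).trans (h 0 (Nat.zero_le _))
    have a1 : |m i * R 1| ≤ D := by
      rw [abs_mul, abs_of_nonneg h0]
      exact (mul_le_of_le_one_left (abs_nonneg _) h1).trans (h 1 (by simp))
    refine (abs_add_le _ _).trans ?_
    linarith [abs_sub (m i * R 0) (m i * R 1)]

lemma integral_pen {Ω : Type} [MeasurableSpace Ω] {P : Measure Ω} (d : ι → ℝ) :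
    ∀ (ls : List ι) (q : ℝ) (R : Ω → ℕ → ℝ), (∀ j, Integrable (fun ω => R ω j) P) →
      Integrable (fun ω => pen m d ls q (R ω)) P ∧
        ∫ ω, pen m d ls q (R ω) ∂P = pen m d ls q fun j => ∫ ω, R ω j ∂P
  | [], q, R, h => by
    simp only [pen]
    exact ⟨(h 0).const_mul q, integral_const_mul _ _⟩
  | i :: ls, q, R, h => by
    obtain ⟨hi, he⟩ := integral_pen d ls (q + d i) (fun ω j => R ω (j + 1)) fun j => h (j + 1)
    simp only [pen]
    have h01 : Integrable (fun ω => m i * q * R ω 0 - m i * (q + d i) * R ω 1) P :=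
      ((h 0).const_mul _).sub ((h 1).const_mul _)
    refine ⟨h01.add hi, ?_⟩
    rw [integral_add h01 hi, integral_sub ((h 0).const_mul _) ((h 1).const_mul _), integral_const_mul,
      integral_const_mul, he]

end pairing

section change

variable {ι κ Z S : Type} [MeasurableSpace Z] [NormedAddCommGroup S]

lemma casc_mapList (γ : Measure Z) (m : κ → ℝ) (σ : κ → Z → S) (g : ι → κ) (G : S → ℝ) :
    ∀ (ls : List ι) x, casc γ m σ (ls.map g) G x = casc γ (fun i => m (g i)) (fun i => σ (g i)) ls G x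
  | [], _ => rfl
  | i :: ls, x => by simp only [List.map_cons, casc, casc_mapList γ m σ g G ls]

variable [MeasurableSpace S] [BorelSpace S] [SecondCountableTopology S] {γ : Measure Z}
  [IsProbabilityMeasure γ] {m : ι → ℝ} {σ : ι → Z → S} {K : ℝ} {G : S → ℝ} {F : S → ℝ} {C : ℝ}

lemma sq_tilt_le {c : ℝ} {X f : Z → ℝ} (h : Wgt γ c X) (hf : Measurable f) (hb : ∀ z, |f z| ≤ C) :
    tilt γ c X f ^ 2 ≤ tilt γ c X fun z => f z ^ 2 := by
  have i1 : Integrable (fun z => Real.exp (c * X z) * f z) γ := by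
    simpa only [smul_eq_mul] using h.integrable_smul hf.aestronglyMeasurable
      fun z => (Real.norm_eq_abs _).le.trans (hb z)
  have i2 : Integrable (fun z => Real.exp (c * X z) * f z ^ 2) γ := by
    simpa only [smul_eq_mul] using h.integrable_smul (hf.pow_const 2).aestronglyMeasurable
      fun z => ((Real.norm_eq_abs _).le.trans (abs_pow (f z) 2).le).trans
        (pow_le_pow_left₀ (abs_nonneg _) (hb z) 2)
  have i0 := h.int
  have hI := h.pos
  set T := tilt γ c X f with hT
  have e : 0 ≤ ∫ z, Real.exp (c * X z) * (f z - T) ^ 2 ∂γ :=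
    integral_nonneg fun z => mul_nonneg (Real.exp_pos _).le (sq_nonneg _)
  have e2 : ∫ z, Real.exp (c * X z) * (f z - T) ^ 2 ∂γ =
      (∫ z, Real.exp (c * X z) * f z ^ 2 ∂γ) - 2 * T * (∫ z, Real.exp (c * X z) * f z ∂γ) +
        T ^ 2 * ∫ z, Real.exp (c * X z) ∂γ := by
    have hfun : ∀ z, Real.exp (c * X z) * (f z - T) ^ 2 = Real.exp (c * X z) * f z ^ 2 -
        2 * T * (Real.exp (c * X z) * f z) + T ^ 2 * Real.exp (c * X z) := fun z => by ring
    simp only [hfun]
    rw [integral_add (i2.sub' (i1.const_mul _)) (i0.const_mul _), integral_sub i2 (i1.const_mul _),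
      integral_const_mul, integral_const_mul]
  have hTI : ∫ z, Real.exp (c * X z) * f z ∂γ = T * ∫ z, Real.exp (c * X z) ∂γ := by
    simp only [hT, tilt, smul_eq_mul]
    field_simp
  rw [e2, hTI] at e
  simp only [tilt, smul_eq_mul]
  rw [inv_mul_eq_div, le_div_iff₀ hI]
  linarith

/-- The level values increase along the levels. -/
lemma csq_le_succ (hG : Lip K G) (hF : Measurable F) (hC : ∀ x, ‖F x‖ ≤ C) :
    ∀ {ls : List ι}, Good γ m σ ls → ∀ j, j < ls.length → ∀ x,
      csq γ m σ ls G F j x ≤ csq γ m σ ls G F (j + 1) x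
  | [], _, j, hj, _ => absurd hj (by simp)
  | i :: ls, h, 0, _, x => by
    have hsh : Measurable fun z => x + σ i z := (good_cons.1 h).1.2.meas.const_add x
    have hgl := (good_cons.1 h).2
    simp only [csq, csq_zero, Real.norm_eq_abs, sq_abs]
    exact sq_tilt_le (casc_wgt h hG x) ((measurable_cmean hG hF hgl).comp hsh)
      fun z => (Real.norm_eq_abs _).symm.le.trans (norm_cmean_le hG hC hgl _)
  | i :: ls, h, j + 1, hj, x => by
    have hsh : Measurable fun z => x + σ i z := (good_cons.1 h).1.2.meas.const_add x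
    have hgl := (good_cons.1 h).2
    have hint : ∀ j, Integrable (fun z => Real.exp (m i * casc γ m σ ls G (x + σ i z)) *
        csq γ m σ ls G F j (x + σ i z)) γ := fun j => by
      simpa only [smul_eq_mul, Function.comp_apply] using (casc_wgt h hG x).integrable_smul
        ((measurable_csq hG hF hgl j).comp hsh).aestronglyMeasurable
        fun z => (Real.norm_eq_abs _).le.trans (abs_csq_le hG hC hgl j _)
    exact tilt_mono (casc_wgt h hG x) (hint j) (hint (j + 1))
      fun z => csq_le_succ hG hF hC hgl j (by simpa using hj) _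

end change

section gauss

variable {ι Z S F : Type} [MeasurableSpace Z] [NormedAddCommGroup S] [MeasurableSpace S] [BorelSpace S]
  [SecondCountableTopology S] [NormedAddCommGroup F] [InnerProductSpace ℝ F] [FiniteDimensional ℝ F]
  [MeasurableSpace F] [BorelSpace F]

lemma casc_joint_zero {γ : Measure Z} [IsProbabilityMeasure γ] (m : ι → ℝ) (σ : ι → Z → S)
    (G' : S × F → ℝ) : ∀ (ls : List ι) (x : S) (ζ : F),
      casc (γ.prod (stdGaussian F)) m (joint σ fun _ => 0) ls G' (x, ζ) =
        casc γ m σ ls (fun y => G' (y, ζ)) x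
  | [], _, _ => rfl
  | i :: ls, x, ζ => by
    simp only [casc, joint, Real.sqrt_zero, zero_smul, Prod.mk_add_mk, add_zero, lexp]
    have e : ∀ z : Z × F, casc (γ.prod (stdGaussian F)) m (joint σ fun _ => 0) ls G' (x + σ i z.1, ζ) =
        casc γ m σ ls (fun y => G' (y, ζ)) (x + σ i z.1) :=
      fun z => casc_joint_zero m σ G' ls _ _
    simp only [e]
    rw [integral_fun_fst fun z => Real.exp (m i * casc γ m σ ls (fun y => G' (y, ζ)) (x + σ i z)),
      probReal_univ, one_smul]

/-- The Gaussian average of a linear form vanishes. -/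
lemma integral_inner_gauss (a : F) : ∫ g : F, ⟪a, g⟫ ∂stdGaussian F = 0 := by
  simpa using integral_strongDual_stdGaussian (E := F) (innerSL ℝ a)

/-- Splitting the variance of every level. -/
lemma casc_split {m : ι → ℝ} {ls : List ι} (hm : ∀ i ∈ ls, 0 < m i) {a c e : ι → ℝ}
    (h : ∀ i ∈ ls, a i ^ 2 + e i = c i ^ 2 ∧ 0 ≤ e i) {K : ℝ} {G : F → ℝ} (hG : Lip K G) (x ζ : F) :
    casc ((stdGaussian F).prod (stdGaussian F)) m (joint (fun i z => a i • z) e) ls
      (fun q => G (q.1 + q.2)) (x, ζ) =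
    casc (stdGaussian F) m (fun i z => c i • z) ls G (x + ζ) := by
  have hmap := casc_map ((stdGaussian F).prod (stdGaussian F)) m (joint (fun i z => a i • z) e)
    (AddMonoidHom.mk' (fun q : F × F => q.1 + q.2) fun p q => by simp only [Prod.fst_add, Prod.snd_add]; abel)
    G ls (x, ζ)
  refine hmap.trans ?_
  have hlaw : ∀ i ∈ ls, ((stdGaussian F).prod (stdGaussian F)).map
      (fun q : F × F => a i • q.1 + Real.sqrt (e i) • q.2) = (stdGaussian F).map fun g => c i • g :=
    fun i hi => gauss_add (by rw [Real.sq_sqrt (h i hi).2]; exact (h i hi).1)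
  refine casc_law hG (fun i hi => ⟨hm i hi, ?_⟩) (fun i hi => ⟨hm i hi, shift_smul _⟩) hlaw _
  have hms : Measurable fun q : F × F => a i • q.1 + Real.sqrt (e i) • q.2 := by fun_prop
  refine ⟨hms, fun k => ?_⟩
  have hk : Measurable fun g : F => Real.exp (k * ‖g‖) := by fun_prop
  have h2 : Integrable (fun g : F => Real.exp (k * ‖g‖))
      (((stdGaussian F).prod (stdGaussian F)).map fun q : F × F => a i • q.1 + Real.sqrt (e i) • q.2) := by
    rw [hlaw i hi]
    exact (integrable_map_measure hk.aestronglyMeasurable (by fun_prop)).2 ((shift_smul _).int k)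
  exact (integrable_map_measure hk.aestronglyMeasurable hms.aemeasurable).1 h2

/-- Splitting the outer variance. -/
lemma integral_merge {G : F → ℝ} {K : ℝ} (hG : Lip K G) {a c e : ℝ} (he : 0 ≤ e)
    (h : a ^ 2 + e = c ^ 2) :
    ∫ x : F, ∫ g : F, G (a • x + Real.sqrt e • g) ∂stdGaussian F ∂stdGaussian F =
      ∫ u : F, G (c • u) ∂stdGaussian F := by
  have hg := gauss_add (E := F) (a := a) (b := Real.sqrt e) (c := c) (by rw [Real.sq_sqrt he]; exact h)
  have h1 : Measurable fun p : F × F => a • p.1 + Real.sqrt e • p.2 := by fun_prop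
  have h2 : Measurable fun u : F => c • u := by fun_prop
  have hic : Integrable (fun u : F => G (c • u)) (stdGaussian F) := by
    simpa using hG.integrable (shift_smul c) 0
  have hi : Integrable G (((stdGaussian F).prod (stdGaussian F)).map
      fun p : F × F => a • p.1 + Real.sqrt e • p.2) := by
    rw [hg]
    exact (integrable_map_measure hG.meas.aestronglyMeasurable h2.aemeasurable).2 hic
  rw [← integral_prod (fun p : F × F => G (a • p.1 + Real.sqrt e • p.2))
      ((integrable_map_measure hG.meas.aestronglyMeasurable h1.aemeasurable).1 hi),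
    ← integral_map h1.aemeasurable hG.meas.aestronglyMeasurable, hg,
    integral_map h2.aemeasurable hG.meas.aestronglyMeasurable]

/-- The averaged second-order expansion of a nested functional. -/
theorem expand_mean (m : ι → ℝ) (ls : List ι) (hm : ∀ i ∈ ls, 0 < m i ∧ m i ≤ 1) {C : ℝ} (hC : 1 ≤ C) :
    ∃ C', 0 ≤ C' ∧ ∀ {γ : Measure Z} [IsProbabilityMeasure γ] {σ : ι → Z → S} {e : ι → ℝ} {ε K K' : ℝ}
      {G : S → ℝ} {G' : S × F → ℝ} {Λ : S → F} {Q : S × F → ℝ} {a1 a0 : S → ℝ}
      {Ω : Type} [MeasurableSpace Ω] {P : Measure Ω} [IsProbabilityMeasure P] {x : Ω → S} {acc : ℝ},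
      Good γ m σ ls → (∀ i ∈ ls, 0 ≤ e i ∧ Real.sqrt (e i) ≤ ε) → ε ≤ 1 → 0 ≤ acc →
      Real.sqrt acc ≤ ε → Lip K G → Lip K' G' → Approx C ε G G' Λ Q → Measurable a1 → Measurable a0 →
      (∀ y, |a1 y| ≤ C) → (∀ y, |a0 y| ≤ C) →
      (∀ y t, 0 ≤ t → ∫ z : F, Q (y, Real.sqrt t • z) ∂stdGaussian F =
        (a1 y * t + a0 y - t * ‖Λ y‖ ^ 2) / 2) →
      Shift P x →
      |∫ ω, ∫ g : F, casc (γ.prod (stdGaussian F)) m (joint σ e) ls G' (x ω, Real.sqrt acc • g)
          ∂stdGaussian F ∂P -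
        ∫ ω, casc γ m σ ls G (x ω) ∂P -
        ((∫ ω, cmean γ m σ ls G a1 (x ω) ∂P) * (acc + (ls.map e).sum) + ∫ ω, cmean γ m σ ls G a0 (x ω) ∂P -
          pen m e ls acc fun j => ∫ ω, csq γ m σ ls G Λ j (x ω) ∂P) / 2| ≤ C' * ε ^ 3 := by
  obtain ⟨C1, hC1, h1⟩ := approx_casc (Z := Z) (S := S) (F := F) m ls hm C hC
  set γF := stdGaussian F
  set K1 := C1 * (Real.exp C1 * ∫ g : F, Real.exp ((3 + C1) * ‖g‖) ∂γF) with hK1
  refine ⟨K1, by positivity, ?_⟩
  intro γ _ σ e ε K K' G G' Λ Q a1 a0 Ω _ P _ x acc hg he hε hacc hae hG hG' hA ha1 ha0 hb1 hb0 htop hx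
  have hε0 : 0 ≤ ε := (Real.sqrt_nonneg _).trans hae
  have hA1 := h1 hg he hε hG hG' hA
  set k := Real.sqrt acc
  set A' := casc (γ.prod γF) m (joint σ e) ls G' with hA'
  set A0 := casc γ m σ ls G with hA0
  set Λ1 := cmean γ m σ ls G Λ with hΛ1
  set Q1 := qRec γ m σ e G Λ Q ls with hQ1
  have hreg : ∀ ls', ls' <:+ ls → ∃ D, Measurable (qRec γ m σ e G Λ Q ls') ∧
      ∀ y ζ, |qRec γ m σ e G Λ Q ls' (y, ζ)| ≤ D * (ε + ‖ζ‖) ^ 2 := fun ls' hls' => by
    obtain ⟨D, _, h2⟩ := approx_casc (Z := Z) (S := S) (F := F) m ls'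
      (fun i hi => hm i (hls'.subset hi)) C hC
    have h3 := h2 (fun i hi => hg i (hls'.subset hi)) (fun i hi => he i (hls'.subset hi)) hε hG hG' hA
    exact ⟨D, h3.measQ, h3.bdQ⟩
  have hT : ∀ y, ∫ z : F, Q1 (y, k • z) ∂γF = (cmean γ m σ ls G a1 y * (acc + (ls.map e).sum) +
      cmean γ m σ ls G a0 y - pen m e ls acc fun j => csq γ m σ ls G Λ j y) / 2 := fun y =>
    integral_qRec hε0 hG hA.measΛ hA.bdΛ ha1 ha0 hb1 hb0 htop hg (fun i hi => (he i hi).1) hreg y acc hacc
  have hxg : Shift (P.prod γF) fun q : Ω × F => (x q.1, k • q.2) := hx.prodMk (shift_smul k)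
  have j' : Integrable (fun q : Ω × F => A' (x q.1, k • q.2)) (P.prod γF) := by
    have h := (hG'.casc (good_joint (F := F) e hg)).integrable hxg 0
    simpa [A'] using h
  have j0 : Integrable (fun ω => A0 (x ω)) P := by simpa [A0] using (hG.casc hg).integrable hx 0
  have hn : ∀ g : F, ε + ‖k • g‖ ≤ ε * (1 + ‖g‖) := fun g => by
    rw [norm_smul, Real.norm_eq_abs, abs_of_nonneg (Real.sqrt_nonneg _), mul_add, mul_one]
    linarith [mul_le_mul_of_nonneg_right hae (norm_nonneg g)]
  have hφm : Measurable fun q : Ω × F => ((x q.1, k • q.2) : S × F) :=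
    (hx.meas.comp measurable_fst).prodMk (measurable_snd.const_smul k)
  have jL : Integrable (fun q : Ω × F => ⟪Λ1 (x q.1), k • q.2⟫) (P.prod γF) := by
    refine Integrable.mono' (((integrable_norm_pow (E := F) 1).const_mul (C1 * |k|)).comp_snd P)
      (((hA1.measΛ.comp hx.meas).comp measurable_fst).inner (measurable_snd.const_smul k)).aestronglyMeasurable
      (Eventually.of_forall fun q => ?_)
    rw [Real.norm_eq_abs, pow_one]
    refine (abs_real_inner_le_norm _ _).trans ?_
    rw [norm_smul, Real.norm_eq_abs, mul_assoc]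
    exact mul_le_mul_of_nonneg_right (hA1.bdΛ _) (by positivity)
  have jQ : Integrable (fun q : Ω × F => Q1 (x q.1, k • q.2)) (P.prod γF) := by
    refine Integrable.mono' ((integrable_sq_bound (C := C1 * ε ^ 2) (ε := 1)).comp_snd P)
      (hA1.measQ.comp hφm).aestronglyMeasurable (Eventually.of_forall fun q => ?_)
    rw [Real.norm_eq_abs, mul_assoc, ← mul_pow]
    exact (hA1.bdQ _ _).trans (mul_le_mul_of_nonneg_left (pow_le_pow_left₀ (by positivity) (hn q.2) 2)
      (by linarith))
  have jA : Integrable (fun q : Ω × F => A0 (x q.1)) (P.prod γF) := j0.comp_fst γF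
  have hL0 : ∫ q : Ω × F, ⟪Λ1 (x q.1), k • q.2⟫ ∂P.prod γF = 0 := by
    rw [integral_prod _ jL]
    simp [real_inner_smul_right, integral_const_mul, γF, integral_inner_gauss]
  have hdiff : |∫ q : Ω × F, (A' (x q.1, k • q.2) - A0 (x q.1) - ⟪Λ1 (x q.1), k • q.2⟫ -
      Q1 (x q.1, k • q.2)) ∂P.prod γF| ≤ K1 * ε ^ 3 := by
    have hb : Integrable (fun g : F => C1 * ε ^ 3 * (Real.exp C1 * Real.exp ((3 + C1) * ‖g‖))) γF :=
      ((integrable_exp_mul_norm (F := F) (3 + C1)).const_mul (Real.exp C1)).const_mul (C1 * ε ^ 3)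
    rw [← Real.norm_eq_abs]
    refine (norm_integral_le_of_norm_le (μ := P.prod γF) (hb.comp_snd P) (Eventually.of_forall fun q => ?_)).trans ?_
    · rw [Real.norm_eq_abs]
      refine (hA1.bd3 _ _).trans ?_
      set n := ‖q.2‖
      have hn0 : 0 ≤ n := norm_nonneg _
      have h0 : 0 ≤ ε + ‖k • q.2‖ := by positivity
      simp only [env]
      calc C1 * (ε + ‖k • q.2‖) ^ 3 * Real.exp (C1 * (ε + ‖k • q.2‖))
          ≤ C1 * (ε * (1 + n)) ^ 3 * Real.exp (C1 * (1 + n)) := by
            refine mul_le_mul (mul_le_mul_of_nonneg_left (pow_le_pow_left₀ h0 (hn q.2) 3) (by linarith))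
              (Real.exp_le_exp.2 (mul_le_mul_of_nonneg_left ?_ (by linarith))) (Real.exp_pos _).le
              (by positivity)
            exact (hn q.2).trans (mul_le_of_le_one_left (by positivity) hε)
        _ ≤ C1 * ε ^ 3 * (Real.exp n ^ 3 * Real.exp (C1 * (1 + n))) := by
            rw [mul_pow, ← mul_assoc C1, mul_assoc (C1 * ε ^ 3)]
            gcongr
            linarith [Real.add_one_le_exp n]
        _ = _ := by
            rw [← Real.exp_nat_mul, ← Real.exp_add, ← Real.exp_add]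
            push_cast
            ring_nf
    · rw [integral_fun_snd (fun g : F => C1 * ε ^ 3 * (Real.exp C1 * Real.exp ((3 + C1) * ‖g‖))),
        probReal_univ, one_smul, integral_const_mul, integral_const_mul, hK1]
      exact le_of_eq (by ring)
  have hTi : Integrable (fun ω => ∫ z : F, Q1 (x ω, k • z) ∂γF) P := jQ.integral_prod_left
  rw [integral_sub ((j'.sub' jA).sub' jL) jQ, integral_sub (j'.sub' jA) jL, integral_sub j' jA, hL0,
    sub_zero, integral_prod _ j', integral_prod _ jQ, integral_fun_fst fun ω => A0 (x ω), probReal_univ,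
    one_smul] at hdiff
  simp only [hT] at hdiff
  have iC : ∀ {V : S → ℝ}, Measurable V → (∃ B, ∀ y, |V y| ≤ B) → Integrable (fun ω => V (x ω)) P :=
    fun {V} hV hB => by
      obtain ⟨B, hB⟩ := hB
      exact Integrable.mono' (integrable_const B) (hV.comp hx.meas).aestronglyMeasurable
        (Eventually.of_forall fun ω => (Real.norm_eq_abs _).le.trans (hB _))
  have j1 := iC (measurable_cmean (γ := γ) (m := m) (σ := σ) hG ha1 hg) ⟨C, fun y =>
    (Real.norm_eq_abs _).symm.le.trans (norm_cmean_le hG (fun y => (Real.norm_eq_abs _).le.trans (hb1 y)) hg y)⟩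
  have j2 := iC (measurable_cmean (γ := γ) (m := m) (σ := σ) hG ha0 hg) ⟨C, fun y =>
    (Real.norm_eq_abs _).symm.le.trans (norm_cmean_le hG (fun y => (Real.norm_eq_abs _).le.trans (hb0 y)) hg y)⟩
  have jR := fun j => iC (measurable_csq (γ := γ) (m := m) (σ := σ) hG hA.measΛ hg j)
    ⟨C ^ 2, fun y => abs_csq_le hG hA.bdΛ hg j y⟩
  obtain ⟨jP, eP⟩ := integral_pen m e ls acc (fun ω j => csq γ m σ ls G Λ j (x ω)) jR
  rwa [integral_div, integral_sub ((j1.mul_const _).fun_add j2) jP, integral_add (j1.mul_const _) j2,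
    integral_mul_const, eP] at hdiff

end gauss

end Vale.Agent.P157.RSB
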