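import Vale.Agent.P157.Defs

/-!
Parisi's free energy of the Gaussian perceptron with finitely many levels of replica symmetry breaking.
A level is a pair `(m, d)`: exponent and increment of the overlap.
-/

namespace Vale.Agent.P157

open MeasureTheory ProbabilityTheory

/-- The nested potential of the levels `ls`, with variance `s` left for the innermost average. -/
noncomputable def rsbPot (f : ℝ → ℝ) : List (ℝ × ℝ) → ℝ → ℝ → ℝ
  | [], s, y => Real.log (∫ z, Real.exp (f (y + Real.sqrt s * z)) ∂gaussianReal 0 1)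
  | (m, d) :: ls, s, y =>
      Real.log (∫ z, Real.exp (m * rsbPot f ls s (y + Real.sqrt d * z)) ∂gaussianReal 0 1) / m

/-- The derivative of the nested potential. -/
noncomputable def rsbSlope (f : ℝ → ℝ) : List (ℝ × ℝ) → ℝ → ℝ → ℝ
  | [], s, y => (∫ z, z * Real.exp (f (y + Real.sqrt s * z)) ∂gaussianReal 0 1) / Real.sqrt s /
      ∫ z, Real.exp (f (y + Real.sqrt s * z)) ∂gaussianReal 0 1
  | (m, d) :: ls, s, y =>
      (∫ z, Real.exp (m * rsbPot f ls s (y + Real.sqrt d * z)) * rsbSlope f ls s (y + Real.sqrt d * z)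
        ∂gaussianReal 0 1) /
      ∫ z, Real.exp (m * rsbPot f ls s (y + Real.sqrt d * z)) ∂gaussianReal 0 1

/-- The squared slope at depth `j`, averaged over the outer levels with their tilts. -/
noncomputable def rsbSq (f : ℝ → ℝ) : List (ℝ × ℝ) → ℝ → ℕ → ℝ → ℝ
  | ls, s, 0, y => rsbSlope f ls s y ^ 2
  | [], _, _ + 1, _ => 0
  | (m, d) :: ls, s, j + 1, y =>
      (∫ z, Real.exp (m * rsbPot f ls s (y + Real.sqrt d * z)) * rsbSq f ls s j (y + Real.sqrt d * z)
        ∂gaussianReal 0 1) /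
      ∫ z, Real.exp (m * rsbPot f ls s (y + Real.sqrt d * z)) ∂gaussianReal 0 1

/-- The variance left after all levels. -/
def rsbRest (q0 : ℝ) (ls : List (ℝ × ℝ)) : ℝ := 1 - q0 - (ls.map Prod.snd).sum

/-- The energy per pattern. -/
noncomputable def rsbEnergy (f : ℝ → ℝ) (q0 : ℝ) (ls : List (ℝ × ℝ)) : ℝ :=
  ∫ y, rsbPot f ls (rsbRest q0 ls) (Real.sqrt q0 * y) ∂gaussianReal 0 1

/-- The conjugate overlaps per pattern, given by the saddle-point equations. -/
noncomputable def rsbOverlap (f : ℝ → ℝ) (q0 : ℝ) (ls : List (ℝ × ℝ)) (j : ℕ) : ℝ :=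
  ∫ y, rsbSq f ls (rsbRest q0 ls) j (Real.sqrt q0 * y) ∂gaussianReal 0 1

/-- The term pairing the overlaps with their conjugates. -/
def rsbPair : List (ℝ × ℝ) → ℝ → (ℕ → ℝ) → ℝ
  | [], q, R => (1 - q) * R 0
  | (m, d) :: ls, q, R => m * ((q + d) * R 1 - q * R 0) + rsbPair ls (q + d) fun j => R (j + 1)

/-- The nested single-spin entropy at conjugate overlaps `R`. -/
noncomputable def rsbSpin : List (ℝ × ℝ) → (ℕ → ℝ) → ℝ → ℝ
  | [], _, x => Real.log (Real.cosh x)
  | (m, _) :: ls, R, x =>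
      Real.log (∫ z, Real.exp (m * rsbSpin ls (fun j => R (j + 1)) (x + Real.sqrt (R 1 - R 0) * z))
        ∂gaussianReal 0 1) / m

/-- Parisi's free energy of the Ising perceptron. -/
noncomputable def parisiIsing (f : ℝ → ℝ) (α q0 : ℝ) (ls : List (ℝ × ℝ)) : ℝ :=
  α * rsbEnergy f q0 ls - α / 2 * rsbPair ls q0 (rsbOverlap f q0 ls) +
    ∫ x, rsbSpin ls (fun j => α * rsbOverlap f q0 ls j) (Real.sqrt (α * rsbOverlap f q0 ls 0) * x)
      ∂gaussianReal 0 1

/-- The multiplier seen at the outermost level. -/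
def rsbMult : List (ℝ × ℝ) → (ℕ → ℝ) → ℝ → ℝ
  | [], _, z => z
  | (m, _) :: ls, R, z => rsbMult ls (fun j => R (j + 1)) z - m * (R 1 - R 0)

/-- The logarithmic terms of the spherical entropy. -/
noncomputable def rsbLogs : List (ℝ × ℝ) → (ℕ → ℝ) → ℝ → ℝ
  | [], _, _ => 0
  | (m, d) :: ls, R, z => rsbLogs ls (fun j => R (j + 1)) z +
      Real.log (rsbMult ls (fun j => R (j + 1)) z / rsbMult ((m, d) :: ls) R z) / (2 * m)

/-- Parisi's free energy of the spherical perceptron at multiplier `z`. -/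
noncomputable def parisiSphere (f : ℝ → ℝ) (α q0 : ℝ) (ls : List (ℝ × ℝ)) (z : ℝ) : ℝ :=
  let R := fun j => α * rsbOverlap f q0 ls j
  α * rsbEnergy f q0 ls - α / 2 * rsbPair ls q0 (rsbOverlap f q0 ls) +
    ((z - 1 - Real.log z) / 2 + rsbLogs ls R z + R 0 / (2 * rsbMult ls R z))

/-- An order parameter: exponents increasing in `(0, 1]`, overlaps increasing in `[0, 1)`. -/
def RsbParam (q0 : ℝ) (ls : List (ℝ × ℝ)) : Prop :=
  0 ≤ q0 ∧ List.IsChain (· ≤ ·) (ls.map Prod.fst) ∧ (∀ p ∈ ls, 0 < p.1 ∧ p.1 ≤ 1 ∧ 0 ≤ p.2) ∧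
    q0 + (ls.map Prod.snd).sum < 1

end Vale.Agent.P157
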