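import Vale.Agent.P157.RSB.SphereEntropy
import Vale.Agent.P157.Model

/-!
The Parisi upper bound for the limiting pressures.
-/

namespace Vale.Agent.P157.RSB

open MeasureTheory ProbabilityTheory Filter
open scoped RealInnerProductSpace Topology

variable {f : ℝ → ℝ} {a : ℝ} {ν : Measure ℝ} {q0 α : ℝ} {ls : List (ℝ × ℝ)}

lemma ordered_param (h : RsbParam q0 ls) (R : ℕ → ℝ) : Ordered (withR ls R) :=
  ordered_withR ls R h.2.1 fun p hp => ⟨(h.2.2.1 p hp).1, (h.2.2.1 p hp).2.1⟩

/-- The limit on the cube is below Parisi's value at every order parameter. -/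
theorem limit_le_parisiIsing (hk : Ker f a ν) (hα : 0 < α) (h : RsbParam q0 ls) :
    (superAdd_cube hk).limit α ≤ parisiIsing f α q0 ls := by
  have hF := superAdd_cube hk
  refine le_of_tendsto (hF.tendsto_poiE hα) ?_
  filter_upwards [eventually_ge_atTop 1] with N hN
  have hN0 : (0 : ℝ) < N := by exact_mod_cast hN
  have hb := rsb_bound_param (μ := cubeMeasure N) hk h (measurable_of_finite _) (norm_cubeVec hN)
    (mul_nonneg hα.le hN0.le)
  rw [fldPsi_cube hN (ordered_param h _) (ordered_param h _)] at hb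
  rw [div_le_iff₀ hN0]
  refine le_trans (le_of_eq rfl) (hb.trans (le_of_eq ?_))
  simp only [parisiIsing]
  ring

/-- The limit on the sphere is below Parisi's value at every order parameter and multiplier. -/
theorem limit_le_parisiSphere (hk : Ker f a ν) (hα : 0 < α) (h : RsbParam q0 ls) {z : ℝ} (hz : 1 ≤ z)
    (hW : 0 < rsbMult ls (fun j => α * rsbOverlap f q0 ls j) z) :
    (superAdd_sphere hk).limit α ≤ parisiSphere f α q0 ls z := by
  have hF := superAdd_sphere hk
  set R := rsbOverlap f q0 ls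
  set αR : ℕ → ℝ := fun j => α * R j
  set U : ℝ → ℝ := fun ε => α * rsbEnergy f q0 ls - α / 2 * rsbPair ls q0 R +
    (((z - 1) * (1 + ε) - Real.log z) / 2 + rsbLogs ls αR ((1 - ε) * z) +
      αR 0 / (2 * rsbMult ls αR ((1 - ε) * z)))
  have hw0 : (1 - 0) * z = z := by ring
  have hmc : Continuous fun ε : ℝ => rsbMult ls αR ((1 - ε) * z) :=
    (continuous_mult ls αR).comp (by fun_prop)
  have hadm := adm_of_param hk h
  have hε : ∀ ε, 0 < ε → ε < 1 → 0 < rsbMult ls αR ((1 - ε) * z) → hF.limit α ≤ U ε :=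
    fun ε he he1 hWε => by
    have hC : Tendsto (fun N : ℕ => shellC / (ε ^ 2 * N)) atTop (𝓝 0) := by
      simp only [← div_div]
      exact tendsto_const_div_atTop_nhds_zero_nat _
    have hlog : Tendsto (fun N : ℕ => Real.log (1 - shellC / (ε ^ 2 * N)) / N) atTop (𝓝 0) := by
      have h1 : Tendsto (fun N : ℕ => Real.log (1 - shellC / (ε ^ 2 * N))) atTop (𝓝 0) := by
        have := ((tendsto_const_nhds (x := (1 : ℝ))).sub hC).log (by norm_num)
        simpa using this
      simpa [div_eq_mul_inv] using h1.mul (tendsto_inv_atTop_nhds_zero_nat (𝕜 := ℝ))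
    have hlim : Tendsto (fun N : ℕ => U ε - Real.log (1 - shellC / (ε ^ 2 * N)) / N) atTop
        (𝓝 (U ε)) := by simpa using (tendsto_const_nhds (x := U ε)).sub hlog
    refine le_of_tendsto_of_tendsto (hF.tendsto_poiE hα) hlim ?_
    filter_upwards [eventually_ge_atTop 1, hC.eventually (Iio_mem_nhds one_pos)] with N hN hC1
    have hN0 : (0 : ℝ) < N := by exact_mod_cast hN
    have := isProbabilityMeasure_sphereMeasure hN
    have hb := rsb_bound_param (μ := sphereMeasure N) (v := (Subtype.val : Sph N → _)) hk h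
      measurable_subtype_coe (fun x => mem_sphere_zero_iff_norm.1 x.2) (mul_nonneg hα.le hN0.le)
    have h2 := fldPsi_sphere hN hz he he1 hC1 hα (ls := ls) (R := R) hadm.ord hadm.r_nonneg
      (overlap_nonneg hk h) hWε
    rw [div_le_iff₀ hN0, sub_mul, div_mul_cancel₀ _ hN0.ne']
    refine le_trans (le_of_eq rfl) (hb.trans ((add_le_add h2 le_rfl).trans (le_of_eq ?_)))
    simp only [U, shellP, αR]
    ring
  have hc : ContinuousAt U 0 := by
    have h1 : ContinuousAt (fun ε : ℝ => rsbLogs ls αR ((1 - ε) * z)) 0 := by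
      refine ContinuousAt.comp (g := rsbLogs ls αR) ?_ (Continuous.continuousAt (by fun_prop))
      rw [hw0]
      exact continuousAt_logs ls αR (fun p hp => (h.2.2.1 p hp).1.le)
        (fun j hj => mul_le_mul_of_nonneg_left (overlap_le_succ hk h hj) hα.le) hW
    refine continuousAt_const.add (((Continuous.continuousAt (by fun_prop)).add h1).add
      (continuousAt_const.div (hmc.continuousAt.const_mul 2) ?_))
    rw [hw0]
    positivity
  have hev : ∀ᶠ ε in 𝓝[>] (0 : ℝ), hF.limit α ≤ U ε := by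
    have h3 : ∀ᶠ ε in 𝓝 (0 : ℝ), 0 < rsbMult ls αR ((1 - ε) * z) := by
      refine hmc.continuousAt.eventually (Ioi_mem_nhds ?_)
      show (0 : ℝ) < rsbMult ls αR ((1 - 0) * z)
      rwa [hw0]
    filter_upwards [self_mem_nhdsWithin, nhdsWithin_le_nhds (Iio_mem_nhds (zero_lt_one' ℝ)),
      nhdsWithin_le_nhds h3] with ε h1 h2 h4 using hε ε h1 h2 h4
  refine (ge_of_tendsto (hc.tendsto.mono_left nhdsWithin_le_nhds) hev).trans (le_of_eq ?_)
  simp only [U, hw0, parisiSphere, αR, R]
  ring

/-- Without levels, Parisi's value is Gardner's. -/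
lemma parisiIsing_nil (f : ℝ → ℝ) (α q : ℝ) : parisiIsing f α q [] = gardnerIsing f α q := by
  simp [parisiIsing, gardnerIsing, rsbEnergy, gardnerEnergy, rsbOverlap, gardnerOverlap, rsbSq, rsbSlope,
    rsbPot, rsbPair, rsbSpin, rsbRest]
  ring

/-- For the kernel class both limits exist and lie below Parisi's values. -/
theorem parisi_upper_bound [IsFiniteMeasure ν] (hlt : ν.real Set.univ < a)
    (heq : ∀ x, Real.exp (f x) = a - ∫ t, Real.cos (t * x) ∂ν) (hα : 0 < α) :
    (∃ p, Tendsto (fun N : ℕ => cubePressure f N ⌊α * N⌋₊) atTop (𝓝 p) ∧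
      ∀ q0 ls, RsbParam q0 ls → p ≤ parisiIsing f α q0 ls) ∧
    ∃ p, Tendsto (fun N : ℕ => spherePressure f N ⌊α * N⌋₊) atTop (𝓝 p) ∧
      ∀ q0 ls z, RsbParam q0 ls → 1 ≤ z →
        0 < rsbMult ls (fun j => α * rsbOverlap f q0 ls j) z → p ≤ parisiSphere f α q0 ls z := by
  have hk := ker_symmetrise hlt heq
  exact ⟨⟨_, ((superAdd_cube hk).limit_spec hα fun N _ k => cubeF_eq hk.pot N k).1,
      fun q0 ls hp => limit_le_parisiIsing hk hα hp⟩,
    ⟨_, ((superAdd_sphere hk).limit_spec hα fun N hN k => sphereF_eq hk.pot hN k).1,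
      fun q0 ls z hp hz hW => limit_le_parisiSphere hk hα hp hz hW⟩⟩

end Vale.Agent.P157.RSB
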