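import Vale.Agent.P157.RSB.CubeEntropy

/-!
The nested entropy of the sphere.
-/

namespace Vale.Agent.P157.RSB

open MeasureTheory ProbabilityTheory Filter
open scoped RealInnerProductSpace Topology

lemma gauss_quad {a k : ℝ} (h : 2 * a * k ^ 2 < 1) (x : ℝ) :
    Integrable (fun z : ℝ => Real.exp (a * (x + k * z) ^ 2)) (gaussianReal 0 1) ∧
      ∫ z, Real.exp (a * (x + k * z) ^ 2) ∂gaussianReal 0 1 =
        Real.exp (a * x ^ 2 / (1 - 2 * a * k ^ 2)) / Real.sqrt (1 - 2 * a * k ^ 2) := by
  set D := 1 - 2 * a * k ^ 2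
  have hD : 0 < D := by simp only [D]; linarith
  set b := D / 2
  have hb : 0 < b := by positivity
  set c := 2 * a * k * x / D
  set e := a * x ^ 2 / D
  have hp : ∀ z : ℝ, gaussianPDFReal 0 1 z • Real.exp (a * (x + k * z) ^ 2) =
      (Real.sqrt (2 * Real.pi))⁻¹ * Real.exp e * Real.exp (-b * (z - c) ^ 2) := fun z => by
    simp only [gaussianPDFReal, NNReal.coe_one, mul_one, sub_zero, smul_eq_mul]
    rw [mul_assoc, mul_assoc, ← Real.exp_add, ← Real.exp_add]
    congr 2
    simp only [e, b, c]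
    field_simp
    simp only [D]
    ring
  have hint : Integrable fun z : ℝ => (Real.sqrt (2 * Real.pi))⁻¹ * Real.exp e * Real.exp (-b * (z - c) ^ 2) :=
    ((integrable_exp_neg_mul_sq hb).comp_sub_right c).const_mul _
  constructor
  · rw [gaussianReal_of_var_ne_zero 0 one_ne_zero,
      integrable_withDensity_iff (measurable_gaussianPDF _ _) (Eventually.of_forall fun z => gaussianPDF_lt_top)]
    refine hint.congr (Eventually.of_forall fun z => ?_)
    simp only [toReal_gaussianPDF, ← hp z, smul_eq_mul]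
    ring
  · rw [integral_gaussianReal_eq_integral_smul one_ne_zero]
    simp only [hp]
    rw [integral_const_mul, integral_sub_right_eq_self (fun z : ℝ => Real.exp (-b * z ^ 2)), integral_gaussian]
    rw [mul_right_comm, eq_div_iff (Real.sqrt_pos.2 hD).ne', mul_right_comm, mul_assoc _ (Real.sqrt (Real.pi / b)),
      ← Real.sqrt_mul (by positivity), show Real.pi / b * D = 2 * Real.pi by simp only [b]; field_simp,
      inv_mul_cancel₀ (by positivity), one_mul]

variable {N : ℕ}

lemma gauss_quad_vec {a k : ℝ} (h : 2 * a * k ^ 2 < 1) (x : EuclideanSpace ℝ (Fin N)) :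
    Integrable (fun g => Real.exp (a * ‖x + k • g‖ ^ 2)) (stdGaussian (EuclideanSpace ℝ (Fin N))) ∧
      ∫ g, Real.exp (a * ‖x + k • g‖ ^ 2) ∂stdGaussian (EuclideanSpace ℝ (Fin N)) =
        Real.exp (a * ‖x‖ ^ 2 / (1 - 2 * a * k ^ 2)) / Real.sqrt (1 - 2 * a * k ^ 2) ^ N := by
  have e : ∀ g : EuclideanSpace ℝ (Fin N), Real.exp (a * ‖x + k • g‖ ^ 2) =
      ∏ i, Real.exp (a * (x i + k * g i) ^ 2) := fun g => by
    rw [← Real.exp_sum, EuclideanSpace.real_norm_sq_eq, Finset.mul_sum]
    simp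
  simp only [e]
  have hme : Measurable fun g : EuclideanSpace ℝ (Fin N) => ∏ i, Real.exp (a * (x i + k * g i) ^ 2) :=
    Finset.measurable_fun_prod _ fun i _ => by fun_prop
  rw [← map_pi_eq_stdGaussian]
  constructor
  · rw [integrable_map_measure hme.aestronglyMeasurable (by fun_prop)]
    exact Integrable.fintype_prod (f := fun i z => Real.exp (a * (x i + k * z) ^ 2))
      fun i => (gauss_quad h (x i)).1
  · rw [integral_map (by fun_prop) hme.aestronglyMeasurable]
    rw [integral_fintype_prod_eq_prod (fun i z => Real.exp (a * (x i + k * z) ^ 2))]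
    simp only [(gauss_quad h _).2]
    rw [Finset.prod_div_distrib, Finset.prod_const, Finset.card_univ, Fintype.card_fin, ← Real.exp_sum,
      EuclideanSpace.real_norm_sq_eq, Finset.mul_sum, Finset.sum_div]

/-- The cost of pushing the field onto the sphere. -/
noncomputable def shellP (N : ℕ) (z ε : ℝ) : ℝ :=
  (N : ℝ) / 2 * (Real.log z - (z - 1) * (1 + ε)) + Real.log (1 - shellC / (ε ^ 2 * N))

lemma hBase_sphere_le (hN : 1 ≤ N) {z ε : ℝ} (hz : 1 ≤ z) (hε : 0 < ε) (hε1 : ε < 1)
    (hC : shellC / (ε ^ 2 * N) < 1) (H : EuclideanSpace ℝ (Fin N)) :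
    hBase (sphereMeasure N) (fun _ => 1) Subtype.val H ≤
      ‖H‖ ^ 2 / (2 * N * ((1 - ε) * z)) - shellP N z ε := by
  have := isProbabilityMeasure_sphereMeasure hN
  let E := EuclideanSpace ℝ (Fin N)
  have hN0 : (0 : ℝ) < N := by exact_mod_cast hN
  have hw : 0 < (1 - ε) * z := mul_pos (by linarith) (by linarith)
  set ρ := Real.sqrt ((1 - ε) * z * N)
  set θ := Real.sqrt (((1 - ε) * z * N)⁻¹)
  have hθρ : θ * ρ = 1 := by
    rw [← Real.sqrt_mul (inv_nonneg.2 (by positivity)), inv_mul_cancel₀ (by positivity), Real.sqrt_one]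
  have hprob : Real.exp (shellP N z ε) ≤ (stdGaussian E).real {g | ρ ≤ ‖g‖} := by
    rw [shellP, Real.exp_add, Real.exp_log (by linarith)]
    refine (long_prob hN hz hε).trans (le_of_eq ?_)
    rw [← map_pi_eq_stdGaussian, map_measureReal_apply (by fun_prop)
      (measurableSet_le measurable_const measurable_norm)]
    congr 1
    ext x
    simp only [Set.mem_preimage, Set.mem_ofPred_eq, ρ]
    rw [Real.sqrt_le_left (norm_nonneg _), EuclideanSpace.real_norm_sq_eq]
  have h1 := sphZ_mul_prob_le hN H (θ := θ) (ρ := ρ) (Real.sqrt_nonneg _) (Real.sqrt_nonneg _)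
  rw [hθρ, Real.sq_sqrt (inv_nonneg.2 (by positivity))] at h1
  have h2 := (mul_le_mul_of_nonneg_left hprob (sphZ_pos hN H _).le).trans h1
  have e : hBase (sphereMeasure N) (fun _ => 1) Subtype.val H = Real.log (sphZ H 1) := by
    simp [hBase, sphZ]
  rw [e, Real.log_le_iff_le_exp (sphZ_pos hN H _), Real.exp_sub, le_div_iff₀ (Real.exp_pos _)]
  refine h2.trans (le_of_eq ?_)
  congr 1
  field_simp

variable {α : ℝ}

lemma mult_le {m d z : ℝ} {ls : List (ℝ × ℝ)} {R : ℕ → ℝ} (hm : 0 ≤ m) (hR : R 0 ≤ R 1) :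
    rsbMult ((m, d) :: ls) R z ≤ rsbMult ls (fun j => R (j + 1)) z := by
  simp only [rsbMult]
  linarith [mul_nonneg hm (sub_nonneg.2 hR)]

lemma casc_sphere_le (hN : 1 ≤ N) {z ε : ℝ} (hz : 1 ≤ z) (hε : 0 < ε) (hε1 : ε < 1)
    (hC : shellC / (ε ^ 2 * N) < 1) (hα : 0 < α) : ∀ (ls : List (ℝ × ℝ)) (R : ℕ → ℝ),
    Ordered (withR ls R) → (∀ i ∈ withR ls R, 0 ≤ i.2.2) →
    0 < rsbMult ls (fun j => α * R j) ((1 - ε) * z) → ∀ x : EuclideanSpace ℝ (Fin N),
    casc (stdGaussian (EuclideanSpace ℝ (Fin N))) levM (sh (α * N)) (withR ls R)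
        (hBase (sphereMeasure N) (fun _ => 1) Subtype.val) x ≤
      ‖x‖ ^ 2 / (2 * N * rsbMult ls (fun j => α * R j) ((1 - ε) * z)) +
        N * rsbLogs ls (fun j => α * R j) ((1 - ε) * z) - shellP N z ε
  | [], R, _, _, _, x => by
    simp only [withR, casc, rsbMult, rsbLogs, mul_zero, add_zero]
    exact hBase_sphere_le hN hz hε hε1 hC x
  | (m, d) :: ls, R, h, hr, hW, x => by
    have := isProbabilityMeasure_sphereMeasure hN
    have hm : 0 < m := h.1
    have hR01 : R 0 ≤ R 1 := sub_nonneg.1 (hr _ (List.mem_cons_self ..))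
    set w := (1 - ε) * z
    set W := rsbMult ((m, d) :: ls) (fun j => α * R j) w with hWdef
    set W' := rsbMult ls (fun j => α * R (j + 1)) w
    have hWe : W = W' - m * (α * R 1 - α * R 0) := rfl
    have hW' : 0 < W' := hW.trans_le (mult_le hm.le (mul_le_mul_of_nonneg_left hR01 hα.le))
    have ih := casc_sphere_le hN hz hε hε1 hC hα ls (fun j => R (j + 1)) h.2.2
      (fun i hi => hr i (List.mem_cons_of_mem _ hi)) hW'
    have hW'eq : rsbMult ls (fun j => α * R (j + 1)) w = W' := rfl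
    rw [hW'eq] at ih
    have hN0 : (0 : ℝ) < N := by exact_mod_cast hN
    set k := Real.sqrt (α * N * (R 1 - R 0))
    have hk2 : k ^ 2 = α * N * (R 1 - R 0) :=
      Real.sq_sqrt (mul_nonneg (mul_nonneg hα.le hN0.le) (sub_nonneg.2 hR01))
    set A := m / (2 * N * W') with hA
    have hD : 1 - 2 * A * k ^ 2 = W / W' := by
      rw [hk2, hA, hWe]; field_simp
    have hD0 : 0 < 1 - 2 * A * k ^ 2 := by rw [hD]; positivity
    obtain ⟨hqi, hqe⟩ := gauss_quad_vec (N := N) (by linarith : 2 * A * k ^ 2 < 1) x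
    set L' := rsbLogs ls (fun j => α * R (j + 1)) w
    set B := (N : ℝ) * L' - shellP N z ε
    have hG : Lip 1 (hBase (sphereMeasure N) (fun _ => (1 : ℝ))
        (Subtype.val : Sph N → EuclideanSpace ℝ (Fin N))) :=
      lip_hBase Wt.one measurable_subtype_coe fun x => mem_sphere_zero_iff_norm.1 x.2
    have hwg := casc_wgt (good_sh (E := EuclideanSpace ℝ (Fin N)) h (α * N)) hG x
    have hle : ∫ g, Real.exp (m * casc (stdGaussian (EuclideanSpace ℝ (Fin N))) levM (sh (α * N))
        (withR ls fun j => R (j + 1)) (hBase (sphereMeasure N) (fun _ => 1) Subtype.val)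
        (x + k • g)) ∂stdGaussian (EuclideanSpace ℝ (Fin N)) ≤
        Real.exp (m * B) * (Real.exp (A * ‖x‖ ^ 2 / (1 - 2 * A * k ^ 2)) /
          Real.sqrt (1 - 2 * A * k ^ 2) ^ N) := by
      rw [← hqe, ← integral_const_mul]
      refine integral_mono_of_nonneg (Eventually.of_forall fun g => (Real.exp_pos _).le) (hqi.const_mul _)
        (Eventually.of_forall fun g => ?_)
      dsimp only
      rw [← Real.exp_add, Real.exp_le_exp]
      refine (mul_le_mul_of_nonneg_left (ih (x + k • g)) hm.le).trans (le_of_eq ?_)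
      simp only [A, B]
      field_simp
      ring
    have hlog := Real.log_le_log hwg.pos hle
    rw [Real.log_mul (Real.exp_pos _).ne' (by positivity), Real.log_exp, Real.log_div (Real.exp_pos _).ne'
      (by positivity), Real.log_exp, Real.log_pow, Real.log_sqrt hD0.le, hD] at hlog
    have hlW : Real.log (W / W') = -Real.log (W' / W) := by
      rw [← Real.log_inv, inv_div]
    rw [hlW] at hlog
    simp only [withR, casc, lexp]
    refine (div_le_div_of_nonneg_right hlog hm.le).trans (le_of_eq ?_)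
    simp only [rsbLogs, levM, ← hWdef, hW'eq]
    simp only [A, B, L']
    field_simp
    ring

/-- The fields alone give the spherical nested entropy. -/
theorem fldPsi_sphere (hN : 1 ≤ N) {z ε : ℝ} (hz : 1 ≤ z) (hε : 0 < ε) (hε1 : ε < 1)
    (hC : shellC / (ε ^ 2 * N) < 1) (hα : 0 < α) {ls : List (ℝ × ℝ)} {R : ℕ → ℝ}
    (h : Ordered (withR ls R)) (hr : ∀ i ∈ withR ls R, 0 ≤ i.2.2) (hR0 : 0 ≤ R 0)
    (hW : 0 < rsbMult ls (fun j => α * R j) ((1 - ε) * z)) :
    fldPsi (sphereMeasure N) (Subtype.val : Sph N → _) (withR ls R) (R 0) (α * N) (fun _ => 1) ≤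
      N * (rsbLogs ls (fun j => α * R j) ((1 - ε) * z) +
        α * R 0 / (2 * rsbMult ls (fun j => α * R j) ((1 - ε) * z))) - shellP N z ε := by
  have := isProbabilityMeasure_sphereMeasure hN
  have hN0 : (0 : ℝ) < N := by exact_mod_cast hN
  set W := rsbMult ls (fun j => α * R j) ((1 - ε) * z)
  set L' := rsbLogs ls (fun j => α * R j) ((1 - ε) * z)
  set k := Real.sqrt (α * N * R 0)
  have hk2 : k ^ 2 = α * N * R 0 := Real.sq_sqrt (mul_nonneg (mul_nonneg hα.le hN0.le) hR0)
  have hG : Lip 1 (hBase (sphereMeasure N) (fun _ => (1 : ℝ))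
      (Subtype.val : Sph N → EuclideanSpace ℝ (Fin N))) :=
    lip_hBase Wt.one measurable_subtype_coe fun x => mem_sphere_zero_iff_norm.1 x.2
  have hi := (hG.casc (good_sh (E := EuclideanSpace ℝ (Fin N)) h (α * N))).integrable (shift_smul k) 0
  simp only [zero_add] at hi
  have hi2 : Integrable (fun g : EuclideanSpace ℝ (Fin N) => k ^ 2 / (2 * N * W) * ‖g‖ ^ 2 +
      (N * L' - shellP N z ε)) (stdGaussian _) :=
    ((integrable_norm_pow 2).const_mul _).add (integrable_const _)
  refine (integral_mono hi hi2 fun g => ?_).trans (le_of_eq ?_)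
  · refine (casc_sphere_le hN hz hε hε1 hC hα ls R h hr hW (k • g)).trans (le_of_eq ?_)
    rw [norm_smul, mul_pow, Real.norm_eq_abs, sq_abs]
    ring
  · rw [integral_add ((integrable_norm_pow 2).const_mul _) (integrable_const _), integral_const_mul,
      integral_norm_sq_stdGaussian, integral_const, probReal_univ, one_smul, hk2]
    field_simp
    ring

lemma continuous_mult : ∀ (ls : List (ℝ × ℝ)) (R : ℕ → ℝ), Continuous (rsbMult ls R)
  | [], R => by
    show Continuous fun z : ℝ => z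
    exact continuous_id
  | (m, d) :: ls, R => by
    have := continuous_mult ls fun j => R (j + 1)
    show Continuous fun z => rsbMult ls (fun j => R (j + 1)) z - m * (R 1 - R 0)
    fun_prop

lemma continuousAt_logs {w : ℝ} : ∀ (ls : List (ℝ × ℝ)) (R : ℕ → ℝ), (∀ p ∈ ls, 0 ≤ p.1) →
    (∀ j, j < ls.length → R j ≤ R (j + 1)) → 0 < rsbMult ls R w → ContinuousAt (rsbLogs ls R) w
  | [], R, _, _, _ => continuousAt_const
  | (m, d) :: ls, R, hm, hR, hW => by
    have hW' : 0 < rsbMult ls (fun j => R (j + 1)) w :=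
      hW.trans_le (mult_le (hm _ (List.mem_cons_self ..)) (hR 0 (by simp)))
    have ih := continuousAt_logs ls (fun j => R (j + 1)) (fun p hp => hm p (List.mem_cons_of_mem _ hp))
      (fun j hj => hR (j + 1) (by simpa using hj)) hW'
    show ContinuousAt (fun z => rsbLogs ls (fun j => R (j + 1)) z +
      Real.log (rsbMult ls (fun j => R (j + 1)) z / rsbMult ((m, d) :: ls) R z) / (2 * m)) w
    exact ih.add ((((continuous_mult _ _).continuousAt.div (continuous_mult _ _).continuousAt hW.ne').log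
      (div_pos hW' hW).ne').div_const _)

end Vale.Agent.P157.RSB
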