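import Vale.Agent.P157.RSB.Expand

/-!
The expansion is preserved by every level.
-/

namespace Vale.Agent.P157.RSB

open MeasureTheory ProbabilityTheory Filter
open scoped RealInnerProductSpace Topology

section tilted

variable {Z : Type} [MeasurableSpace Z] {γ : Measure Z}

lemma tilt_eq_integral {V : Type} [NormedAddCommGroup V] [NormedSpace ℝ V] (m : ℝ) (X : Z → ℝ)
    (F : Z → V) : tilt γ m X F = ∫ z, F z ∂γ.tilted fun z => m * X z := by
  rw [integral_tilted, tilt, ← integral_smul]
  refine integral_congr_ae (Eventually.of_forall fun z => ?_)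
  simp only [smul_smul]
  rw [← div_eq_inv_mul]

end tilted

variable {ι Z S F : Type} [MeasurableSpace Z] [NormedAddCommGroup S] [MeasurableSpace S] [BorelSpace S]
  [SecondCountableTopology S] [NormedAddCommGroup F] [InnerProductSpace ℝ F] [FiniteDimensional ℝ F]
  [MeasurableSpace F] [BorelSpace F]

/-- The state increment together with the perturbation increment. -/
noncomputable def joint (σ : ι → Z → S) (e : ι → ℝ) (i : ι) (z : Z × F) : S × F :=
  (σ i z.1, Real.sqrt (e i) • z.2)

/-- Second-order approximation of `Φ'` around `Φ`. -/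
structure Approx (C ε : ℝ) (Φ : S → ℝ) (Φ' : S × F → ℝ) (Λ : S → F) (Q : S × F → ℝ) : Prop where
  measΛ : Measurable Λ
  measQ : Measurable Q
  bdΛ : ∀ x, ‖Λ x‖ ≤ C
  bdQ : ∀ x ζ, |Q (x, ζ)| ≤ C * (ε + ‖ζ‖) ^ 2
  bd1 : ∀ x ζ, |Φ' (x, ζ) - Φ x| ≤ C * (ε + ‖ζ‖)
  bd3 : ∀ x ζ, |Φ' (x, ζ) - Φ x - ⟪Λ x, ζ⟫ - Q (x, ζ)| ≤ env C 3 (ε + ‖ζ‖)

/-- The propagated quadratic term. -/
noncomputable def qRec (γ : Measure Z) (m : ι → ℝ) (σ : ι → Z → S) (e : ι → ℝ) (G : S → ℝ)
    (Λ : S → F) (Q : S × F → ℝ) : List ι → S × F → ℝ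
  | [], p => Q p
  | i :: ls, p =>
      tilt γ (m i) (fun z => casc γ m σ ls G (p.1 + σ i z)) (fun z => ∫ h : F,
        (qRec γ m σ e G Λ Q ls (p.1 + σ i z, p.2 + Real.sqrt (e i) • h) +
          m i / 2 * ⟪cmean γ m σ ls G Λ (p.1 + σ i z), p.2 + Real.sqrt (e i) • h⟫ ^ 2) ∂stdGaussian F) -
      m i / 2 * ⟪cmean γ m σ (i :: ls) G Λ p.1, p.2⟫ ^ 2

lemma env_mono {C C' : ℝ} (hC : 0 ≤ C) (h : C ≤ C') {t t' : ℝ} (ht : 0 ≤ t) (h' : t ≤ t') :
    env C 3 t ≤ env C' 3 t' :=
  mul_le_mul (mul_le_mul h (pow_le_pow_left₀ ht h' 3) (pow_nonneg ht 3) (hC.trans h))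
    (Real.exp_le_exp.2 (mul_le_mul h h' ht (hC.trans h))) (Real.exp_pos _).le
    (mul_nonneg (hC.trans h) (pow_nonneg (ht.trans h') 3))

lemma exp_mul_le_affine {ε s : ℝ} (h0 : 0 ≤ ε) (h1 : ε ≤ 1) :
    Real.exp (ε * s) ≤ 1 + ε * (Real.exp s - 1) := by
  have h := convexOn_exp.2 (Set.mem_univ (0 : ℝ)) (Set.mem_univ s) (by linarith : 0 ≤ 1 - ε) h0
    (by ring)
  simp only [smul_eq_mul, mul_zero, zero_add, Real.exp_zero, mul_one] at h
  linarith

/-- One level preserves the approximation, with a constant depending on the exponent only. -/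
theorem approx_step {mm : ℝ} (hm0 : 0 < mm) (hm1 : mm ≤ 1) {C : ℝ} (hC : 1 ≤ C) :
    ∃ C', 1 ≤ C' ∧ ∀ {γ : Measure Z} [IsProbabilityMeasure γ] {s : Z → S} {ee ε : ℝ} {Φ : S → ℝ}
      {Φ' : S × F → ℝ} {Λ : S → F} {Q : S × F → ℝ}, Measurable s → 0 ≤ ee → Real.sqrt ee ≤ ε → ε ≤ 1 →
      Measurable Φ → Measurable Φ' →
      (∀ x, Integrable (fun z => Real.exp (mm * Φ (x + s z))) γ) → Approx C ε Φ Φ' Λ Q →
      Approx C' ε (fun x => lexp γ mm fun z => Φ (x + s z))
        (fun p => lexp (γ.prod (stdGaussian F)) mm fun z => Φ' (p + (s z.1, Real.sqrt ee • z.2)))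
        (fun x => tilt γ mm (fun z => Φ (x + s z)) fun z => Λ (x + s z))
        (fun p => tilt γ mm (fun z => Φ (p.1 + s z)) (fun z => ∫ h : F,
            (Q (p.1 + s z, p.2 + Real.sqrt ee • h) +
              mm / 2 * ⟪Λ (p.1 + s z), p.2 + Real.sqrt ee • h⟫ ^ 2) ∂stdGaussian F) -
          mm / 2 * ⟪tilt γ mm (fun z => Φ (p.1 + s z)) fun z => Λ (p.1 + s z), p.2⟫ ^ 2) := by
  set γF := stdGaussian F
  have hN : ∀ c : ℝ, Integrable (fun h : F => Real.exp (c * ‖h‖)) γF := integrable_exp_mul_norm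
  set M := 1 + ∫ h : F, Real.exp ((3 * C + 3) * ‖h‖) ∂γF with hMdef
  have hI0 : 0 ≤ ∫ h : F, Real.exp ((3 * C + 3) * ‖h‖) ∂γF := integral_nonneg fun h => (Real.exp_pos _).le
  have hM1 : 1 ≤ M := by linarith
  have hC0 : 0 ≤ C := by linarith
  have hMom : ∀ (k : ℕ) (c : ℝ), k ≤ 3 → 0 ≤ c → c ≤ 3 * C →
      Integrable (fun h : F => (1 + ‖h‖) ^ k * Real.exp (c * ‖h‖)) γF ∧
        ∫ h : F, (1 + ‖h‖) ^ k * Real.exp (c * ‖h‖) ∂γF ≤ M := fun k c hk hc hc' => by
    have hb : ∀ h : F, (1 + ‖h‖) ^ k * Real.exp (c * ‖h‖) ≤ Real.exp ((3 * C + 3) * ‖h‖) := fun h => by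
      have h1 : (1 + ‖h‖) ^ k ≤ Real.exp (3 * ‖h‖) := by
        refine ((pow_le_pow_left₀ (by positivity) ((add_comm _ _).trans_le (Real.add_one_le_exp ‖h‖)) k).trans
          (pow_le_pow_right₀ (Real.one_le_exp (norm_nonneg h)) hk)).trans (le_of_eq ?_)
        rw [← Real.exp_nat_mul]; norm_num
      refine (mul_le_mul h1 (Real.exp_le_exp.2 (mul_le_mul_of_nonneg_right hc' (norm_nonneg h)))
        (Real.exp_pos _).le (Real.exp_pos _).le).trans (le_of_eq ?_)
      rw [← Real.exp_add]; ring_nf
    have hm : Continuous fun h : F => (1 + ‖h‖) ^ k * Real.exp (c * ‖h‖) := by fun_prop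
    refine ⟨Integrable.mono' (hN (3 * C + 3)) hm.aestronglyMeasurable (Eventually.of_forall fun h => by
      rw [Real.norm_eq_abs, abs_of_nonneg (by positivity)]; exact hb h), ?_⟩
    have := integral_mono (Integrable.mono' (hN (3 * C + 3)) hm.aestronglyMeasurable
      (Eventually.of_forall fun h => by
        rw [Real.norm_eq_abs, abs_of_nonneg (by positivity)]; exact hb h)) (hN (3 * C + 3)) hb
    linarith
  set C' := (1000 * C ^ 6 * M ^ 3 + 9 * C * M + C + 2 * C ^ 2 * M + C ^ 2) / mm + (9 * C + 2 * C * M + C) + C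
  have hdiv : 0 ≤ (1000 * C ^ 6 * M ^ 3 + 9 * C * M + C + 2 * C ^ 2 * M + C ^ 2) / mm := by positivity
  have hC'C : C ≤ C' := by
    simp only [C']
    have : 0 ≤ 9 * C + 2 * C * M + C := by positivity
    linarith
  refine ⟨C', hC.trans hC'C, ?_⟩
  intro γ hγ s ee ε Φ Φ' Λ Q hs hee hεe hε1 hΦ hΦ' hint hA
  have hε0 : 0 ≤ ε := (Real.sqrt_nonneg ee).trans hεe
  have hsx : ∀ x, Measurable fun z => x + s z := fun x => hs.const_add x
  have hwg : ∀ x, Wgt γ mm fun z => Φ (x + s z) := fun x => ⟨hΦ.comp (hsx x), hint x⟩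
  have hΛn : ∀ x, ‖tilt γ mm (fun z => Φ (x + s z)) fun z => Λ (x + s z)‖ ≤ C :=
    fun x => norm_tilt_le (hwg x) fun z => hA.bdΛ _
  refine ⟨?_, ?_, fun x => (hΛn x).trans hC'C, fun x ζ => ?_, fun x ζ => ?_, fun x ζ => ?_⟩
  · exact measurable_tilt (X := fun x z => Φ (x + s z)) (F := fun x z => Λ (x + s z))
      (hΦ.comp (measurable_shiftPair hs)) (hA.measΛ.comp (measurable_shiftPair hs)) _
  · have hΛm := hA.measΛ
    have hQm := hA.measQ
    have hp : Measurable fun q : ((S × F) × Z) × F =>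
        ((q.1.1.1 + s q.1.2, q.1.1.2 + Real.sqrt ee • q.2) : S × F) :=
      (((measurable_fst.comp (measurable_fst.comp measurable_fst))).add
        (hs.comp (measurable_snd.comp measurable_fst))).prodMk
        ((measurable_snd.comp (measurable_fst.comp measurable_fst)).add (measurable_snd.const_smul _))
    have hinner : Measurable fun q : (S × F) × Z => ∫ h : F,
        (Q (q.1.1 + s q.2, q.1.2 + Real.sqrt ee • h) +
          mm / 2 * ⟪Λ (q.1.1 + s q.2), q.1.2 + Real.sqrt ee • h⟫ ^ 2) ∂γF :=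
      ((hQm.comp hp).add ((((hΛm.comp (measurable_fst.comp hp)).inner
        (measurable_snd.comp hp)).pow_const 2).const_mul _)).stronglyMeasurable.integral_prod_right'
        (ν := γF) |>.measurable
    have hX : Measurable fun q : (S × F) × Z => Φ (q.1.1 + s q.2) :=
      hΦ.comp ((measurable_fst.comp measurable_fst).add (hs.comp measurable_snd))
    have h1 := measurable_tilt (γ := γ) (P := S × F) (X := fun p z => Φ (p.1 + s z))
      (F := fun p z => ∫ h : F, (Q (p.1 + s z, p.2 + Real.sqrt ee • h) +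
          mm / 2 * ⟪Λ (p.1 + s z), p.2 + Real.sqrt ee • h⟫ ^ 2) ∂γF) hX hinner mm
    have h2 : Measurable fun p : S × F => tilt γ mm (fun z => Φ (p.1 + s z)) fun z => Λ (p.1 + s z) :=
      (measurable_tilt (γ := γ) (X := fun x z => Φ (x + s z)) (F := fun x z => Λ (x + s z))
        (hΦ.comp (measurable_shiftPair hs)) (hΛm.comp (measurable_shiftPair hs)) mm).comp measurable_fst
    exact h1.sub (((h2.inner measurable_snd).pow_const 2).const_mul _)
  all_goals
    set t := ε + ‖ζ‖ with ht
  all_goals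
    have ht0 : 0 ≤ t := by positivity
  all_goals
    have hT : ∀ h : F, ε + ‖ζ + Real.sqrt ee • h‖ ≤ t + ε * ‖h‖ := fun h => by
      have := norm_add_le ζ (Real.sqrt ee • h)
      rw [norm_smul, Real.norm_eq_abs, abs_of_nonneg (Real.sqrt_nonneg _)] at this
      have := mul_le_mul_of_nonneg_right hεe (norm_nonneg h)
      simp only [ht]
      linarith
  all_goals
    have hT2 : ∀ h : F, t + ε * ‖h‖ ≤ t * (1 + ‖h‖) ∧ t + ε * ‖h‖ ≤ t + ‖h‖ := fun h => by
      have hεt : ε ≤ t := le_add_of_nonneg_right (norm_nonneg ζ)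
      constructor
      · have := mul_le_mul_of_nonneg_right hεt (norm_nonneg h); linarith
      · have := mul_le_mul_of_nonneg_right hε1 (norm_nonneg h); linarith
  all_goals
    have hmom : ∀ k : ℕ, k ≤ 3 → ∀ c, 0 ≤ c → c ≤ 3 * C →
        Integrable (fun h : F => (t + ε * ‖h‖) ^ k * Real.exp (c * (t + ε * ‖h‖))) γF ∧
          ∫ h : F, (t + ε * ‖h‖) ^ k * Real.exp (c * (t + ε * ‖h‖)) ∂γF ≤ M * t ^ k * Real.exp (c * t) :=
      fun k hk c hc hc' => by
        have hm : Continuous fun h : F => (t + ε * ‖h‖) ^ k * Real.exp (c * (t + ε * ‖h‖)) := by fun_prop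
        have hb : ∀ h : F, (t + ε * ‖h‖) ^ k * Real.exp (c * (t + ε * ‖h‖)) ≤
            t ^ k * Real.exp (c * t) * ((1 + ‖h‖) ^ k * Real.exp (c * ‖h‖)) := fun h => by
          refine (mul_le_mul (pow_le_pow_left₀ (by positivity) (hT2 h).1 k)
            (Real.exp_le_exp.2 (mul_le_mul_of_nonneg_left (hT2 h).2 hc)) (Real.exp_pos _).le
            (by positivity)).trans (le_of_eq ?_)
          rw [mul_add c, Real.exp_add, mul_pow]; ring
        have hi := Integrable.mono' ((hMom k c hk hc hc').1.const_mul (t ^ k * Real.exp (c * t)))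
          hm.aestronglyMeasurable (Eventually.of_forall fun h => by
            rw [Real.norm_eq_abs, abs_of_nonneg (by positivity)]; exact hb h)
        refine ⟨hi, (integral_mono hi ((hMom k c hk hc hc').1.const_mul _) hb).trans ?_⟩
        rw [integral_const_mul]
        exact (mul_le_mul_of_nonneg_left (hMom k c hk hc hc').2 (by positivity)).trans_eq (by ring)
  · -- the quadratic term
    refine le_trans ?_ (mul_le_mul_of_nonneg_right
      (show (2 * C ^ 2 * M + C ^ 2 : ℝ) ≤ C' from ?_) (sq_nonneg t))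
    swap
    · simp only [C']
      have : (2 * C ^ 2 * M + C ^ 2 : ℝ) ≤
          (1000 * C ^ 6 * M ^ 3 + 9 * C * M + C + 2 * C ^ 2 * M + C ^ 2) / mm := by
        rw [le_div_iff₀ hm0]
        refine (mul_le_of_le_one_right (by positivity) hm1).trans ?_
        have : 0 ≤ 1000 * C ^ 6 * M ^ 3 + 9 * C * M + C := by positivity
        linarith
      have : 0 ≤ 9 * C + 2 * C * M + C := by positivity
      linarith
    have hlin : ∀ (L u : F), ‖L‖ ≤ C → mm / 2 * ⟪L, u⟫ ^ 2 ≤ C ^ 2 * ‖u‖ ^ 2 := fun L u hL => by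
      have h2 : ⟪L, u⟫ ^ 2 ≤ C ^ 2 * ‖u‖ ^ 2 := by
        rw [← sq_abs, ← mul_pow]
        exact pow_le_pow_left₀ (abs_nonneg _)
          ((abs_real_inner_le_norm _ _).trans (mul_le_mul_of_nonneg_right hL (norm_nonneg _))) 2
      refine le_trans ?_ h2
      exact mul_le_of_le_one_left (sq_nonneg _) (by linarith)
    refine (abs_sub _ _).trans ?_
    rw [add_mul]
    refine add_le_add ?_ ?_
    · rw [← Real.norm_eq_abs]
      refine norm_tilt_le (hwg x) fun z => ?_
      obtain ⟨hi, hle⟩ := hmom 2 (by norm_num) 0 le_rfl (by linarith)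
      simp only [zero_mul, Real.exp_zero, mul_one] at hi hle
      refine (norm_integral_le_of_norm_le (hi.const_mul (2 * C ^ 2))
        (Eventually.of_forall fun h => ?_)).trans ?_
      · rw [Real.norm_eq_abs]
        refine (abs_add_le _ _).trans ?_
        have h1 : |Q (x + s z, ζ + Real.sqrt ee • h)| ≤ C * (t + ε * ‖h‖) ^ 2 :=
          (hA.bdQ _ _).trans (mul_le_mul_of_nonneg_left (pow_le_pow_left₀ (by positivity) (hT h) 2) hC0)
        have h2 := hlin _ (ζ + Real.sqrt ee • h) (hA.bdΛ (x + s z))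
        have h3 : ‖ζ + Real.sqrt ee • h‖ ^ 2 ≤ (t + ε * ‖h‖) ^ 2 :=
          pow_le_pow_left₀ (norm_nonneg _) (by linarith [hT h]) 2
        have h4 : C * (t + ε * ‖h‖) ^ 2 ≤ C ^ 2 * (t + ε * ‖h‖) ^ 2 :=
          mul_le_mul_of_nonneg_right (le_self_pow₀ hC (by norm_num)) (sq_nonneg _)
        have h5 := mul_le_mul_of_nonneg_left h3 (sq_nonneg C)
        rw [abs_of_nonneg (by positivity : 0 ≤ mm / 2 * ⟪Λ (x + s z), ζ + Real.sqrt ee • h⟫ ^ 2)]
        linarith
      · rw [integral_const_mul]
        exact (mul_le_mul_of_nonneg_left hle (by positivity)).trans_eq (by ring)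
    · rw [abs_of_nonneg (by positivity)]
      exact (hlin _ ζ (hΛn x)).trans (mul_le_mul_of_nonneg_left
        (pow_le_pow_left₀ (norm_nonneg _) (le_add_of_nonneg_left hε0) 2) (sq_nonneg C))
  all_goals
    set X : Z → ℝ := fun z => Φ (x + s z) with hXdef
  all_goals
    set τ := γ.tilted fun z => mm * X z with hτ
  all_goals
    have hτp : IsProbabilityMeasure τ := isProbabilityMeasure_tilted (hwg x).int
  all_goals
    set Y : Z × F → ℝ := fun w =>
      mm * (Φ' (x + s w.1, ζ + Real.sqrt ee • w.2) - Φ (x + s w.1)) with hYdef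
  all_goals
    have hpair : Measurable fun w : Z × F => ((x + s w.1, ζ + Real.sqrt ee • w.2) : S × F) :=
      ((hsx x).comp measurable_fst).prodMk ((measurable_snd.const_smul _).const_add ζ)
  all_goals
    have hYm : Measurable Y :=
      ((hΦ'.comp hpair).sub (hΦ.comp ((hsx x).comp measurable_fst))).const_mul _
  all_goals
    have hYb : ∀ w : Z × F, |Y w| ≤ C * (t + ε * ‖w.2‖) := fun w => by
      rw [abs_mul, abs_of_pos hm0]
      exact (mul_le_of_le_one_left (abs_nonneg _) hm1).trans
        ((hA.bd1 _ _).trans (mul_le_mul_of_nonneg_left (hT w.2) hC0))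
  all_goals
    have hdiff : (lexp (γ.prod γF) mm fun z => Φ' ((x, ζ) + (s z.1, Real.sqrt ee • z.2))) -
        (lexp γ mm fun z => Φ (x + s z)) = Real.log (∫ w, Real.exp (Y w) ∂τ.prod γF) / mm := by
      have hpos := (hwg x).pos
      obtain ⟨hi0, -⟩ := hmom 0 (by norm_num) C hC0 (by linarith)
      simp only [pow_zero, one_mul] at hi0
      have hdom : Integrable (fun w : Z × F => Real.exp (mm * X w.1) * Real.exp (C * (t + ε * ‖w.2‖)))
          (γ.prod γF) := (hwg x).int.mul_prod hi0
      have hprod : Integrable (fun w : Z × F => Real.exp (mm * X w.1) * Real.exp (Y w)) (γ.prod γF) :=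
        Integrable.mono' hdom ((((hwg x).meas.comp measurable_fst).const_mul mm).exp.mul
          hYm.exp).aestronglyMeasurable (Eventually.of_forall fun w => by
          rw [Real.norm_eq_abs, abs_mul, Real.abs_exp, Real.abs_exp]
          exact mul_le_mul_of_nonneg_left (Real.exp_le_exp.2 ((le_abs_self _).trans (hYb w)))
            (Real.exp_pos _).le)
      have e : ∫ w, Real.exp (Y w) ∂τ.prod γF =
          (∫ w : Z × F, Real.exp (mm * X w.1) * Real.exp (Y w) ∂γ.prod γF) / ∫ z, Real.exp (mm * X z) ∂γ := by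
        have hi : Integrable (fun w => Real.exp (Y w)) (τ.prod γF) :=
          Integrable.mono' (Integrable.comp_snd hi0 τ) hYm.exp.aestronglyMeasurable
            (Eventually.of_forall fun w => by
              rw [Real.norm_eq_abs, Real.abs_exp]
              exact Real.exp_le_exp.2 ((le_abs_self _).trans (hYb w)))
        rw [integral_prod _ hi, hτ, integral_tilted, integral_prod _ hprod, ← integral_div]
        refine integral_congr_ae (Eventually.of_forall fun z => ?_)
        simp only [smul_eq_mul, integral_const_mul]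
        ring
      have hnum : ∫ w : Z × F, Real.exp (mm * X w.1) * Real.exp (Y w) ∂γ.prod γF =
          ∫ w : Z × F, Real.exp (mm * Φ' ((x, ζ) + (s w.1, Real.sqrt ee • w.2))) ∂γ.prod γF :=
        integral_congr_ae (Eventually.of_forall fun w => by
          simp only [← Real.exp_add, X, Y, Prod.mk_add_mk]; ring_nf)
      have hnpos : 0 < ∫ w : Z × F, Real.exp (mm * X w.1) * Real.exp (Y w) ∂γ.prod γF := by
        have : ∀ w : Z × F, Real.exp (mm * X w.1) * Real.exp (Y w) = Real.exp (mm * X w.1 + Y w) :=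
          fun w => (Real.exp_add _ _).symm
        simp only [this] at hprod ⊢
        exact integral_exp_pos hprod
      rw [e, Real.log_div hnpos.ne' hpos.ne', sub_div, hnum]
      rfl
  · -- the linear bound
    show |(lexp (γ.prod γF) mm fun z => Φ' ((x, ζ) + (s z.1, Real.sqrt ee • z.2))) -
      (lexp γ mm fun z => Φ (x + s z))| ≤ _
    rw [hdiff, abs_div, abs_of_pos hm0]
    refine le_trans ?_ (mul_le_mul_of_nonneg_right
      (show (9 * C * M + C) / mm ≤ C' from ?_) ht0)
    swap
    · simp only [C']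
      have : (9 * C * M + C) / mm ≤ (1000 * C ^ 6 * M ^ 3 + 9 * C * M + C + 2 * C ^ 2 * M + C ^ 2) / mm :=
        div_le_div_of_nonneg_right (by have : 0 ≤ 1000 * C ^ 6 * M ^ 3 + 2 * C ^ 2 * M + C ^ 2 := by positivity
                                       linarith) hm0.le
      have : 0 ≤ 9 * C + 2 * C * M + C := by positivity
      linarith
    rw [div_mul_eq_mul_div]
    refine div_le_div_of_nonneg_right ?_ hm0.le
    obtain ⟨hiC, -⟩ := hmom 0 (by norm_num) C hC0 (by linarith)
    simp only [pow_zero, one_mul] at hiC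
    have hi : Integrable (fun w => Real.exp (Y w)) (τ.prod γF) :=
      Integrable.mono' (Integrable.comp_snd hiC τ) hYm.exp.aestronglyMeasurable
        (Eventually.of_forall fun w => by
          rw [Real.norm_eq_abs, Real.abs_exp]
          exact Real.exp_le_exp.2 ((le_abs_self _).trans (hYb w)))
    have hpos : 0 < ∫ w, Real.exp (Y w) ∂τ.prod γF := integral_exp_pos hi
    rw [abs_le]
    constructor
    · have hiY : Integrable Y (τ.prod γF) := by
        obtain ⟨hi1, -⟩ := hmom 1 (by norm_num) 0 le_rfl (by linarith)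
        simp only [pow_one, zero_mul, Real.exp_zero, mul_one] at hi1
        exact Integrable.mono' (Integrable.comp_snd (hi1.const_mul C) τ) hYm.aestronglyMeasurable
          (Eventually.of_forall hYb)
      have hlow : -(C * (M * t)) ≤ ∫ w, Y w ∂τ.prod γF := by
        obtain ⟨hi1, hle1⟩ := hmom 1 (by norm_num) 0 le_rfl (by linarith)
        simp only [pow_one, zero_mul, Real.exp_zero, mul_one] at hi1 hle1
        refine le_trans ?_ (integral_mono (Integrable.comp_snd (hi1.const_mul C) τ).neg hiY fun w =>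
          (neg_le_of_abs_le (hYb w)))
        simp only [Pi.neg_apply]
        rw [integral_neg, integral_fun_snd (fun h => C * (t + ε * ‖h‖)), integral_const_mul]
        simp only [probReal_univ, one_smul]
        exact neg_le_neg (mul_le_mul_of_nonneg_left hle1 hC0)
      have hj : Real.exp (∫ w, Y w ∂τ.prod γF) ≤ ∫ w, Real.exp (Y w) ∂τ.prod γF := by
        set c := ∫ w, Y w ∂τ.prod γF
        have h2 := integral_mono (((integrable_const (1 : ℝ)).add (hiY.sub (integrable_const c))).const_mul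
          (Real.exp c)) hi fun w => by
            have h := mul_le_mul_of_nonneg_left (Real.add_one_le_exp (Y w - c)) (Real.exp_pos c).le
            rw [← Real.exp_add, add_sub_cancel] at h
            simp only [Pi.add_apply, Pi.sub_apply]
            linarith
        simp only [Pi.add_apply, Pi.sub_apply] at h2
        rw [integral_const_mul, integral_add (integrable_const _) (hiY.sub' (integrable_const _)),
          integral_sub hiY (integrable_const _)] at h2
        simpa [c] using h2
      have hl := Real.log_le_log (Real.exp_pos _) hj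
      rw [Real.log_exp] at hl
      have : 0 ≤ C * t + 8 * C * M * t := by positivity
      linarith
    · have hup : ∀ w : Z × F, Real.exp (Y w) ≤
          Real.exp (C * t) * (1 + ε * (Real.exp (C * ‖w.2‖) - 1)) := fun w => by
        refine (Real.exp_le_exp.2 ((le_abs_self _).trans (hYb w))).trans ?_
        rw [mul_add, Real.exp_add, mul_left_comm C ε]
        exact mul_le_mul_of_nonneg_left (exp_mul_le_affine hε0 hε1) (Real.exp_pos _).le
      have hiN : Integrable (fun h : F => Real.exp (C * ‖h‖) - 1) γF := (hN C).sub (integrable_const _)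
      have hiA : Integrable (fun h : F => Real.exp (C * t) * (1 + ε * (Real.exp (C * ‖h‖) - 1))) γF :=
        ((integrable_const (1 : ℝ)).add (hiN.const_mul ε)).const_mul _
      have h1 : ∫ w, Real.exp (Y w) ∂τ.prod γF ≤ Real.exp (C * t) * (1 + ε * M) := by
        refine (integral_mono hi (Integrable.comp_snd hiA τ) hup).trans ?_
        rw [integral_fun_snd (fun h => Real.exp (C * t) * (1 + ε * (Real.exp (C * ‖h‖) - 1))),
          integral_const_mul, integral_add (integrable_const _) (hiN.const_mul ε), integral_const_mul]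
        simp only [probReal_univ, one_smul, integral_const]
        refine mul_le_mul_of_nonneg_left (add_le_add le_rfl (mul_le_mul_of_nonneg_left ?_ hε0))
          (Real.exp_pos _).le
        have := (hMom 0 C (by norm_num) hC0 (by linarith)).2
        simp only [pow_zero, one_mul] at this
        rw [integral_sub (hN C) (integrable_const _), integral_const, probReal_univ, one_smul]
        linarith
      have h2 := Real.log_le_log hpos h1
      have hεM : 0 < 1 + ε * M := by positivity
      rw [Real.log_mul (Real.exp_pos _).ne' hεM.ne', Real.log_exp] at h2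
      have h3 : Real.log (1 + ε * M) ≤ ε * M := by linarith [Real.log_le_sub_one_of_pos hεM]
      have hεt : ε * M ≤ C * M * t := by
        have : ε ≤ C * t := (le_add_of_nonneg_right (norm_nonneg ζ)).trans (le_mul_of_one_le_left ht0 hC)
        have := mul_le_mul_of_nonneg_right this (by linarith : (0 : ℝ) ≤ M)
        linarith
      have : 0 ≤ 8 * C * M * t := by positivity
      linarith
  · -- the cubic bound
    set L : Z × F → ℝ := fun w => mm * ⟪Λ (x + s w.1), ζ + Real.sqrt ee • w.2⟫ with hLdef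
    set Qw : Z × F → ℝ := fun w => mm * Q (x + s w.1, ζ + Real.sqrt ee • w.2) with hQdef
    set T : Z × F → ℝ := fun w => t + ε * ‖w.2‖
    have hTm : Measurable T := (measurable_snd.norm.const_mul ε).const_add t
    have hLm : Measurable L :=
      ((hA.measΛ.comp (measurable_fst.comp hpair)).inner (measurable_snd.comp hpair)).const_mul _
    have hQm : Measurable Qw := (hA.measQ.comp hpair).const_mul _
    have hT0 : ∀ w, 0 ≤ T w := fun w => by simp only [T]; positivity
    have bL : ∀ w, |L w| ≤ C * T w := fun w => by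
      rw [abs_mul, abs_of_pos hm0]
      refine (mul_le_of_le_one_left (abs_nonneg _) hm1).trans ((abs_real_inner_le_norm _ _).trans ?_)
      exact mul_le_mul (hA.bdΛ _) (by linarith [hT w.2]) (norm_nonneg _) hC0
    have bQ : ∀ w, |Qw w| ≤ C * T w ^ 2 := fun w => by
      rw [abs_mul, abs_of_pos hm0]
      exact (mul_le_of_le_one_left (abs_nonneg _) hm1).trans ((hA.bdQ _ _).trans
        (mul_le_mul_of_nonneg_left (pow_le_pow_left₀ (by positivity) (hT w.2) 2) hC0))
    have bE : ∀ w, |Y w - L w - Qw w| ≤ env C 3 (T w) := fun w => by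
      simp only [Y, L, Qw, ← mul_sub, abs_mul, abs_of_pos hm0]
      exact (mul_le_of_le_one_left (abs_nonneg _) hm1).trans
        ((hA.bd3 _ _).trans (env_mono hC0 le_rfl (by positivity) (hT w.2)))
    have hT1 : Integrable T (τ.prod γF) ∧ ∫ w, T w ∂τ.prod γF ≤ M * t := by
      obtain ⟨hi, hle⟩ := hmom 1 (by norm_num) 0 le_rfl (by linarith)
      simp only [pow_one, zero_mul, Real.exp_zero, mul_one] at hi hle
      refine ⟨Integrable.comp_snd hi τ, ?_⟩
      simp only [T]
      rw [integral_fun_snd (fun h => t + ε * ‖h‖), probReal_univ, one_smul]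
      exact hle
    have hmo : ∀ k : ℕ, 1 ≤ k → k ≤ 3 →
        Integrable (fun w => T w ^ k * Real.exp (3 * C * T w)) (τ.prod γF) ∧
          ∫ w, T w ^ k * Real.exp (3 * C * T w) ∂τ.prod γF ≤ M * t ^ k * Real.exp (3 * C * t) :=
      fun k _ hk => by
        obtain ⟨hi, hle⟩ := hmom k hk (3 * C) (by positivity) le_rfl
        refine ⟨Integrable.comp_snd hi τ, ?_⟩
        simp only [T]
        rw [integral_fun_snd (fun h => (t + ε * ‖h‖) ^ k * Real.exp (3 * C * (t + ε * ‖h‖))),
          probReal_univ, one_smul]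
        exact hle
    have hmain := log_exp_expand (P := τ.prod γF) hC hM1 (by positivity : 0 ≤ 3 * C) ht0 hYm hLm hQm
      hTm hT0 hYb bL bQ bE hT1 hmo
    have hLi : Integrable L (τ.prod γF) := Integrable.mono' (hT1.1.const_mul C) hLm.aestronglyMeasurable
      (Eventually.of_forall bL)
    have hVi : Integrable (fun w => Qw w + L w ^ 2 / 2) (τ.prod γF) := by
      obtain ⟨hi, -⟩ := hmom 2 (by norm_num) 0 le_rfl (by linarith)
      simp only [zero_mul, Real.exp_zero, mul_one] at hi
      refine Integrable.mono' (Integrable.comp_snd (hi.const_mul (2 * C ^ 2)) τ)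
        (hQm.add ((hLm.pow_const 2).div_const 2)).aestronglyMeasurable (Eventually.of_forall fun w => ?_)
      rw [Real.norm_eq_abs]
      refine (abs_add_le _ _).trans ?_
      rw [abs_div, abs_two, abs_of_nonneg (sq_nonneg (L w))]
      have h1 := bQ w
      have h2 : L w ^ 2 ≤ C ^ 2 * T w ^ 2 := by
        rw [← sq_abs, ← mul_pow]; exact pow_le_pow_left₀ (abs_nonneg _) (bL w) 2
      have h3 : C * T w ^ 2 ≤ C ^ 2 * T w ^ 2 :=
        mul_le_mul_of_nonneg_right (le_self_pow₀ hC (by norm_num)) (sq_nonneg _)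
      have h4 : 0 ≤ C ^ 2 * T w ^ 2 := by positivity
      simp only [T] at h1 h2 h3 h4 ⊢
      linarith
    have hIL : ∫ w, L w ∂τ.prod γF =
        mm * ⟪tilt γ mm X fun z => Λ (x + s z), ζ⟫ := by
      rw [integral_prod _ hLi, tilt_eq_integral, ← hτ]
      have hin : ∀ z, ∫ h, L (z, h) ∂γF = mm * ⟪Λ (x + s z), ζ⟫ := fun z => by
        simp only [L, inner_add_right, real_inner_smul_right]
        rw [integral_const_mul, integral_add (integrable_const _)]
        · have h0 : ∫ h : F, ⟪Λ (x + s z), h⟫ ∂γF = 0 :=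
            (integral_congr_ae (Eventually.of_forall fun h => real_inner_comm h _)).trans
              (integral_inner (Λ (x + s z)))
          rw [integral_const_mul, h0]
          simp
        · refine Integrable.const_mul ?_ _
          simpa [real_inner_comm (Λ (x + s z))] using integrable_inner (E := F) (Λ (x + s z))
      simp only [hin]
      rw [integral_const_mul]
      congr 1
      have hΛi : Integrable (fun z => Λ (x + s z)) τ := Integrable.mono' (integrable_const C)
        (hA.measΛ.comp (hsx x)).aestronglyMeasurable (Eventually.of_forall fun z => hA.bdΛ _)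
      rw [real_inner_comm]
      simp only [fun z => real_inner_comm ζ (Λ (x + s z))]
      exact _root_.integral_inner hΛi ζ
    have hIQ : ∫ w, (Qw w + L w ^ 2 / 2) ∂τ.prod γF = mm * tilt γ mm X (fun z => ∫ h : F,
        (Q (x + s z, ζ + Real.sqrt ee • h) + mm / 2 * ⟪Λ (x + s z), ζ + Real.sqrt ee • h⟫ ^ 2) ∂γF) := by
      rw [integral_prod _ hVi, tilt_eq_integral, ← hτ, ← integral_const_mul]
      refine integral_congr_ae (Eventually.of_forall fun z => ?_)
      simp only
      rw [← integral_const_mul]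
      exact integral_congr_ae (Eventually.of_forall fun h => by simp only [Qw, L]; ring)
    rw [hIL, hIQ] at hmain
    have eK : (lexp (γ.prod γF) mm fun z => Φ' ((x, ζ) + (s z.1, Real.sqrt ee • z.2))) -
        (lexp γ mm fun z => Φ (x + s z)) - ⟪tilt γ mm X fun z => Λ (x + s z), ζ⟫ -
        (tilt γ mm X (fun z => ∫ h : F,
          (Q (x + s z, ζ + Real.sqrt ee • h) + mm / 2 * ⟪Λ (x + s z), ζ + Real.sqrt ee • h⟫ ^ 2) ∂γF) -
          mm / 2 * ⟪tilt γ mm X fun z => Λ (x + s z), ζ⟫ ^ 2) =
        (Real.log (∫ w, Real.exp (Y w) ∂τ.prod γF) -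
          (mm * ⟪tilt γ mm X fun z => Λ (x + s z), ζ⟫ + (mm * tilt γ mm X (fun z => ∫ h : F,
            (Q (x + s z, ζ + Real.sqrt ee • h) + mm / 2 * ⟪Λ (x + s z), ζ + Real.sqrt ee • h⟫ ^ 2) ∂γF) -
            (mm * ⟪tilt γ mm X fun z => Λ (x + s z), ζ⟫) ^ 2 / 2))) / mm := by
      rw [hdiff]; field_simp; ring
    show |(lexp (γ.prod γF) mm fun z => Φ' ((x, ζ) + (s z.1, Real.sqrt ee • z.2))) -
        (lexp γ mm fun z => Φ (x + s z)) - ⟪tilt γ mm X fun z => Λ (x + s z), ζ⟫ -
        (tilt γ mm X (fun z => ∫ h : F,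
          (Q (x + s z, ζ + Real.sqrt ee • h) + mm / 2 * ⟪Λ (x + s z), ζ + Real.sqrt ee • h⟫ ^ 2) ∂γF) -
          mm / 2 * ⟪tilt γ mm X fun z => Λ (x + s z), ζ⟫ ^ 2)| ≤ _
    rw [eK, abs_div, abs_of_pos hm0]
    refine (div_le_div_of_nonneg_right hmain hm0.le).trans ?_
    simp only [env]
    rw [mul_assoc (t ^ 3), ← Real.exp_add]
    refine le_of_eq_of_le (show 1000 * C ^ 6 * M ^ 3 * (t ^ 3 * Real.exp ((3 * (3 * C) + C * M + C) * t +
        C * M * t)) / mm = 1000 * C ^ 6 * M ^ 3 / mm * t ^ 3 *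
        Real.exp ((9 * C + 2 * C * M + C) * t) by ring_nf) ?_
    refine mul_le_mul (mul_le_mul_of_nonneg_right ?_ (pow_nonneg ht0 3))
      (Real.exp_le_exp.2 (mul_le_mul_of_nonneg_right ?_ ht0)) (Real.exp_pos _).le
      (mul_nonneg (hC0.trans hC'C) (pow_nonneg ht0 3))
    · simp only [C']
      have : 1000 * C ^ 6 * M ^ 3 / mm ≤
          (1000 * C ^ 6 * M ^ 3 + 9 * C * M + C + 2 * C ^ 2 * M + C ^ 2) / mm :=
        div_le_div_of_nonneg_right (by have : 0 ≤ 9 * C * M + C + 2 * C ^ 2 * M + C ^ 2 := by positivity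
                                       linarith) hm0.le
      have : 0 ≤ 9 * C + 2 * C * M + C := by positivity
      linarith
    · simp only [C']; linarith

end Vale.Agent.P157.RSB
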