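import Vale.Agent.P157.RSB.Telescope
import Vale.Agent.P157.RSB.Defs

/-!
The nested functionals in the plain recursive form.
-/

namespace Vale.Agent.P157.RSB

open MeasureTheory ProbabilityTheory Filter Complex
open scoped RealInnerProductSpace Topology

/-- The levels with the increments of `R` as field variances. -/
def withR : List (ℝ × ℝ) → (ℕ → ℝ) → List Lev
  | [], _ => []
  | (m, d) :: ls, R => (m, d, R 1 - R 0) :: withR ls fun j => R (j + 1)

lemma length_withR : ∀ (ls : List (ℝ × ℝ)) (R : ℕ → ℝ), (withR ls R).length = ls.length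
  | [], _ => rfl
  | (_, _) :: ls, R => by simp [withR, length_withR ls]

lemma map_d_withR : ∀ (ls : List (ℝ × ℝ)) (R : ℕ → ℝ),
    (withR ls R).map (fun i => i.2.1) = ls.map Prod.snd
  | [], _ => rfl
  | (_, _) :: ls, R => by simp [withR, map_d_withR ls]

lemma sum_r_withR : ∀ (ls : List (ℝ × ℝ)) (R : ℕ → ℝ),
    R 0 + ((withR ls R).map fun i => i.2.2).sum = R ls.length
  | [], _ => by simp [withR]
  | (_, _) :: ls, R => by
    simp only [withR, List.map_cons, List.sum_cons, List.length_cons]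
    rw [← sum_r_withR ls fun j => R (j + 1)]
    ring

lemma cum_withR : ∀ (ls : List (ℝ × ℝ)) (R : ℕ → ℝ) (j : ℕ), j ≤ ls.length →
    cum (fun i : Lev => i.2.2) (withR ls R) (R 0) j = R j
  | [], R, j, hj => by
    obtain rfl : j = 0 := Nat.le_zero.1 hj
    rfl
  | (_, _) :: ls, R, 0, _ => by simp [withR, cum]
  | (_, _) :: ls, R, j + 1, hj => by
    simp only [withR, cum]
    rw [show R 0 + (R 1 - R 0) = (fun j => R (j + 1)) 0 by ring]
    exact cum_withR ls (fun j => R (j + 1)) j (by simpa using hj)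

lemma mem_withR : ∀ {ls : List (ℝ × ℝ)} {R : ℕ → ℝ} {i : Lev}, i ∈ withR ls R →
    (i.1, i.2.1) ∈ ls ∧ ∃ j, j < ls.length ∧ i.2.2 = R (j + 1) - R j
  | [], _, i, hi => absurd hi (by simp [withR])
  | (m, d) :: ls, R, i, hi => by
    rcases List.mem_cons.1 hi with rfl | hi
    · exact ⟨List.mem_cons_self .., 0, by simp, rfl⟩
    · obtain ⟨h1, j, hj, h2⟩ := mem_withR hi
      exact ⟨List.mem_cons_of_mem _ h1, j + 1, by simpa using hj, h2⟩

lemma ordered_withR : ∀ (ls : List (ℝ × ℝ)) (R : ℕ → ℝ), List.IsChain (· ≤ ·) (ls.map Prod.fst) →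
    (∀ p ∈ ls, 0 < p.1 ∧ p.1 ≤ 1) → Ordered (withR ls R)
  | [], _, _, _ => trivial
  | (m, d) :: ls, R, hc, hb => by
    have hb' : ∀ p ∈ ls, 0 < p.1 ∧ p.1 ≤ 1 := fun p hp => hb p (List.mem_cons_of_mem _ hp)
    refine ⟨(hb _ (List.mem_cons_self ..)).1, ?_, ordered_withR ls _ (List.IsChain.tail hc) hb'⟩
    cases ls with
    | nil => exact (hb (m, d) (List.mem_cons_self ..)).2
    | cons p ls =>
      obtain ⟨m', d'⟩ := p
      simp only [List.map_cons, List.isChain_cons_cons] at hc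
      exact hc.1

variable {f : ℝ → ℝ} {a : ℝ} {ν : Measure ℝ} {q0 S : ℝ}

lemma kU_inner (hk : Ker f a ν) (hS : 0 ≤ S) (y : ℝ) :
    ∫ z, Real.exp (f (y + Real.sqrt S * z)) ∂gaussianReal 0 1 = kU a ν S y := by
  simp only [exp_eq_kU hk]
  rw [integral_kU_add hk le_rfl hS y, zero_add]

lemma kD_inner (hk : Ker f a ν) (hS : 0 < S) (y : ℝ) :
    (∫ z, z * Real.exp (f (y + Real.sqrt S * z)) ∂gaussianReal 0 1) / Real.sqrt S /
      ∫ z, Real.exp (f (y + Real.sqrt S * z)) ∂gaussianReal 0 1 = kD a ν S y := by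
  rw [kU_inner hk hS.le y, kD]
  congr 1
  have := hk.fin
  set γ := gaussianReal 0 1
  set b := Real.sqrt S
  have hb : b ^ 2 = S := Real.sq_sqrt hS.le
  have hb0 : b ≠ 0 := (Real.sqrt_pos.2 hS).ne'
  have hzint : Integrable (fun z : ℝ => z) γ := IsGaussian.integrable_id
  have hzcos : ∀ t, ∫ z, z * Real.cos (t * (y + b * z)) ∂γ =
      -(t * b) * (Real.sin (t * y) * Real.exp (-S * t ^ 2 / 2)) := fun t => by
    have hi : Integrable (fun z : ℝ => (z : ℂ) * cexp ((t * (y + b * z) : ℝ) * I)) γ :=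
      Integrable.mono' hzint.abs (Continuous.aestronglyMeasurable (by fun_prop))
        (Eventually.of_forall fun z => by simp [Complex.norm_exp])
    have h := congrArg Complex.re (show ∫ z : ℝ, (z : ℂ) * cexp ((t * (y + b * z) : ℝ) * I) ∂γ =
        cexp ((t * y : ℝ) * I) * (((t * b : ℝ) : ℂ) * I * cexp (-((t * b : ℝ) : ℂ) ^ 2 / 2)) by
      rw [← integral_mul_cexp_gaussian, ← integral_const_mul]
      refine integral_congr_ae (Eventually.of_forall fun z => ?_)
      simp only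
      rw [mul_left_comm, ← Complex.exp_add]; congr 2; push_cast; ring)
    have hre : (∫ z : ℝ, (z : ℂ) * cexp ((t * (y + b * z) : ℝ) * I) ∂γ).re =
        ∫ z, z * Real.cos (t * (y + b * z)) ∂γ :=
      ((Complex.reCLM.integral_comp_comm hi).symm).trans (integral_congr_ae
        (Eventually.of_forall fun z => by
          show ((z : ℂ) * cexp ((t * (y + b * z) : ℝ) * I)).re = _
          rw [Complex.re_ofReal_mul, Complex.exp_ofReal_mul_I_re]))
    rw [hre, show -((t * b : ℝ) : ℂ) ^ 2 / 2 = ((-S * t ^ 2 / 2 : ℝ) : ℂ) by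
        rw [← hb]; push_cast; ring, ← Complex.ofReal_exp] at h
    rw [h, Complex.mul_re, Complex.exp_ofReal_mul_I_re, Complex.exp_ofReal_mul_I_im]
    simp only [Complex.mul_re, Complex.mul_im, Complex.ofReal_re, Complex.ofReal_im, Complex.I_re,
      Complex.I_im]
    ring
  have hin2 : Integrable (Function.uncurry fun z t => z * Real.cos (t * (y + b * z))) (γ.prod ν) :=
    Integrable.mono' (hzint.abs.comp_fst ν) (Continuous.aestronglyMeasurable (by fun_prop))
      (Eventually.of_forall fun p => by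
        rw [Function.uncurry, Real.norm_eq_abs, abs_mul]
        exact mul_le_of_le_one_right (abs_nonneg _) (Real.abs_cos_le_one _))
  have hi2 : Integrable (fun z => ∫ t, z * Real.cos (t * (y + b * z)) ∂ν) γ := hin2.integral_prod_left
  simp only [hk.eq, mul_sub, ← integral_const_mul]
  rw [integral_sub (hzint.mul_const a) hi2, integral_integral_swap hin2,
    integral_mul_const, integral_id_gaussianReal, zero_mul, zero_sub, div_eq_iff hb0, ← integral_neg,
    ← integral_mul_const]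
  refine integral_congr_ae (Eventually.of_forall fun t => ?_)
  simp only [hzcos]
  ring

lemma pot_eq (hk : Ker f a ν) (hS : 0 < S) : ∀ (ls : List (ℝ × ℝ)) (R : ℕ → ℝ) (y : ℝ),
    casc (stdGaussian ℝ) levM (sy 1) (withR ls R) (lkU a ν S) y = rsbPot f ls S y
  | [], R, y => by simp [withR, casc, rsbPot, lkU, kU_inner hk hS.le]
  | (m, d) :: ls, R, y => by
    simp only [withR, casc, rsbPot, lexp, pot_eq hk hS ls]
    simp [sy, levM, stdGaussian_real]

lemma slope_eq (hk : Ker f a ν) (hS : 0 < S) : ∀ (ls : List (ℝ × ℝ)) (R : ℕ → ℝ) (y : ℝ),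
    cmean (stdGaussian ℝ) levM (sy 1) (withR ls R) (lkU a ν S) (kD a ν S) y = rsbSlope f ls S y
  | [], R, y => by simp [withR, cmean, rsbSlope, kD_inner hk hS]
  | (m, d) :: ls, R, y => by
    simp only [withR, cmean, rsbSlope, tilt, slope_eq hk hS ls, pot_eq hk hS ls, smul_eq_mul]
    rw [inv_mul_eq_div]
    simp [sy, levM, stdGaussian_real]

lemma sq_eq (hk : Ker f a ν) (hS : 0 < S) : ∀ (ls : List (ℝ × ℝ)) (R : ℕ → ℝ) (j : ℕ) (y : ℝ),
    csq (stdGaussian ℝ) levM (sy 1) (withR ls R) (lkU a ν S) (kD a ν S) j y = rsbSq f ls S j y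
  | ls, R, 0, y => by rw [csq_zero, slope_eq hk hS]; simp [rsbSq]
  | [], R, j + 1, y => by simp [withR, csq, rsbSq]
  | (m, d) :: ls, R, j + 1, y => by
    simp only [withR, csq, rsbSq, tilt, sq_eq hk hS ls, pot_eq hk hS ls, smul_eq_mul]
    rw [inv_mul_eq_div]
    simp [sy, levM, stdGaussian_real]

variable {ls : List (ℝ × ℝ)}

lemma rsbRest_pos (h : RsbParam q0 ls) : 0 < rsbRest q0 ls := by
  unfold rsbRest; linarith [h.2.2.2]

lemma tgtR_eq (hk : Ker f a ν) (h : RsbParam q0 ls) (R : ℕ → ℝ) (j : ℕ) :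
    tgtR a ν (withR ls R) q0 1 (rsbRest q0 ls) j = rsbOverlap f q0 ls j := by
  simp only [tgtR, rsbOverlap, sq_eq hk (rsbRest_pos h)]
  simp [stdGaussian_real]

lemma tgtA_eq (hk : Ker f a ν) (h : RsbParam q0 ls) (R : ℕ → ℝ) :
    tgtA a ν (withR ls R) q0 1 (rsbRest q0 ls) = rsbEnergy f q0 ls := by
  simp only [tgtA, rsbEnergy, pot_eq hk (rsbRest_pos h)]
  simp [stdGaussian_real]

lemma overlap_nonneg (hk : Ker f a ν) (h : RsbParam q0 ls) : 0 ≤ rsbOverlap f q0 ls 0 :=
  integral_nonneg fun y => by cases ls <;> exact sq_nonneg _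

lemma overlap_le_succ (hk : Ker f a ν) (h : RsbParam q0 ls) {j : ℕ} (hj : j < ls.length) :
    rsbOverlap f q0 ls j ≤ rsbOverlap f q0 ls (j + 1) := by
  have hS := rsbRest_pos h
  set l0 := withR ls fun _ => 0 with hl0
  have hord : Ordered l0 := ordered_withR ls _ h.2.1 fun p hp => ⟨(h.2.2.1 p hp).1, (h.2.2.1 p hp).2.1⟩
  obtain ⟨C, hC1, hC⟩ := kern_bounds hk hS
  have hG := lip_lkU hk (by linarith : 0 ≤ C) (fun σ' hσ' y z => (hC σ' hσ' y z).2.2.2.2) le_rfl
  have hD : ∀ x, ‖kD a ν (rsbRest q0 ls) x‖ ≤ C := fun x =>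
    (Real.norm_eq_abs _).le.trans (hC _ le_rfl x 0).1
  have hi : ∀ j, Integrable (fun y : ℝ => csq (stdGaussian ℝ) levM (sy 1) l0 (lkU a ν (rsbRest q0 ls))
      (kD a ν (rsbRest q0 ls)) j ((1 * Real.sqrt q0) • y)) (stdGaussian ℝ) := fun j =>
    Integrable.mono' (integrable_const (C ^ 2))
      ((measurable_csq hG (measurable_kD hk (rsbRest q0 ls)) (good_sy hord 1) j).comp
        (by fun_prop : Measurable fun y : ℝ => (1 * Real.sqrt q0) • y)).aestronglyMeasurable
      (Eventually.of_forall fun y => (Real.norm_eq_abs _).le.trans (abs_csq_le hG hD (good_sy hord 1) j _))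
  rw [← tgtR_eq hk h (fun _ => 0) j, ← tgtR_eq hk h (fun _ => 0) (j + 1)]
  exact integral_mono (hi j) (hi (j + 1)) fun y => csq_le_succ hG (measurable_kD hk _) hD (good_sy hord 1) j
    (by rw [hl0, length_withR]; exact hj) _

lemma adm_of_param (hk : Ker f a ν) (h : RsbParam q0 ls) :
    Adm (withR ls (rsbOverlap f q0 ls)) q0 (rsbOverlap f q0 ls 0) (rsbRest q0 ls) := by
  refine ⟨ordered_withR ls _ h.2.1 fun p hp => ⟨(h.2.2.1 p hp).1, (h.2.2.1 p hp).2.1⟩, h.1,
    fun i hi => (h.2.2.1 _ (mem_withR hi).1).2.2, rsbRest_pos h, ?_, overlap_nonneg hk h, fun i hi => ?_⟩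
  · rw [map_d_withR, rsbRest]; ring
  · obtain ⟨-, j, hj, he⟩ := mem_withR hi
    rw [he]
    linarith [overlap_le_succ hk h hj]

lemma pen_withR : ∀ (ls : List (ℝ × ℝ)) (R₀ : ℕ → ℝ) (q : ℝ) (R : ℕ → ℝ),
    pen levM (fun i => i.2.1) (withR ls R₀) q R - R ls.length = -rsbPair ls q R
  | [], R₀, q, R => by simp [withR, pen, rsbPair]; ring
  | (m, d) :: ls, R₀, q, R => by
    simp only [withR, pen, rsbPair, List.length_cons, levM]
    linear_combination pen_withR ls (fun j => R₀ (j + 1)) (q + d) fun j => R (j + 1)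

lemma stepCst_eq (hk : Ker f a ν) (h : RsbParam q0 ls) :
    stepCst a ν (withR ls (rsbOverlap f q0 ls)) q0 (rsbOverlap f q0 ls 0) (rsbRest q0 ls) =
      rsbEnergy f q0 ls - rsbPair ls q0 (rsbOverlap f q0 ls) / 2 := by
  have e : tgtR a ν (withR ls (rsbOverlap f q0 ls)) q0 1 (rsbRest q0 ls) = rsbOverlap f q0 ls :=
    funext fun j => tgtR_eq hk h _ j
  rw [stepCst, tgtA_eq hk h, e, sum_r_withR, pen_withR]
  ring

/-- The nested bound in terms of the recursive functionals. -/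
theorem rsb_bound_param {X : Type} [MeasurableSpace X] {E : Type} [NormedAddCommGroup E]
    [InnerProductSpace ℝ E] [FiniteDimensional ℝ E] [MeasurableSpace E] [BorelSpace E] {μ : Measure X}
    [IsProbabilityMeasure μ] {v : X → E} (hk : Ker f a ν) (h : RsbParam q0 ls) (hv : Measurable v)
    (hv1 : ∀ x, ‖v x‖ = 1) {lam : ℝ} (hlam : 0 ≤ lam) :
    poiE lam (fun k => L μ f v k fun _ => 1) ≤
      fldPsi μ v (withR ls (rsbOverlap f q0 ls)) (rsbOverlap f q0 ls 0) lam (fun _ => 1) +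
        lam * (rsbEnergy f q0 ls - rsbPair ls q0 (rsbOverlap f q0 ls) / 2) := by
  rw [← stepCst_eq hk h]
  refine rsb_bound hk (adm_of_param hk h) (fun j hj => ?_) hv hv1 hlam
  rw [length_withR] at hj
  rw [cum_withR ls _ j hj, tgtR_eq hk h]

end Vale.Agent.P157.RSB
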