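import Vale.Agent.P157.Gauss

/-!
Nested log-moment functionals: one level of randomness after another, each with its own exponent.
-/

namespace Vale.Agent.P157.RSB

open MeasureTheory ProbabilityTheory

section defs

variable {ι Z S : Type} [MeasurableSpace Z] [Add S]

/-- The normalised log-moment of order `m`. -/
noncomputable def lexp (γ : Measure Z) (m : ℝ) (X : Z → ℝ) : ℝ :=
  Real.log (∫ z, Real.exp (m * X z) ∂γ) / m

/-- The mean under the tilt `exp (m X)`. -/
noncomputable def tilt {V : Type} [NormedAddCommGroup V] [NormedSpace ℝ V] (γ : Measure Z) (m : ℝ)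
    (X : Z → ℝ) (F : Z → V) : V :=
  (∫ z, Real.exp (m * X z) ∂γ)⁻¹ • ∫ z, Real.exp (m * X z) • F z ∂γ

/-- The nested functional: the level `i` adds `σ i z` to the state and has exponent `m i`. -/
noncomputable def casc (γ : Measure Z) (m : ι → ℝ) (σ : ι → Z → S) :
    List ι → (S → ℝ) → S → ℝ
  | [], G, x => G x
  | i :: ls, G, x => lexp γ (m i) fun z => casc γ m σ ls G (x + σ i z)

/-- The nested tilted mean. -/
noncomputable def cmean {V : Type} [NormedAddCommGroup V] [NormedSpace ℝ V] (γ : Measure Z)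
    (m : ι → ℝ) (σ : ι → Z → S) : List ι → (S → ℝ) → (S → V) → S → V
  | [], _, F, x => F x
  | i :: ls, G, F, x => tilt γ (m i) (fun z => casc γ m σ ls G (x + σ i z))
      fun z => cmean γ m σ ls G F (x + σ i z)

/-- The tilted mean, over the first `j` levels, of the squared norm of the later mean. -/
noncomputable def csq {V : Type} [NormedAddCommGroup V] [NormedSpace ℝ V] (γ : Measure Z)
    (m : ι → ℝ) (σ : ι → Z → S) : List ι → (S → ℝ) → (S → V) → ℕ → S → ℝ
  | [], _, F, 0, x => ‖F x‖ ^ 2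
  | [], _, _, _ + 1, _ => 0
  | i :: ls, G, F, 0, x => ‖cmean γ m σ (i :: ls) G F x‖ ^ 2
  | i :: ls, G, F, j + 1, x => tilt γ (m i) (fun z => casc γ m σ ls G (x + σ i z))
      fun z => csq γ m σ ls G F j (x + σ i z)

/-- The bilinear pairing of level values with accumulated variances. -/
def pen (m d : ι → ℝ) : List ι → ℝ → (ℕ → ℝ) → ℝ
  | [], q, R => q * R 0
  | i :: ls, q, R => m i * q * R 0 - m i * (q + d i) * R 1 +
      pen m d ls (q + d i) fun j => R (j + 1)

lemma csq_zero {V : Type} [NormedAddCommGroup V] [NormedSpace ℝ V] (γ : Measure Z) (m : ι → ℝ)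
    (σ : ι → Z → S) (ls : List ι) (G : S → ℝ) (F : S → V) (x : S) :
    csq γ m σ ls G F 0 x = ‖cmean γ m σ ls G F x‖ ^ 2 := by
  cases ls <;> rfl

lemma pen_smul (m d : ι → ℝ) (c : ℝ) : ∀ (ls : List ι) (q : ℝ) (R : ℕ → ℝ),
    pen m d ls q (fun j => c * R j) = c * pen m d ls q R
  | [], q, R => by simp only [pen]; ring
  | i :: ls, q, R => by simp only [pen]; rw [pen_smul m d c ls]; ring

lemma pen_add (m d : ι → ℝ) : ∀ (ls : List ι) (q : ℝ) (R R' : ℕ → ℝ),
    pen m d ls q (fun j => R j + R' j) = pen m d ls q R + pen m d ls q R'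
  | [], q, R, R' => by simp only [pen]; ring
  | i :: ls, q, R, R' => by simp only [pen]; rw [pen_add m d ls]; ring

end defs

/-! ### One level -/

section level

variable {Z : Type} [MeasurableSpace Z] {γ : Measure Z}

/-- An exponent, and a random variable with all exponential moments of that order. -/
structure Wgt (γ : Measure Z) (m : ℝ) (X : Z → ℝ) : Prop where
  meas : Measurable X
  int : Integrable (fun z => Real.exp (m * X z)) γ

variable [IsProbabilityMeasure γ] {m : ℝ} {X Y : Z → ℝ}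

lemma Wgt.pos (h : Wgt γ m X) : 0 < ∫ z, Real.exp (m * X z) ∂γ := integral_exp_pos h.int

lemma lexp_add_const (h : Wgt γ m X) (hm : m ≠ 0) (c : ℝ) :
    lexp γ m (fun z => X z + c) = lexp γ m X + c := by
  simp only [lexp, mul_add, Real.exp_add]
  rw [integral_mul_const, Real.log_mul h.pos.ne' (Real.exp_pos _).ne', Real.log_exp]
  field_simp

lemma lexp_mono (hX : Wgt γ m X) (hY : Wgt γ m Y) (hm : 0 < m) (h : ∀ z, X z ≤ Y z) :
    lexp γ m X ≤ lexp γ m Y :=
  div_le_div_of_nonneg_right (Real.log_le_log hX.pos (integral_mono hX.int hY.int fun z =>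
    Real.exp_le_exp.2 (mul_le_mul_of_nonneg_left (h z) hm.le))) hm.le

lemma lexp_const (hm : m ≠ 0) (c : ℝ) : lexp γ m (fun _ => c) = c := by
  simp [lexp, mul_div_assoc, hm]

lemma abs_lexp_sub_le (hX : Wgt γ m X) (hY : Wgt γ m Y) (hm : 0 < m) {c : ℝ}
    (h : ∀ z, |X z - Y z| ≤ c) : |lexp γ m X - lexp γ m Y| ≤ c := by
  have h1 := lexp_mono hX (Y := fun z => Y z + c)
    ⟨hY.meas.add_const c, by simpa [mul_add, Real.exp_add] using hY.int.mul_const (Real.exp (m * c))⟩
    hm fun z => by linarith [(abs_le.1 (h z)).2]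
  have h2 := lexp_mono hY (Y := fun z => X z + c)
    ⟨hX.meas.add_const c, by simpa [mul_add, Real.exp_add] using hX.int.mul_const (Real.exp (m * c))⟩
    hm fun z => by linarith [(abs_le.1 (h z)).1]
  rw [lexp_add_const hY hm.ne'] at h1
  rw [lexp_add_const hX hm.ne'] at h2
  rw [abs_le]
  constructor <;> linarith

variable {V : Type} [NormedAddCommGroup V] [NormedSpace ℝ V]

lemma Wgt.integrable_smul (h : Wgt γ m X) {F : Z → V} (hF : AEStronglyMeasurable F γ) {C : ℝ}
    (hC : ∀ z, ‖F z‖ ≤ C) : Integrable (fun z => Real.exp (m * X z) • F z) γ :=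
  h.int.smul_of_top_left (memLp_top_of_bound hF C (Filter.Eventually.of_forall hC))

lemma norm_tilt_le (h : Wgt γ m X) {F : Z → V} {C : ℝ} (hC : ∀ z, ‖F z‖ ≤ C) :
    ‖tilt γ m X F‖ ≤ C := by
  rw [tilt, norm_smul, Real.norm_eq_abs, abs_inv, abs_of_pos h.pos, inv_mul_le_iff₀ h.pos,
    ← integral_mul_const]
  refine norm_integral_le_of_norm_le (h.int.mul_const C) (Filter.Eventually.of_forall fun z => ?_)
  rw [norm_smul, Real.norm_eq_abs, Real.abs_exp]
  exact mul_le_mul_of_nonneg_left (hC z) (Real.exp_pos _).le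

omit [NormedAddCommGroup V] [NormedSpace ℝ V] in
lemma tilt_const (h : Wgt γ m X) (c : ℝ) : tilt γ m X (fun _ => c) = c := by
  simp only [tilt, smul_eq_mul]
  rw [integral_mul_const, ← mul_assoc, inv_mul_cancel₀ h.pos.ne', one_mul]

omit [IsProbabilityMeasure γ] in
lemma tilt_const_mul (c : ℝ) (F : Z → ℝ) :
    tilt γ m X (fun z => c * F z) = c * tilt γ m X F := by
  simp only [tilt, smul_eq_mul, mul_left_comm _ c]
  rw [integral_const_mul]
  ring

omit [IsProbabilityMeasure γ] in
lemma tilt_add {F F' : Z → V} (hF : Integrable (fun z => Real.exp (m * X z) • F z) γ)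
    (hF' : Integrable (fun z => Real.exp (m * X z) • F' z) γ) :
    tilt γ m X (fun z => F z + F' z) = tilt γ m X F + tilt γ m X F' := by
  simp only [tilt, smul_add]
  rw [integral_add hF hF', smul_add]

lemma tilt_mono (h : Wgt γ m X) {F F' : Z → ℝ}
    (hF : Integrable (fun z => Real.exp (m * X z) * F z) γ)
    (hF' : Integrable (fun z => Real.exp (m * X z) * F' z) γ) (hle : ∀ z, F z ≤ F' z) :
    tilt γ m X F ≤ tilt γ m X F' := by
  simp only [tilt, smul_eq_mul]
  exact mul_le_mul_of_nonneg_left (integral_mono hF hF' fun z =>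
    mul_le_mul_of_nonneg_left (hle z) (Real.exp_pos _).le) (inv_nonneg.2 h.pos.le)

end level

/-! ### All levels -/

section levels

variable {ι Z S : Type} [MeasurableSpace Z] [NormedAddCommGroup S] [MeasurableSpace S] [BorelSpace S]
  [SecondCountableTopology S]

/-- A shift with exponential moments. -/
structure Shift (γ : Measure Z) (σ : Z → S) : Prop where
  meas : Measurable σ
  int : ∀ c : ℝ, Integrable (fun z => Real.exp (c * ‖σ z‖)) γ

/-- Measurable and Lipschitz with constant `K`. -/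
structure Lip (K : ℝ) (G : S → ℝ) : Prop where
  meas : Measurable G
  nonneg : 0 ≤ K
  lip : ∀ x y, |G (x + y) - G x| ≤ K * ‖y‖

variable {γ : Measure Z} [IsProbabilityMeasure γ] {m : ι → ℝ} {σ : ι → Z → S} {K : ℝ} {G : S → ℝ}

omit [IsProbabilityMeasure γ] in
lemma Lip.wgt {s : Z → S} (hG : Lip K G) (hs : Shift γ s) (x : S) (c : ℝ) :
    Wgt γ c fun z => G (x + s z) := by
  have hm : Measurable fun z => G (x + s z) := hG.meas.comp (hs.meas.const_add x)
  refine ⟨hm, Integrable.mono' ((hs.int (|c| * K)).const_mul (Real.exp (|c| * |G x|)))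
    (hm.const_mul c).exp.aestronglyMeasurable (Filter.Eventually.of_forall fun z => ?_)⟩
  rw [Real.norm_eq_abs, Real.abs_exp, ← Real.exp_add, Real.exp_le_exp]
  calc c * G (x + s z) ≤ |c * G (x + s z)| := le_abs_self _
    _ = |c| * |G (x + s z)| := abs_mul _ _
    _ ≤ |c| * (|G x| + K * ‖s z‖) := mul_le_mul_of_nonneg_left
        (by linarith [abs_sub_abs_le_abs_sub (G (x + s z)) (G x), hG.lip x (s z)]) (abs_nonneg c)
    _ = |c| * |G x| + |c| * K * ‖s z‖ := by ring

lemma measurable_lexp {P : Type} [MeasurableSpace P] {X : P → Z → ℝ}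
    (hX : Measurable (Function.uncurry X)) (c : ℝ) : Measurable fun p => lexp γ c (X p) :=
  ((hX.const_mul c).exp.stronglyMeasurable.integral_prod_right' (ν := γ)).measurable.log.div_const c

lemma measurable_tilt {P V : Type} [MeasurableSpace P] [NormedAddCommGroup V] [NormedSpace ℝ V]
    [MeasurableSpace V] [BorelSpace V] [SecondCountableTopology V] [CompleteSpace V]
    {X : P → Z → ℝ} {F : P → Z → V} (hX : Measurable (Function.uncurry X))
    (hF : Measurable (Function.uncurry F)) (c : ℝ) : Measurable fun p => tilt γ c (X p) (F p) :=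
  (((hX.const_mul c).exp.stronglyMeasurable.integral_prod_right' (ν := γ)).measurable.inv).smul
    ((((hX.const_mul c).exp).smul hF).stronglyMeasurable.integral_prod_right' (ν := γ)).measurable

/-- Levels with positive exponents and integrable shifts. -/
def Good (γ : Measure Z) (m : ι → ℝ) (σ : ι → Z → S) (ls : List ι) : Prop :=
  ∀ i ∈ ls, 0 < m i ∧ Shift γ (σ i)

omit [MeasurableSpace Z] [NormedAddCommGroup S] [MeasurableSpace S] [BorelSpace S]
  [SecondCountableTopology S] in
lemma good_cons {Z S : Type} [MeasurableSpace Z] [NormedAddCommGroup S] [MeasurableSpace S]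
    {γ : Measure Z} {σ : ι → Z → S} {i : ι} {ls : List ι} :
    Good γ m σ (i :: ls) ↔ (0 < m i ∧ Shift γ (σ i)) ∧ Good γ m σ ls := by
  simp [Good]

lemma measurable_shiftPair {s : Z → S} (hs : Measurable s) :
    Measurable fun p : S × Z => p.1 + s p.2 :=
  measurable_fst.add (hs.comp measurable_snd)

lemma Lip.casc : ∀ {ls : List ι}, Good γ m σ ls → Lip K G → Lip K (RSB.casc γ m σ ls G)
  | [], _, hG => hG
  | i :: ls, h, hG => by
    obtain ⟨⟨hm, hs⟩, hls⟩ := good_cons.1 h
    have ih := Lip.casc hls hG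
    refine ⟨measurable_lexp (X := fun x z => RSB.casc γ m σ ls G (x + σ i z))
      (ih.meas.comp (measurable_shiftPair hs.meas)) (m i), hG.nonneg, fun x y => ?_⟩
    refine abs_lexp_sub_le (ih.wgt hs (x + y) _) (ih.wgt hs x _) hm fun z => ?_
    rw [add_right_comm]
    exact ih.lip (x + σ i z) y

/-- Each level uses a weight with exponential moments. -/
lemma casc_wgt {i : ι} {ls : List ι} (h : Good γ m σ (i :: ls)) (hG : Lip K G) (x : S) :
    Wgt γ (m i) fun z => casc γ m σ ls G (x + σ i z) :=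
  (hG.casc (good_cons.1 h).2).wgt (good_cons.1 h).1.2 x _

lemma casc_add_const (hG : Lip K G) (c : ℝ) : ∀ {ls : List ι}, Good γ m σ ls → ∀ x,
    casc γ m σ ls (fun x => G x + c) x = casc γ m σ ls G x + c
  | [], _, _ => rfl
  | i :: ls, h, x => by
    simp only [casc, casc_add_const hG c (good_cons.1 h).2]
    exact lexp_add_const (casc_wgt h hG x) (good_cons.1 h).1.1.ne' c

lemma casc_mono {G' : S → ℝ} {K' : ℝ} (hG : Lip K G) (hG' : Lip K' G') (hle : ∀ x, G x ≤ G' x) :
    ∀ {ls : List ι}, Good γ m σ ls → ∀ x, casc γ m σ ls G x ≤ casc γ m σ ls G' x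
  | [], _, x => hle x
  | _ :: _, h, x => lexp_mono (casc_wgt h hG x) (casc_wgt h hG' x) (good_cons.1 h).1.1
      fun _ => casc_mono hG hG' hle (good_cons.1 h).2 _

variable {V : Type} [NormedAddCommGroup V] [NormedSpace ℝ V] [MeasurableSpace V] [BorelSpace V]
  [SecondCountableTopology V] [CompleteSpace V] {F : S → V} {C : ℝ}

lemma measurable_cmean (hG : Lip K G) (hF : Measurable F) : ∀ {ls : List ι}, Good γ m σ ls →
    Measurable (cmean γ m σ ls G F)
  | [], _ => hF
  | i :: ls, h => by
    obtain ⟨⟨_, hs⟩, hls⟩ := good_cons.1 h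
    exact measurable_tilt (X := fun x z => casc γ m σ ls G (x + σ i z))
      (F := fun x z => cmean γ m σ ls G F (x + σ i z))
      ((hG.casc hls).meas.comp (measurable_shiftPair hs.meas))
      ((measurable_cmean hG hF hls).comp (measurable_shiftPair hs.meas)) _

omit [MeasurableSpace V] [BorelSpace V] [SecondCountableTopology V] [CompleteSpace V] in
lemma norm_cmean_le (hG : Lip K G) (hC : ∀ x, ‖F x‖ ≤ C) : ∀ {ls : List ι}, Good γ m σ ls →
    ∀ x, ‖cmean γ m σ ls G F x‖ ≤ C
  | [], _, x => hC x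
  | i :: ls, h, x => norm_tilt_le (casc_wgt h hG x) fun z => norm_cmean_le hG hC (good_cons.1 h).2 _

lemma measurable_csq (hG : Lip K G) (hF : Measurable F) : ∀ {ls : List ι}, Good γ m σ ls →
    ∀ j, Measurable (csq γ m σ ls G F j)
  | [], _, 0 => hF.norm.pow_const 2
  | [], _, _ + 1 => measurable_const
  | i :: ls, h, 0 => (measurable_cmean hG hF h).norm.pow_const 2
  | i :: ls, h, j + 1 => by
    obtain ⟨⟨_, hs⟩, hls⟩ := good_cons.1 h
    exact measurable_tilt (X := fun x z => casc γ m σ ls G (x + σ i z))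
      (F := fun x z => csq γ m σ ls G F j (x + σ i z))
      ((hG.casc hls).meas.comp (measurable_shiftPair hs.meas))
      ((measurable_csq hG hF hls j).comp (measurable_shiftPair hs.meas)) _

omit [MeasurableSpace V] [BorelSpace V] [SecondCountableTopology V] [CompleteSpace V] in
lemma abs_csq_le (hG : Lip K G) (hC : ∀ x, ‖F x‖ ≤ C) : ∀ {ls : List ι}, Good γ m σ ls →
    ∀ j x, |csq γ m σ ls G F j x| ≤ C ^ 2
  | [], _, 0, x => by
    simpa [csq] using pow_le_pow_left₀ (norm_nonneg _) (hC x) 2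
  | [], _, _ + 1, _ => by simpa [csq] using sq_nonneg C
  | i :: ls, h, 0, x => by
    simpa [csq_zero] using pow_le_pow_left₀ (norm_nonneg _) (norm_cmean_le hG hC h x) 2
  | i :: ls, h, j + 1, x =>
    (Real.norm_eq_abs _).symm.le.trans (norm_tilt_le (casc_wgt h hG x) fun z =>
      (Real.norm_eq_abs _).le.trans (abs_csq_le hG hC (good_cons.1 h).2 j _))

end levels

/-! ### Change of variables -/

section change

variable {ι Z Z' S S' : Type} [MeasurableSpace Z] [MeasurableSpace Z'] [AddCommGroup S] [AddCommGroup S']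

lemma casc_map (γ : Measure Z) (m : ι → ℝ) (σ : ι → Z → S) (φ : S →+ S') (G : S' → ℝ) :
    ∀ (ls : List ι) x, casc γ m σ ls (fun x => G (φ x)) x =
      casc γ m (fun i z => φ (σ i z)) ls G (φ x)
  | [], _ => rfl
  | i :: ls, x => by simp only [casc, casc_map γ m σ φ G ls, map_add]

lemma cmean_map {V : Type} [NormedAddCommGroup V] [NormedSpace ℝ V] (γ : Measure Z) (m : ι → ℝ)
    (σ : ι → Z → S) (φ : S →+ S') (G : S' → ℝ) (F : S' → V) :
    ∀ (ls : List ι) x, cmean γ m σ ls (fun x => G (φ x)) (fun x => F (φ x)) x =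
      cmean γ m (fun i z => φ (σ i z)) ls G F (φ x)
  | [], _ => rfl
  | i :: ls, x => by simp only [cmean, casc_map γ m σ φ G, cmean_map γ m σ φ G F ls, map_add]

lemma lexp_map {γ : Measure Z} {s : Z → S} [MeasurableSpace S] (hs : Measurable s) {X : S → ℝ}
    (hX : Measurable X) (c : ℝ) : lexp γ c (fun z => X (s z)) = lexp (γ.map s) c X := by
  rw [lexp, lexp, integral_map hs.aemeasurable (hX.const_mul c).exp.aestronglyMeasurable]

lemma tilt_map {γ : Measure Z} {s : Z → S} [MeasurableSpace S] (hs : Measurable s) {X : S → ℝ}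
    (hX : Measurable X) {F : S → ℝ} (hF : Measurable F) (c : ℝ) :
    tilt γ c (fun z => X (s z)) (fun z => F (s z)) = tilt (γ.map s) c X F := by
  have hm : Measurable fun y => Real.exp (c * X y) • F y := (hX.const_mul c).exp.smul hF
  rw [tilt, tilt, integral_map hs.aemeasurable (hX.const_mul c).exp.aestronglyMeasurable,
    integral_map hs.aemeasurable hm.aestronglyMeasurable]

end change

section law

variable {ι Z Z' S : Type} [MeasurableSpace Z] [MeasurableSpace Z'] [NormedAddCommGroup S]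
  [MeasurableSpace S] [BorelSpace S] [SecondCountableTopology S]
  {γ : Measure Z} [IsProbabilityMeasure γ] {γ' : Measure Z'} [IsProbabilityMeasure γ']
  {m : ι → ℝ} {σ : ι → Z → S} {σ' : ι → Z' → S} {K : ℝ} {G : S → ℝ}

/-- The functional depends on the laws of the shifts only. -/
lemma casc_law (hG : Lip K G) : ∀ {ls : List ι}, Good γ m σ ls → Good γ' m σ' ls →
    (∀ i ∈ ls, γ.map (σ i) = γ'.map (σ' i)) → ∀ x, casc γ m σ ls G x = casc γ' m σ' ls G x
  | [], _, _, _, _ => rfl
  | i :: ls, h, h', hlaw, x => by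
    obtain ⟨⟨_, hs⟩, hls⟩ := good_cons.1 h
    obtain ⟨⟨_, hs'⟩, hls'⟩ := good_cons.1 h'
    have ih := casc_law hG hls hls' fun j hj => hlaw j (List.mem_cons_of_mem _ hj)
    have hm : Measurable fun y => casc γ' m σ' ls G (x + y) :=
      (hG.casc hls').meas.comp (measurable_const_add x)
    simp only [casc, ih]
    rw [lexp_map hs.meas hm, lexp_map hs'.meas hm, hlaw i (List.mem_cons_self ..)]

end law

/-! ### Independent coordinates -/

section product

variable {ι Z Z' S S' : Type} [MeasurableSpace Z] [MeasurableSpace Z']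
  [NormedAddCommGroup S] [MeasurableSpace S] [BorelSpace S] [SecondCountableTopology S]
  [NormedAddCommGroup S'] [MeasurableSpace S'] [BorelSpace S'] [SecondCountableTopology S']
  {γ : Measure Z} [IsProbabilityMeasure γ] {γ' : Measure Z'} [IsProbabilityMeasure γ']
  {m : ι → ℝ} {σ : ι → Z → S} {σ' : ι → Z' → S'} {K K' : ℝ} {G : S → ℝ} {G' : S' → ℝ}

lemma casc_prod (hG : Lip K G) (hG' : Lip K' G') : ∀ {ls : List ι}, Good γ m σ ls →
    Good γ' m σ' ls → ∀ x y, casc (γ.prod γ') m (fun i z => (σ i z.1, σ' i z.2)) ls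
      (fun p => G p.1 + G' p.2) (x, y) = casc γ m σ ls G x + casc γ' m σ' ls G' y
  | [], _, _, _, _ => rfl
  | i :: ls, h, h', x, y => by
    have ih := casc_prod hG hG' (good_cons.1 h).2 (good_cons.1 h').2
    simp only [casc, Prod.mk_add_mk, ih, lexp, mul_add, Real.exp_add]
    rw [integral_prod_mul (fun z => Real.exp (m i * casc γ m σ ls G (x + σ i z)))
      (fun z => Real.exp (m i * casc γ' m σ' ls G' (y + σ' i z))),
      Real.log_mul (casc_wgt h hG x).pos.ne' (casc_wgt h' hG' y).pos.ne', add_div]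

omit [IsProbabilityMeasure γ] [IsProbabilityMeasure γ'] in
lemma tilt_prod {W : Type} [NormedAddCommGroup W] [NormedSpace ℝ W] {c : ℝ} (X : Z → ℝ) (Y : Z' → ℝ)
    (F : Z → ℝ) (F' : Z' → W) [SFinite γ] [SFinite γ'] :
    tilt (γ.prod γ') c (fun z => X z.1 + Y z.2) (fun z => F z.1 • F' z.2) =
      tilt γ c X F • tilt γ' c Y F' := by
  simp only [tilt, mul_add, Real.exp_add, smul_eq_mul]
  rw [integral_prod_mul (fun z => Real.exp (c * X z)) (fun z => Real.exp (c * Y z)), mul_inv]
  have e : ∀ z : Z × Z', (Real.exp (c * X z.1) * Real.exp (c * Y z.2)) • F z.1 • F' z.2 =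
      (Real.exp (c * X z.1) * F z.1) • (Real.exp (c * Y z.2) • F' z.2) := fun z => by
    simp only [smul_smul]; ring_nf
  simp only [e]
  rw [integral_prod_smul (fun z => Real.exp (c * X z) * F z) (fun z => Real.exp (c * Y z) • F' z)]
  simp only [smul_smul]
  ring_nf

variable {W : Type} [NormedAddCommGroup W] [NormedSpace ℝ W] {F : S → ℝ} {F' : S' → W}

lemma cmean_prod (hG : Lip K G) (hG' : Lip K' G') : ∀ {ls : List ι}, Good γ m σ ls →
    Good γ' m σ' ls → ∀ x y, cmean (γ.prod γ') m (fun i z => (σ i z.1, σ' i z.2)) ls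
      (fun p => G p.1 + G' p.2) (fun p => F p.1 • F' p.2) (x, y) =
        cmean γ m σ ls G F x • cmean γ' m σ' ls G' F' y
  | [], _, _, _, _ => rfl
  | i :: ls, h, h', x, y => by
    have ih := cmean_prod hG hG' (good_cons.1 h).2 (good_cons.1 h').2
    have hc := casc_prod hG hG' (good_cons.1 h).2 (good_cons.1 h').2
    simp only [cmean, Prod.mk_add_mk, ih, hc]
    exact tilt_prod (γ := γ) (γ' := γ') (fun z => casc γ m σ ls G (x + σ i z))
      (fun z => casc γ' m σ' ls G' (y + σ' i z)) (fun z => cmean γ m σ ls G F (x + σ i z))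
      (fun z => cmean γ' m σ' ls G' F' (y + σ' i z))

lemma csq_prod (hG : Lip K G) (hG' : Lip K' G') : ∀ {ls : List ι}, Good γ m σ ls →
    Good γ' m σ' ls → ∀ j x y, csq (γ.prod γ') m (fun i z => (σ i z.1, σ' i z.2)) ls
      (fun p => G p.1 + G' p.2) (fun p => F p.1 • F' p.2) j (x, y) =
        csq γ m σ ls G F j x * csq γ' m σ' ls G' F' j y
  | [], _, _, 0, x, y => by simp [csq, norm_smul, mul_pow]
  | [], _, _, _ + 1, _, _ => by simp [csq]
  | i :: ls, h, h', 0, x, y => by
    simp only [csq_zero, cmean_prod hG hG' h h']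
    simp [norm_smul, mul_pow]
  | i :: ls, h, h', j + 1, x, y => by
    have ih := csq_prod hG hG' (good_cons.1 h).2 (good_cons.1 h').2 j
    have hc := casc_prod hG hG' (good_cons.1 h).2 (good_cons.1 h').2
    simp only [csq, Prod.mk_add_mk, ih, hc]
    exact tilt_prod (γ := γ) (γ' := γ') (W := ℝ) (fun z => casc γ m σ ls G (x + σ i z))
      (fun z => casc γ' m σ' ls G' (y + σ' i z)) (fun z => csq γ m σ ls G F j (x + σ i z))
      (fun z => csq γ' m σ' ls G' F' j (y + σ' i z))

end product

end Vale.Agent.P157.RSB
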