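import Vale.Agent.P157.RSB.Kern
import Vale.Agent.P157.Field

/-!
Concavity of the nested free energy along the interpolation between one pattern and its
hierarchical target.
-/

namespace Vale.Agent.P157.RSB

open MeasureTheory ProbabilityTheory Filter
open scoped RealInnerProductSpace Topology

/-- A level: exponent, variance of the target variable, variance of the field. -/
abbrev Lev : Type := ℝ × ℝ × ℝ

/-- The exponent of a level. -/
def levM (i : Lev) : ℝ := i.1

/-- The exponent following the levels of a list. -/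
def nextM : List Lev → ℝ
  | [] => 1
  | i :: _ => i.1

/-- Exponents are positive, increasing and at most one. -/
def Ordered : List Lev → Prop
  | [] => True
  | i :: ls => 0 < i.1 ∧ i.1 ≤ nextM ls ∧ Ordered ls

lemma Ordered.nextM_pos : ∀ {ls : List Lev}, Ordered ls → 0 < nextM ls
  | [], _ => one_pos
  | _ :: _, h => h.1

lemma Ordered.pos : ∀ {ls : List Lev}, Ordered ls → ∀ i ∈ ls, 0 < levM i
  | [], _, i, hi => absurd hi (by simp)
  | j :: ls, h, i, hi => by
    rcases List.mem_cons.1 hi with rfl | hi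
    · exact h.1
    · exact Ordered.pos h.2.2 i hi

variable {E : Type} [NormedAddCommGroup E] [InnerProductSpace ℝ E] [FiniteDimensional ℝ E]
  [MeasurableSpace E] [BorelSpace E]

/-- The field increment of a level. -/
noncomputable def hShift (i : Lev) (h : E) : E := Real.sqrt i.2.2 • h

/-- The target increment of a level. -/
noncomputable def yShift (i : Lev) (y : ℝ) : ℝ := Real.sqrt i.2.1 * y

/-- Both increments of a level. -/
noncomputable def hyShift (i : Lev) (z : E × ℝ) : E × ℝ := (hShift i z.1, yShift i z.2)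

lemma integrable_exp_mul_norm {F : Type} [NormedAddCommGroup F] [InnerProductSpace ℝ F]
    [FiniteDimensional ℝ F] [MeasurableSpace F] [BorelSpace F] (c : ℝ) :
    Integrable (fun g : F => Real.exp (c * ‖g‖)) (stdGaussian F) := by
  obtain ⟨C, hC, hi⟩ := IsGaussian.exists_integrable_exp_sq (stdGaussian F)
  refine Integrable.mono' (hi.const_mul (Real.exp (c ^ 2 / (4 * C))))
    (Continuous.aestronglyMeasurable (by fun_prop)) (Filter.Eventually.of_forall fun g => ?_)
  rw [Real.norm_eq_abs, Real.abs_exp, ← Real.exp_add, Real.exp_le_exp]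
  have : 0 ≤ (c - 2 * C * ‖g‖) ^ 2 / (4 * C) := by positivity
  have e : (c - 2 * C * ‖g‖) ^ 2 / (4 * C) = c ^ 2 / (4 * C) - c * ‖g‖ + C * ‖g‖ ^ 2 := by
    field_simp; ring
  linarith

lemma integrable_exp_mul_abs (c : ℝ) :
    Integrable (fun y : ℝ => Real.exp (c * |y|)) (gaussianReal 0 1) := by
  obtain ⟨C, hC, hi⟩ := IsGaussian.exists_integrable_exp_sq (gaussianReal 0 1)
  refine Integrable.mono' (hi.const_mul (Real.exp (c ^ 2 / (4 * C))))
    (Continuous.aestronglyMeasurable (by fun_prop)) (Filter.Eventually.of_forall fun g => ?_)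
  rw [Real.norm_eq_abs, Real.abs_exp, ← Real.exp_add, Real.exp_le_exp, Real.norm_eq_abs]
  have : 0 ≤ (c - 2 * C * |g|) ^ 2 / (4 * C) := by positivity
  have e : (c - 2 * C * |g|) ^ 2 / (4 * C) = c ^ 2 / (4 * C) - c * |g| + C * |g| ^ 2 := by
    field_simp; ring
  linarith

lemma shift_smul (k : ℝ) : Shift (stdGaussian E) fun h : E => k • h :=
  ⟨by fun_prop, fun c => by
    simpa [norm_smul, mul_assoc] using integrable_exp_mul_norm (F := E) (c * |k|)⟩

lemma shift_mul (k : ℝ) : Shift (gaussianReal 0 1) fun y : ℝ => k * y :=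
  ⟨by fun_prop, fun c => by
    simpa [mul_assoc, abs_mul] using integrable_exp_mul_abs (c * |k|)⟩

lemma Shift.prodMk {Z Z' S S' : Type} [MeasurableSpace Z] [MeasurableSpace Z'] [NormedAddCommGroup S]
    [MeasurableSpace S] [NormedAddCommGroup S'] [MeasurableSpace S'] {γ : Measure Z} [SFinite γ]
    {γ' : Measure Z'} [SFinite γ'] {s : Z → S} {s' : Z' → S'} [OpensMeasurableSpace S]
    [OpensMeasurableSpace S'] (h : Shift γ s) (h' : Shift γ' s') :
    Shift (γ.prod γ') fun z => (s z.1, s' z.2) := by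
  refine ⟨(h.meas.comp measurable_fst).prodMk (h'.meas.comp measurable_snd), fun c => ?_⟩
  refine Integrable.mono' ((h.int |c|).mul_prod (h'.int |c|)) ?_ (Eventually.of_forall fun z => ?_)
  · exact ((((h.meas.comp measurable_fst).norm).max ((h'.meas.comp measurable_snd).norm)).const_mul
      c).exp.aestronglyMeasurable
  · rw [Real.norm_eq_abs, Real.abs_exp, ← Real.exp_add, Real.exp_le_exp, Prod.norm_def]
    calc c * max ‖s z.1‖ ‖s' z.2‖ ≤ |c| * max ‖s z.1‖ ‖s' z.2‖ :=
          mul_le_mul_of_nonneg_right (le_abs_self c) (le_max_of_le_left (norm_nonneg _))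
      _ ≤ |c| * (‖s z.1‖ + ‖s' z.2‖) :=
          mul_le_mul_of_nonneg_left (max_le (le_add_of_nonneg_right (norm_nonneg _))
            (le_add_of_nonneg_left (norm_nonneg _))) (abs_nonneg c)
      _ = _ := mul_add _ _ _

lemma good_h {ls : List Lev} (h : Ordered ls) : Good (stdGaussian E) levM hShift ls :=
  fun i hi => ⟨h.pos i hi, shift_smul _⟩

lemma good_y {ls : List Lev} (h : Ordered ls) : Good (gaussianReal 0 1) levM yShift ls :=
  fun i hi => ⟨h.pos i hi, shift_mul _⟩

lemma good_hy {ls : List Lev} (h : Ordered ls) :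
    Good ((stdGaussian E).prod (gaussianReal 0 1)) levM hyShift ls :=
  fun i hi => ⟨h.pos i hi, (shift_smul _).prodMk (shift_mul _)⟩

lemma Lip.integrable {Z S : Type} [MeasurableSpace Z] [NormedAddCommGroup S] [MeasurableSpace S]
    [BorelSpace S] [SecondCountableTopology S] {γ : Measure Z} [IsProbabilityMeasure γ] {K : ℝ}
    {G : S → ℝ} (hG : Lip K G) {s : Z → S} (hs : Shift γ s) (x : S) :
    Integrable (fun z => G (x + s z)) γ := by
  refine Integrable.mono' ((integrable_const |G x|).add ((hs.int 1).const_mul K))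
    (hG.meas.comp (hs.meas.const_add x)).aestronglyMeasurable (Eventually.of_forall fun z => ?_)
  have h1 := hG.lip x (s z)
  have h2 := mul_le_mul_of_nonneg_left
    (by linarith [Real.add_one_le_exp (1 * ‖s z‖)] : ‖s z‖ ≤ Real.exp (1 * ‖s z‖)) hG.nonneg
  simp only [Real.norm_eq_abs, Pi.add_apply]
  linarith [abs_sub_abs_le_abs_sub (G (x + s z)) (G x)]

lemma measurable_casc_param {ι Z S P : Type} [MeasurableSpace Z] [NormedAddCommGroup S]
    [MeasurableSpace S] [BorelSpace S] [SecondCountableTopology S] [MeasurableSpace P] {γ : Measure Z}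
    [IsProbabilityMeasure γ] {m : ι → ℝ} {σ : ι → Z → S} {G : P → S → ℝ}
    (hG : Measurable (Function.uncurry G)) : ∀ {ls : List ι}, Good γ m σ ls →
    Measurable fun p : P × S => casc γ m σ ls (G p.1) p.2
  | [], _ => hG
  | i :: ls, h => by
    have hm : Measurable fun q : (P × S) × Z => ((q.1.1, q.1.2 + σ i q.2) : P × S) :=
      (measurable_fst.comp measurable_fst).prodMk
        ((measurable_snd.comp measurable_fst).add ((good_cons.1 h).1.2.meas.comp measurable_snd))
    exact measurable_lexp (X := fun (p : P × S) z => casc γ m σ ls (G p.1) (p.2 + σ i z))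
      ((measurable_casc_param hG (good_cons.1 h).2).comp hm) _

/-- The cone only sees the values on the unit interval. -/
lemma Pd.congr {F F' : ℝ → E × ℝ → ℝ} {C : ℝ} (h : Pd F C) (hm : ∀ s, Measurable (F' s))
    (he : ∀ s ∈ Set.Icc (0 : ℝ) 1, ∀ p, F' s p = F s p) : Pd F' C where
  meas := hm
  nonneg := h.nonneg
  bdd s hs p := by rw [he s hs]; exact h.bdd s hs p
  closed Ω _ P π G hG := by
    obtain ⟨hf, hp, hme, ⟨B', hB0', hB'⟩, hcv⟩ := h.closed Ω P π G hG
    refine ⟨hf, hp, fun s => (hG.meas s).mul ((hm s).comp hG.mpi),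
      ⟨B', hB0', fun s hs ω => by rw [he s hs]; exact hB' s hs ω⟩,
      fun u τ A hA => convexOn_congr' (hcv u τ A hA) fun s hs => ?_⟩
    exact integral_congr_ae (Eventually.of_forall fun ω => by simp only [he s hs])

variable {X : Type} [MeasurableSpace X] {μ : Measure X} [IsProbabilityMeasure μ] {w : X → ℝ}
  {v : X → E} {f : ℝ → ℝ} {a : ℝ} {ν : Measure ℝ} {S : ℝ}

omit [IsProbabilityMeasure μ] in
lemma wt_field (hw : Wt w) (hv : Measurable v) (hv1 : ∀ x, ‖v x‖ = 1) (H : E) :
    Wt fun x => w x * Real.exp ⟪H, v x⟫ :=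
  hw.mul (Wt.exp (β := ‖H‖) (measurable_const.inner hv) fun x => abs_inner_le hv1 H x)

/-- The log-partition function in the field `H`. -/
noncomputable def hBase (μ : Measure X) (w : X → ℝ) (v : X → E) (H : E) : ℝ :=
  Real.log (∫ x, w x * Real.exp ⟪H, v x⟫ ∂μ)

/-- The log-partition function of one interpolated pattern in the field `H` at target value `η`. -/
noncomputable def mixPot (μ : Measure X) (w : X → ℝ) (v : X → E) (a : ℝ) (ν : Measure ℝ) (S s : ℝ)
    (g : E) (p : E × ℝ) : ℝ :=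
  Real.log (∫ x, w x * Real.exp ⟪p.1, v x⟫ *
    kU a ν ((1 - s) * S) (Real.sqrt s * ⟪g, v x⟫ + Real.sqrt (1 - s) * p.2) ∂μ)

lemma abs_log_integral_sub_le {u u' : X → ℝ} (hu : Wt u) (hu' : Wt u') {c : ℝ}
    (h : ∀ x, |Real.log (u x) - Real.log (u' x)| ≤ c) :
    |Real.log (∫ x, u x ∂μ) - Real.log (∫ x, u' x ∂μ)| ≤ c := by
  have key : ∀ {p q : X → ℝ}, Wt p → Wt q → (∀ x, Real.log (p x) - Real.log (q x) ≤ c) →
      Real.log (∫ x, p x ∂μ) - Real.log (∫ x, q x ∂μ) ≤ c := fun {p q} hp hq hpq => by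
    have h1 : ∫ x, p x ∂μ ≤ Real.exp c * ∫ x, q x ∂μ := by
      rw [← integral_const_mul]
      refine integral_mono hp.integrable (hq.integrable.const_mul _) fun x => ?_
      rw [← Real.exp_log (hp.pos x), ← Real.exp_log (hq.pos x), ← Real.exp_add, Real.exp_le_exp]
      linarith [hpq x]
    have h2 := Real.log_le_log hp.integral_pos h1
    rw [Real.log_mul (Real.exp_pos c).ne' hq.integral_pos.ne', Real.log_exp] at h2
    linarith
  rw [abs_le]
  exact ⟨by linarith [key hu' hu fun x => by linarith [(abs_le.1 (h x)).1]],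
    key hu hu' fun x => (abs_le.1 (h x)).2⟩

lemma lip_hBase (hw : Wt w) (hv : Measurable v) (hv1 : ∀ x, ‖v x‖ = 1) :
    Lip 1 (hBase μ w v) where
  meas := by
    have h : Measurable fun z : E × X => w z.2 * Real.exp ⟪z.1, v z.2⟫ :=
      (hw.meas.comp measurable_snd).mul (measurable_fst.inner (hv.comp measurable_snd)).exp
    exact (h.stronglyMeasurable.integral_prod_right' (ν := μ)).measurable.log
  nonneg := zero_le_one
  lip H k := by
    refine abs_log_integral_sub_le (wt_field hw hv hv1 _) (wt_field hw hv hv1 _) fun x => ?_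
    rw [Real.log_mul (hw.pos x).ne' (Real.exp_pos _).ne', Real.log_mul (hw.pos x).ne'
      (Real.exp_pos _).ne', Real.log_exp, Real.log_exp, inner_add_left, one_mul]
    simpa using abs_inner_le hv1 k x

lemma wt_mix (hk : Ker f a ν) (hw : Wt w) (hv : Measurable v) (hv1 : ∀ x, ‖v x‖ = 1) {σ : ℝ}
    (hσ : 0 ≤ σ) (H : E) (φ : X → ℝ) (hφ : Measurable φ) :
    Wt fun x => w x * Real.exp ⟪H, v x⟫ * kU a ν σ (φ x) := by
  refine (wt_field hw hv hv1 H).mul ⟨(measurable_kU_right hk σ).comp hφ,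
    |Real.log (a - ν.real Set.univ)| + |Real.log (a + ν.real Set.univ)|, fun x =>
      ⟨kU_pos hk hσ _, ?_⟩⟩
  obtain ⟨h1, h2⟩ := kU_bounds hk hσ (φ x)
  have m1 := Real.log_le_log (by linarith [hk.lt] : 0 < a - ν.real Set.univ) h1
  have m2 := Real.log_le_log (kU_pos hk hσ (φ x)) h2
  rw [abs_le]
  constructor
  · linarith [neg_abs_le (Real.log (a - ν.real Set.univ)), abs_nonneg (Real.log (a + ν.real Set.univ))]
  · linarith [le_abs_self (Real.log (a + ν.real Set.univ)), abs_nonneg (Real.log (a - ν.real Set.univ))]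

lemma measurable_mixPot (hk : Ker f a ν) (hw : Measurable w) (hv : Measurable v) (S s : ℝ) :
    Measurable fun z : E × (E × ℝ) => mixPot μ w v a ν S s z.1 z.2 := by
  have h1 : Measurable fun y : (E × (E × ℝ)) × X =>
      kU a ν ((1 - s) * S) (Real.sqrt s * ⟪y.1.1, v y.2⟫ + Real.sqrt (1 - s) * y.1.2.2) :=
    (measurable_kU_right hk _).comp
      ((((measurable_fst.comp measurable_fst).inner (hv.comp measurable_snd)).const_mul _).add
        (((measurable_snd.comp (measurable_snd.comp measurable_fst))).const_mul _))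
  have h2 : Measurable fun y : (E × (E × ℝ)) × X => w y.2 * Real.exp ⟪y.1.2.1, v y.2⟫ :=
    (hw.comp measurable_snd).mul
      ((measurable_fst.comp (measurable_snd.comp measurable_fst)).inner (hv.comp measurable_snd)).exp
  exact ((h2.mul h1).stronglyMeasurable.integral_prod_right' (ν := μ)).measurable.log

lemma lip_mixPot (hk : Ker f a ν) (hw : Wt w) (hv : Measurable v) (hv1 : ∀ x, ‖v x‖ = 1) (hS : 0 < S)
    {s : ℝ} (hs : s ∈ Set.Icc (0 : ℝ) 1) :
    ∃ K, ∀ g : E, Lip K (mixPot μ w v a ν S s g) := by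
  have hσ : 0 ≤ (1 - s) * S := mul_nonneg (by linarith [hs.2]) hS.le
  obtain ⟨C, hC0, hC⟩ : ∃ C, 0 ≤ C ∧ ∀ y z : ℝ,
      |Real.log (kU a ν ((1 - s) * S) (y + Real.sqrt (1 - s) * z)) -
        Real.log (kU a ν ((1 - s) * S) y)| ≤ C * |z| := by
    rcases hs.2.lt_or_eq with h | h
    · obtain ⟨C, hC1, hC⟩ := kern_bounds hk (mul_pos (by linarith : 0 < 1 - s) hS)
      refine ⟨C * Real.sqrt (1 - s), by positivity, fun y z => ((hC _ le_rfl y _).2.2.2.2).trans_eq ?_⟩
      rw [abs_mul, abs_of_nonneg (Real.sqrt_nonneg _), mul_assoc]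
    · exact ⟨0, le_rfl, fun y z => by simp [h]⟩
  refine ⟨1 + C, fun g => ⟨(measurable_mixPot hk hw.meas hv S s).comp measurable_prodMk_left,
    by linarith, fun p q => ?_⟩⟩
  have hm : ∀ η, Measurable fun x => Real.sqrt s * ⟪g, v x⟫ + Real.sqrt (1 - s) * η := fun η =>
    ((measurable_const.inner hv).const_mul _).add_const _
  refine abs_log_integral_sub_le (wt_mix hk hw hv hv1 hσ _ _ (hm _))
    (wt_mix hk hw hv hv1 hσ _ _ (hm _)) fun x => ?_
  have h1 := kU_pos hk hσ (Real.sqrt s * ⟪g, v x⟫ + Real.sqrt (1 - s) * (p + q).2)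
  have h2 := kU_pos hk hσ (Real.sqrt s * ⟪g, v x⟫ + Real.sqrt (1 - s) * p.2)
  rw [Real.log_mul (mul_pos (hw.pos x) (Real.exp_pos _)).ne' h1.ne',
    Real.log_mul (mul_pos (hw.pos x) (Real.exp_pos _)).ne' h2.ne',
    Real.log_mul (hw.pos x).ne' (Real.exp_pos _).ne', Real.log_mul (hw.pos x).ne' (Real.exp_pos _).ne',
    Real.log_exp, Real.log_exp, Prod.fst_add, Prod.snd_add, inner_add_left, mul_add (Real.sqrt (1 - s)),
    ← add_assoc (Real.sqrt s * ⟪g, v x⟫)]
  refine le_trans (le_of_eq (congrArg abs (by ring))) ((abs_add_le ⟪q.1, v x⟫ _).trans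
    (le_trans (add_le_add ((abs_inner_le hv1 q.1 x).trans (norm_fst_le q))
      ((hC _ q.2).trans (mul_le_mul_of_nonneg_left (norm_snd_le q) hC0))) (le_of_eq (by ring))))

section cone

variable (hk : Ker f a ν) (hw : Wt w) (hv : Measurable v) (hv1 : ∀ x, ‖v x‖ = 1) (hS : 0 < S)

/-- One minus the normalised interpolated moment of the levels `ls`. -/
noncomputable def mixX (μ : Measure X) (w : X → ℝ) (v : X → E) (a : ℝ) (ν : Measure ℝ) (S : ℝ)
    (ls : List Lev) (H : E) (s : ℝ) (p : E × ℝ) : ℝ :=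
  1 - Real.exp (nextM ls * (casc ((stdGaussian E).prod (gaussianReal 0 1)) levM hyShift ls
      (mixPot μ w v a ν S s p.1) (H, p.2) -
    casc (stdGaussian E) levM hShift ls (hBase μ w v) H - Real.log a))

include hk hw hv hv1 in
lemma measurable_mixX {ls : List Lev} (hl : Ordered ls) (s : ℝ) :
    Measurable fun z : E × (E × ℝ) => mixX μ w v a ν S ls z.1 s z.2 := by
  have h1 := measurable_casc_param (G := fun (g : E) p => mixPot μ w v a ν S s g p)
    (measurable_mixPot hk hw.meas hv S s) (good_hy (E := E) hl)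
  have h2 : Measurable fun z : E × (E × ℝ) => ((z.2.1, (z.1, z.2.2)) : E × (E × ℝ)) := by fun_prop
  exact ((((h1.comp h2).sub (((lip_hBase (μ := μ) hw hv hv1).casc (good_h hl)).meas.comp
    measurable_fst)).sub_const _).const_mul _).exp.const_sub 1

include hk hw hv hv1 in
lemma measurable_mixX_right {ls : List Lev} (hl : Ordered ls) (H : E) (s : ℝ) :
    Measurable (mixX μ w v a ν S ls H s) := by
  have h : Measurable fun p : E × ℝ => (fun z : E × (E × ℝ) => mixX μ w v a ν S ls z.1 s z.2) (H, p) :=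
    (measurable_mixX (μ := μ) hk hw hv hv1 hl s).comp measurable_prodMk_left
  exact h

/-- The weight of a configuration and a frequency. -/
noncomputable def gWeight (μ : Measure X) (w : X → ℝ) (v : X → E) (a : ℝ) (H : E) (θ : X × ℝ) : ℝ :=
  w θ.1 * Real.exp ⟪H, v θ.1⟫ / ((∫ x, w x * Real.exp ⟪H, v x⟫ ∂μ) * a)

/-- The wave of a configuration and a frequency. -/
noncomputable def gWave (v : X → E) (S : ℝ) (θ : X × ℝ) : ℝ → E × ℝ → ℝ :=
  chr (θ.2 • v θ.1) θ.2 (S * θ.2 ^ 2 / 2)

include hv in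
omit [IsProbabilityMeasure μ] in
lemma measurable_gWave (S s : ℝ) : Measurable fun z : (X × ℝ) × (E × ℝ) => gWave v S z.1 s z.2 := by
  have hu : Measurable fun z : (X × ℝ) × (E × ℝ) => ⟪z.2.1, z.1.2 • v z.1.1⟫ :=
    (measurable_fst.comp measurable_snd).inner
      ((measurable_snd.comp measurable_fst).smul (hv.comp (measurable_fst.comp measurable_fst)))
  have he : Measurable fun t : ℝ => Real.exp (-(1 - s) * (S * t ^ 2 / 2)) := by fun_prop
  exact (he.comp (measurable_snd.comp measurable_fst)).mul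
    (Real.measurable_cos.comp ((hu.const_mul _).add (((measurable_snd.comp measurable_fst).mul
      (measurable_snd.comp measurable_snd)).const_mul _)))

include hk hw hv hv1 hS in
lemma mixX_nil_eq (H : E) {s : ℝ} (hs : s ∈ Set.Icc (0 : ℝ) 1) (p : E × ℝ) :
    mixX μ w v a ν S [] H s p =
      (∫ x, w x * Real.exp ⟪H, v x⟫ *
          kW ν ((1 - s) * S) (Real.sqrt s * ⟪p.1, v x⟫ + Real.sqrt (1 - s) * p.2) ∂μ) /
        ((∫ x, w x * Real.exp ⟪H, v x⟫ ∂μ) * a) := by
  have ha := hk.a_pos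
  have hF := wt_field hw hv hv1 H
  have hI := hF.integral_pos (μ := μ)
  have hσ : 0 ≤ (1 - s) * S := mul_nonneg (by linarith [hs.2]) hS.le
  set φ : X → ℝ := fun x => Real.sqrt s * ⟪p.1, v x⟫ + Real.sqrt (1 - s) * p.2
  have hφ : Measurable φ := ((measurable_const.inner hv).const_mul _).add_const _
  have hM := wt_mix hk hw hv hv1 hσ H φ hφ
  have hiW : Integrable (fun x => w x * Real.exp ⟪H, v x⟫ * kW ν ((1 - s) * S) (φ x)) μ := by
    refine ((hF.integrable (μ := μ)).const_mul a |>.sub (hM.integrable (μ := μ))).congr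
      (Eventually.of_forall fun x => ?_)
    simp only [Pi.sub_apply, kU]
    ring
  simp only [mixX, nextM, casc, one_mul, mixPot, hBase]
  rw [Real.exp_sub, Real.exp_sub, Real.exp_log hI, Real.exp_log ha, Real.exp_log hM.integral_pos]
  simp only [kU, mul_sub]
  rw [integral_sub (hF.integrable.mul_const a) hiW, integral_mul_const]
  field_simp
  ring

include hk hw hv hv1 hS in
lemma nil_mixture_eq (H : E) {s : ℝ} (hs : s ∈ Set.Icc (0 : ℝ) 1) (p : E × ℝ)
    (hkm : Measurable (gWeight μ w v a H)) (hki : Integrable (gWeight μ w v a H) (μ.prod ν)) :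
    ∫ θ, gWeight μ w v a H θ * gWave v S θ s p ∂μ.prod ν =
      (∫ x, w x * Real.exp ⟪H, v x⟫ *
          kW ν ((1 - s) * S) (Real.sqrt s * ⟪p.1, v x⟫ + Real.sqrt (1 - s) * p.2) ∂μ) /
        ((∫ x, w x * Real.exp ⟪H, v x⟫ ∂μ) * a) := by
  have := hk.fin
  have hφ : Measurable fun θ : X × ℝ => (θ, p) := measurable_id.prodMk measurable_const
  have hm : Measurable fun θ : X × ℝ => gWave v S θ s p := by
    have h := (measurable_gWave hv S s).comp hφ
    exact h
  have hmb : Integrable (fun θ : X × ℝ => gWeight μ w v a H θ * gWave v S θ s p) (μ.prod ν) :=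
    Integrable.mono' hki.norm (hkm.mul hm).aestronglyMeasurable
      (Eventually.of_forall fun θ => by
        rw [norm_mul]
        refine mul_le_of_le_one_right (norm_nonneg _) ?_
        rw [Real.norm_eq_abs]
        exact abs_chr_le (by positivity) hs _)
  rw [integral_prod _ hmb, ← integral_div]
  refine integral_congr_ae (Eventually.of_forall fun x => ?_)
  simp only [gWeight, gWave, integral_const_mul, kW, chr, real_inner_smul_right]
  rw [mul_div_right_comm (w x * Real.exp ⟪H, v x⟫)]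
  congr 1
  refine integral_congr_ae (Eventually.of_forall fun t => ?_)
  simp only
  rw [mul_comm (Real.cos (t * _))]
  congr 2 <;> ring

include hk hw hv hv1 hS in
lemma pd_mixX_nil (H : E) : Pd (mixX μ w v a ν S [] H) (ν.real Set.univ / a) := by
  have := hk.fin
  have ha := hk.a_pos
  have hF := wt_field hw hv hv1 H
  have hI := hF.integral_pos (μ := μ)
  have hk0 : ∀ θ, 0 ≤ gWeight μ w v a H θ := fun θ =>
    div_nonneg (hF.pos θ.1).le (mul_nonneg hI.le ha.le)
  have hkm : Measurable (gWeight μ w v a H) := (hF.meas.comp measurable_fst).div_const _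
  have hki : Integrable (gWeight μ w v a H) (μ.prod ν) :=
    ((hF.integrable (μ := μ)).div_const _).comp_fst ν
  have hFp : ∀ θ : X × ℝ, Pd (gWave v S θ) 1 := fun θ =>
    pd_chr (θ.2 • v θ.1) θ.2 (by positivity : 0 ≤ S * θ.2 ^ 2 / 2)
  have h := pd_integral (Fθ := gWave v S) (k := gWeight μ w v a H) hki hk0 hkm
    (measurable_gWave hv S) hFp zero_le_one
  have hC : (∫ θ, gWeight μ w v a H θ ∂μ.prod ν) * 1 = ν.real Set.univ / a := by
    simp only [gWeight]
    rw [mul_one, integral_fun_fst (fun x => w x * Real.exp ⟪H, v x⟫ /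
      ((∫ x, w x * Real.exp ⟪H, v x⟫ ∂μ) * a)), integral_div, smul_eq_mul]
    field_simp
  rw [hC] at h
  refine h.congr (fun s => measurable_mixX_right hk hw hv hv1 (ls := []) trivial H s) fun s hs p => ?_
  rw [mixX_nil_eq hk hw hv hv1 hS H hs p]
  exact (nil_mixture_eq hk hw hv hv1 hS H hs p hkm hki).symm

/-- The tilting weight of a field increment. -/
noncomputable def lWeight (μ : Measure X) (w : X → ℝ) (v : X → E) (i : Lev) (ls : List Lev) (H h : E) : ℝ :=
  Real.exp (i.1 * casc (stdGaussian E) levM hShift ls (hBase μ w v) (H + hShift i h)) /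
    ∫ k : E, Real.exp (i.1 * casc (stdGaussian E) levM hShift ls (hBase μ w v) (H + hShift i k))
      ∂stdGaussian E

/-- The mixed function of one level. -/
noncomputable def lMix (μ : Measure X) (w : X → ℝ) (v : X → E) (a : ℝ) (ν : Measure ℝ) (S : ℝ)
    (i : Lev) (ls : List Lev) (H h : E) (s : ℝ) (p : E × ℝ) : ℝ :=
  ∫ y, (1 - (1 - mixX μ w v a ν S ls (H + hShift i h) s (p.1, p.2 + Real.sqrt i.2.1 * y)) ^
    (i.1 / nextM ls)) ∂gaussianReal 0 1

include hk hw hv hv1 hS in
lemma mixX_cons_eq {i : Lev} {ls : List Lev} (hl : Ordered (i :: ls)) (H : E) {s : ℝ}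
    (hs : s ∈ Set.Icc (0 : ℝ) 1) (p : E × ℝ) :
    mixX μ w v a ν S (i :: ls) H s p =
      ∫ h, lWeight μ w v i ls H h * lMix μ w v a ν S i ls H h s p ∂stdGaussian E := by
  obtain ⟨hm0, hm1, hl'⟩ := hl
  have hμ := hl'.nextM_pos
  have hwg := casc_wgt (good_h (E := E) (ls := i :: ls) ⟨hm0, hm1, hl'⟩)
    (lip_hBase (μ := μ) hw hv hv1) H
  simp only [levM] at hwg
  have hZ0 := hwg.pos
  have hki : Integrable (lWeight μ w v i ls H) (stdGaussian E) := hwg.int.div_const _
  have hk1 : ∫ h, lWeight μ w v i ls H h ∂stdGaussian E = 1 := by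
    simp only [lWeight]; rw [integral_div]; exact div_self hZ0.ne'
  obtain ⟨K, hK⟩ := lip_mixPot (μ := μ) hk hw hv hv1 hS hs
  set γ := (stdGaussian E).prod (gaussianReal 0 1)
  set c : E × ℝ → ℝ := fun z =>
    casc γ levM hyShift ls (mixPot μ w v a ν S s p.1) ((H, p.2) + hyShift i z) with hcdef
  have hc : Wgt γ i.1 c :=
    casc_wgt (good_hy (E := E) (ls := i :: ls) ⟨hm0, hm1, hl'⟩) (hK p.1) (H, p.2)
  set Z0 := ∫ k : E, Real.exp (i.1 * casc (stdGaussian E) levM hShift ls (hBase μ w v) (H + hShift i k))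
      ∂stdGaussian E with hZdef
  set B : E → ℝ := fun h => casc (stdGaussian E) levM hShift ls (hBase μ w v) (H + hShift i h) with hBdef
  have hkB : ∀ h, lWeight μ w v i ls H h = Real.exp (i.1 * B h) / Z0 := fun h => rfl
  have e1 : ∀ z : E × ℝ, lWeight μ w v i ls H z.1 *
      (1 - (1 - mixX μ w v a ν S ls (H + hShift i z.1) s (p.1, p.2 + Real.sqrt i.2.1 * z.2)) ^
        (i.1 / nextM ls)) =
      lWeight μ w v i ls H z.1 - Real.exp (i.1 * c z) / (Z0 * Real.exp (i.1 * Real.log a)) := fun z => by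
    have ec : casc γ levM hyShift ls (mixPot μ w v a ν S s p.1)
        (H + hShift i z.1, p.2 + Real.sqrt i.2.1 * z.2) = c z := rfl
    have eb : casc (stdGaussian E) levM hShift ls (hBase μ w v) (H + hShift i z.1) = B z.1 := rfl
    simp only [mixX, sub_sub_cancel]
    rw [hkB, ec, eb, ← Real.exp_mul]
    clear_value c B Z0
    rw [show nextM ls * (c z - B z.1 - Real.log a) * (i.1 / nextM ls) =
      i.1 * c z - i.1 * B z.1 - i.1 * Real.log a by field_simp, Real.exp_sub, Real.exp_sub]
    field_simp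
  have hki2 : Integrable (fun z : E × ℝ => lWeight μ w v i ls H z.1) γ := hki.comp_fst _
  have hi2 : Integrable (fun z : E × ℝ => lWeight μ w v i ls H z.1 -
      Real.exp (i.1 * c z) / (Z0 * Real.exp (i.1 * Real.log a))) γ :=
    hki2.sub (hc.int.div_const _)
  have hrhs : ∫ h, lWeight μ w v i ls H h * lMix μ w v a ν S i ls H h s p ∂stdGaussian E =
      1 - (∫ z, Real.exp (i.1 * c z) ∂γ) / (Z0 * Real.exp (i.1 * Real.log a)) := by
    simp only [lMix, ← integral_const_mul]
    rw [← integral_prod (fun z : E × ℝ => lWeight μ w v i ls H z.1 *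
      (1 - (1 - mixX μ w v a ν S ls (H + hShift i z.1) s (p.1, p.2 + Real.sqrt i.2.1 * z.2)) ^
        (i.1 / nextM ls))) (hi2.congr (Eventually.of_forall fun z => (e1 z).symm))]
    simp only [e1]
    rw [integral_sub hki2 (hc.int.div_const _), integral_div, integral_fun_fst, hk1, probReal_univ,
      one_smul]
  rw [hrhs]
  have el : mixX μ w v a ν S (i :: ls) H s p = 1 - Real.exp (i.1 *
      (Real.log (∫ z, Real.exp (i.1 * c z) ∂γ) / i.1 - Real.log Z0 / i.1 - Real.log a)) := rfl
  rw [el]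
  clear_value c B Z0
  rw [mul_sub, mul_sub, mul_div_cancel₀ _ hm0.ne', mul_div_cancel₀ _ hm0.ne', Real.exp_sub, Real.exp_sub,
    Real.exp_log hc.pos, Real.exp_log hZ0, div_div]

include hk hw hv hv1 hS in
lemma pd_lMix {i : Lev} {ls : List Lev} (hl : Ordered (i :: ls))
    (hin : ∀ H', Pd (mixX μ w v a ν S ls H') (ν.real Set.univ / a)) (H h : E) :
    Pd (lMix μ w v a ν S i ls H h) (ν.real Set.univ / a) := by
  have := hk.fin
  have ha := hk.a_pos
  set r := ν.real Set.univ / a
  have hr0 : 0 ≤ r := div_nonneg measureReal_nonneg ha.le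
  have hr1 : r < 1 := (div_lt_one ha).2 hk.lt
  have hθ0 : 0 ≤ i.1 / nextM ls := (div_pos hl.1 hl.2.2.nextM_pos).le
  have hθ1 : i.1 / nextM ls ≤ 1 := (div_le_one hl.2.2.nextM_pos).2 hl.2.1
  have hle : 1 - (1 - r) ^ (i.1 / nextM ls) ≤ r := by
    have := Real.rpow_le_rpow_of_exponent_ge (by linarith : 0 < 1 - r) (by linarith) hθ1
    rw [Real.rpow_one] at this
    linarith
  have hb := (hin (H + hShift i h)).binom hr1 hθ0 hθ1
  have hb' : Pd (fun s p => 1 - (1 - mixX μ w v a ν S ls (H + hShift i h) s p) ^ (i.1 / nextM ls)) r :=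
    ⟨hb.meas, hr0, fun s hs p => (hb.bdd s hs p).trans hle, hb.closed⟩
  exact hb'.smooth _

include hk hw hv hv1 in
lemma measurable_lMix {i : Lev} {ls : List Lev} (hl : Ordered ls) (H : E) (s : ℝ) :
    Measurable fun z : E × (E × ℝ) => lMix μ w v a ν S i ls H z.1 s z.2 := by
  have h0 := measurable_mixX (μ := μ) (S := S) hk hw hv hv1 hl s
  have h2 : Measurable fun q : (E × (E × ℝ)) × ℝ => H + hShift i q.1.1 :=
    ((shift_smul (E := E) (Real.sqrt i.2.2)).meas.comp (measurable_fst.comp measurable_fst)).const_add H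
  have h3 : Measurable fun q : (E × (E × ℝ)) × ℝ => q.1.2.1 :=
    measurable_fst.comp (measurable_snd.comp measurable_fst)
  have h4 : Measurable fun q : (E × (E × ℝ)) × ℝ => q.1.2.2 + Real.sqrt i.2.1 * q.2 :=
    (measurable_snd.comp (measurable_snd.comp measurable_fst)).add (measurable_snd.const_mul _)
  have h1 : Measurable fun q : (E × (E × ℝ)) × ℝ => 1 - (1 - mixX μ w v a ν S ls
      (H + hShift i q.1.1) s (q.1.2.1, q.1.2.2 + Real.sqrt i.2.1 * q.2)) ^ (i.1 / nextM ls) :=
    (((h0.comp (h2.prodMk (h3.prodMk h4))).const_sub 1).pow_const _).const_sub 1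
  exact (h1.stronglyMeasurable.integral_prod_right' (ν := gaussianReal 0 1)).measurable

include hk hw hv hv1 hS in
lemma pd_mixX_cons {i : Lev} {ls : List Lev} (hl : Ordered (i :: ls))
    (hin : ∀ H', Pd (mixX μ w v a ν S ls H') (ν.real Set.univ / a)) (H : E) :
    Pd (mixX μ w v a ν S (i :: ls) H) (ν.real Set.univ / a) := by
  have hwg := casc_wgt (good_h (E := E) hl) (lip_hBase (μ := μ) hw hv hv1) H
  simp only [levM] at hwg
  have hki : Integrable (lWeight μ w v i ls H) (stdGaussian E) := hwg.int.div_const _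
  have hk0 : ∀ h, 0 ≤ lWeight μ w v i ls H h := fun h => div_nonneg (Real.exp_pos _).le hwg.pos.le
  have hk1 : ∫ h, lWeight μ w v i ls H h ∂stdGaussian E = 1 := by
    simp only [lWeight]; rw [integral_div]; exact div_self hwg.pos.ne'
  have hkm : Measurable (lWeight μ w v i ls H) := (hwg.meas.const_mul _).exp.div_const _
  have h := pd_integral (Fθ := fun h => lMix μ w v a ν S i ls H h) (k := lWeight μ w v i ls H) hki hk0
    hkm (measurable_lMix hk hw hv hv1 hl.2.2 H) (pd_lMix hk hw hv hv1 hS hl hin H) (hin H).nonneg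
  rw [hk1, one_mul] at h
  exact h.congr (fun s => measurable_mixX_right hk hw hv hv1 hl H s)
    fun s hs p => mixX_cons_eq hk hw hv hv1 hS hl H hs p

include hk hw hv hv1 hS in
lemma pd_mixX : ∀ {ls : List Lev}, Ordered ls → ∀ H,
    Pd (mixX μ w v a ν S ls H) (ν.real Set.univ / a)
  | [], _, H => pd_mixX_nil hk hw hv hv1 hS H
  | _ :: _, hl, H => pd_mixX_cons hk hw hv hv1 hS hl (pd_mixX hl.2.2) H

/-- The nested free energy of one interpolated pattern. -/
noncomputable def phiI (μ : Measure X) (w : X → ℝ) (v : X → E) (a : ℝ) (ν : Measure ℝ) (S q0 e0 : ℝ)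
    (ls : List Lev) (s : ℝ) : ℝ :=
  ∫ g : E, (∫ z : E × ℝ, casc ((stdGaussian E).prod (gaussianReal 0 1)) levM hyShift ls
      (mixPot μ w v a ν S s g) (Real.sqrt e0 • z.1, Real.sqrt q0 * z.2)
    ∂(stdGaussian E).prod (gaussianReal 0 1)) ∂stdGaussian E

/-- The nested log-partition function in the fields alone. -/
noncomputable def psiH (μ : Measure X) (v : X → E) (e0 : ℝ) (ls : List Lev) (w : X → ℝ) : ℝ :=
  ∫ h : E, casc (stdGaussian E) levM hShift ls (hBase μ w v) (Real.sqrt e0 • h) ∂stdGaussian E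

include hk hw hv hv1 hS in
theorem concaveOn_phiI {q0 e0 : ℝ} {ls : List Lev} (hl : Ordered ls) :
    ConcaveOn ℝ (Set.Icc 0 1) (phiI μ w v a ν S q0 e0 ls) := by
  have := hk.fin
  have ha := hk.a_pos
  set r := ν.real Set.univ / a
  have hr1 : r < 1 := (div_lt_one ha).2 hk.lt
  have hμ := hl.nextM_pos
  set γh := stdGaussian E
  set γy := gaussianReal 0 1
  have hX := fun H => (pd_mixX (μ := μ) hk hw hv hv1 hS hl H).neg_log hr1
  set J : E → ℝ → ℝ := fun h s => ∫ p : E × ℝ,
    -Real.log (1 - mixX μ w v a ν S ls (Real.sqrt e0 • h) s (p.1, Real.sqrt q0 * p.2)) ∂γh.prod γy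
  have hJ : ∀ h, ConvexOn ℝ (Set.Icc 0 1) (J h) := fun h => (hX _).convexOn _
  have hmJ : ∀ s, Measurable fun q : E × (E × ℝ) =>
      -Real.log (1 - mixX μ w v a ν S ls (Real.sqrt e0 • q.1) s (q.2.1, Real.sqrt q0 * q.2.2)) := fun s => by
    have hφ : Measurable fun q : E × (E × ℝ) =>
        ((Real.sqrt e0 • q.1, (q.2.1, Real.sqrt q0 * q.2.2)) : E × (E × ℝ)) := by fun_prop
    exact (((measurable_mixX (μ := μ) hk hw hv hv1 hl s).comp hφ).const_sub 1).log.neg
  have hbJ : ∀ s ∈ Set.Icc (0 : ℝ) 1, Integrable (fun q : E × (E × ℝ) =>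
      -Real.log (1 - mixX μ w v a ν S ls (Real.sqrt e0 • q.1) s (q.2.1, Real.sqrt q0 * q.2.2)))
      (γh.prod (γh.prod γy)) := fun s hs =>
    Integrable.mono' (integrable_const (-Real.log (1 - r))) (hmJ s).aestronglyMeasurable
      (Eventually.of_forall fun q => (hX _).bdd s hs _)
  have hJi : ∀ s ∈ Set.Icc (0 : ℝ) 1, Integrable (fun h => J h s) γh :=
    fun s hs => (hbJ s hs).integral_prod_left
  have hconv : ConvexOn ℝ (Set.Icc 0 1) fun s => ∫ h, J h s ∂γh := by
    refine ⟨convex_Icc _ _, fun x hx y hy a b ha hb hab => ?_⟩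
    simp only [smul_eq_mul, ← integral_const_mul]
    rw [← integral_add ((hJi x hx).const_mul a) ((hJi y hy).const_mul b)]
    exact integral_mono (hJi _ (convex_Icc _ _ hx hy ha hb hab))
      (((hJi x hx).const_mul a).add ((hJi y hy).const_mul b)) fun h => (hJ h).2 hx hy ha hb hab
  refine (((hconv.smul (inv_nonneg.2 hμ.le)).neg).add_const
    (psiH μ v e0 ls w + Real.log a)).congr fun s hs => ?_
  simp only [Pi.add_apply, Pi.neg_apply, smul_eq_mul, phiI]
  obtain ⟨K, hK⟩ := lip_mixPot (μ := μ) hk hw hv hv1 hS hs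
  set B : E → ℝ := fun h => casc γh levM hShift ls (hBase μ w v) (Real.sqrt e0 • h)
  have hB : Integrable B γh := by
    simpa using ((lip_hBase (μ := μ) hw hv hv1).casc (good_h hl)).integrable (shift_smul (Real.sqrt e0)) 0
  have e : ∀ (g : E) (z : E × ℝ), casc (γh.prod γy) levM hyShift ls (mixPot μ w v a ν S s g)
      (Real.sqrt e0 • z.1, Real.sqrt q0 * z.2) = B z.1 + Real.log a -
        (nextM ls)⁻¹ * -Real.log (1 - mixX μ w v a ν S ls (Real.sqrt e0 • z.1) s (g, Real.sqrt q0 * z.2)) :=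
    fun g z => by
      simp only [mixX, sub_sub_cancel, Real.log_exp, B]
      field_simp
      ring
  change _ = ∫ g, (∫ z, casc (γh.prod γy) levM hyShift ls (mixPot μ w v a ν S s g)
    (Real.sqrt e0 • z.1, Real.sqrt q0 * z.2) ∂γh.prod γy) ∂γh
  simp only [e]
  set R : E → E × ℝ → ℝ := fun g z =>
    (nextM ls)⁻¹ * -Real.log (1 - mixX μ w v a ν S ls (Real.sqrt e0 • z.1) s (g, Real.sqrt q0 * z.2))
  have hRm : Measurable (Function.uncurry R) := by
    have hφ : Measurable fun q : E × (E × ℝ) => ((q.2.1, (q.1, q.2.2)) : E × (E × ℝ)) := by fun_prop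
    exact ((hmJ s).comp hφ).const_mul _
  have hRb : ∀ g z, |R g z| ≤ (nextM ls)⁻¹ * -Real.log (1 - r) := fun g z => by
    rw [abs_mul, abs_of_nonneg (inv_nonneg.2 hμ.le)]
    exact mul_le_mul_of_nonneg_left ((hX _).bdd s hs _) (inv_nonneg.2 hμ.le)
  have hR1 : Integrable (fun q : E × (E × ℝ) => R q.1 q.2) (γh.prod (γh.prod γy)) :=
    Integrable.mono' (integrable_const _) hRm.aestronglyMeasurable
      (Eventually.of_forall fun q => hRb q.1 q.2)
  have hRz : ∀ g, Integrable (R g) (γh.prod γy) := fun g =>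
    Integrable.mono' (integrable_const _) (hRm.comp measurable_prodMk_left).aestronglyMeasurable
      (Eventually.of_forall (hRb g))
  have hBa : Integrable (fun z : E × ℝ => B z.1 + Real.log a) (γh.prod γy) :=
    (hB.comp_fst γy).fun_add (integrable_const _)
  have hpsi : ∫ z : E × ℝ, (B z.1 + Real.log a) ∂γh.prod γy = psiH μ v e0 ls w + Real.log a := by
    rw [integral_add (hB.comp_fst γy) (integrable_const _), integral_fun_fst B]
    simp [psiH, B, γh]
  rw [show (fun g => ∫ z : E × ℝ, (B z.1 + Real.log a - (nextM ls)⁻¹ * -Real.log (1 - mixX μ w v a ν S ls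
      (Real.sqrt e0 • z.1) s (g, Real.sqrt q0 * z.2))) ∂γh.prod γy) =
    fun g => (psiH μ v e0 ls w + Real.log a) - ∫ z, R g z ∂γh.prod γy from funext fun g => by
      rw [integral_sub hBa (hRz g), hpsi],
    integral_sub (integrable_const _) hR1.integral_prod_left, integral_const, probReal_univ, one_smul,
    neg_add_eq_sub]
  congr 1
  -- exchange the roles of the pattern and the field
  rw [← integral_const_mul]
  simp only [J, ← integral_const_mul]
  have hswap : Measurable fun q : E × (E × ℝ) => ((q.2.1, (q.1, q.2.2)) : E × (E × ℝ)) := by fun_prop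
  have i1 : Integrable (fun q : (E × E) × ℝ => R q.1.1 (q.1.2, q.2)) ((γh.prod γh).prod γy) :=
    Integrable.mono' (integrable_const _) (hRm.comp (by fun_prop :
      Measurable fun q : (E × E) × ℝ => ((q.1.1, (q.1.2, q.2)) : E × (E × ℝ)))).aestronglyMeasurable
      (Eventually.of_forall fun q => hRb _ _)
  have iy : ∀ g, ∫ z, R g z ∂γh.prod γy = ∫ h, ∫ y, R g (h, y) ∂γy ∂γh :=
    fun g => integral_prod _ (hRz g)
  have ip : ∀ h, ∫ p : E × ℝ, R p.1 (h, p.2) ∂γh.prod γy = ∫ g, ∫ y, R g (h, y) ∂γy ∂γh := fun h =>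
    integral_prod (fun p : E × ℝ => R p.1 (h, p.2)) (Integrable.mono' (integrable_const _)
      (hRm.comp (by fun_prop : Measurable fun p : E × ℝ => ((p.1, (h, p.2)) : E × (E × ℝ)))).aestronglyMeasurable
      (Eventually.of_forall fun q => hRb _ _))
  show ∫ h, ∫ p : E × ℝ, R p.1 (h, p.2) ∂γh.prod γy ∂γh = ∫ g, ∫ z, R g z ∂γh.prod γy ∂γh
  simp only [iy, ip]
  exact (integral_integral_swap (f := fun g h => ∫ y, R g (h, y) ∂γy) i1.integral_prod_left).symm

end cone

end Vale.Agent.P157.RSB
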