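import Vale.Agent.P157.RSB.Pattern

/-!
Continuity of the level values in the moved share of the variance.
-/

namespace Vale.Agent.P157.RSB

open MeasureTheory ProbabilityTheory Filter
open scoped RealInnerProductSpace Topology

section nested

variable {ι : Type} {m : ι → ℝ} {c : ι → ℝ → ℝ} {G F : ℝ × ℝ → ℝ} {B D : ℝ}

lemma wgt_of_bdd {X : ℝ → ℝ} (hX : Measurable X) {B : ℝ} (hB : ∀ z, |X z| ≤ B) (k : ℝ) :
    Wgt (stdGaussian ℝ) k X :=
  ⟨hX, Integrable.mono' (integrable_const (Real.exp (|k| * B))) (hX.const_mul k).exp.aestronglyMeasurable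
    (Eventually.of_forall fun z => by
      rw [Real.norm_eq_abs, Real.abs_exp, Real.exp_le_exp]
      refine (le_abs_self _).trans ?_
      rw [abs_mul]
      exact mul_le_mul_of_nonneg_left (hB z) (abs_nonneg k))⟩

lemma continuous_integral_exp {X F : (ℝ × ℝ) × ℝ → ℝ} (hX : Continuous X) (hF : Continuous F)
    (hB : ∀ q, |X q| ≤ B) (hD : ∀ q, |F q| ≤ D) (k : ℝ) :
    Continuous fun p : ℝ × ℝ => ∫ z, Real.exp (k * X (p, z)) * F (p, z) ∂stdGaussian ℝ := by
  refine continuous_of_dominated (bound := fun _ => Real.exp (|k| * B) * D)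
    (fun p => (Continuous.aestronglyMeasurable (by fun_prop))) (fun p => Eventually.of_forall fun z => ?_)
    (integrable_const _) (Eventually.of_forall fun z => by fun_prop)
  rw [Real.norm_eq_abs, abs_mul, Real.abs_exp]
  refine mul_le_mul (Real.exp_le_exp.2 ((le_abs_self _).trans ?_)) (hD _) (abs_nonneg _) (Real.exp_pos _).le
  rw [abs_mul]
  exact mul_le_mul_of_nonneg_left (hB _) (abs_nonneg k)

/-- Nested functionals of a bounded function depending on a parameter. -/
theorem nested_continuous (hc : ∀ i, Continuous (c i)) (hG : Continuous G) (hB : ∀ q, |G q| ≤ B)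
    (hF : Continuous F) (hD : ∀ q, |F q| ≤ D) :
    ∀ (ls : List ι), (∀ i ∈ ls, 0 < m i) →
      Continuous (fun q : ℝ × ℝ =>
        casc (stdGaussian ℝ) m (fun i z => c i q.1 • z) ls (fun y => G (q.1, y)) q.2) ∧
      (∀ q : ℝ × ℝ, |casc (stdGaussian ℝ) m (fun i z => c i q.1 • z) ls (fun y => G (q.1, y)) q.2| ≤ B) ∧
      Continuous (fun q : ℝ × ℝ => cmean (stdGaussian ℝ) m (fun i z => c i q.1 • z) ls
        (fun y => G (q.1, y)) (fun y => F (q.1, y)) q.2) ∧
      (∀ q : ℝ × ℝ, |cmean (stdGaussian ℝ) m (fun i z => c i q.1 • z) ls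
        (fun y => G (q.1, y)) (fun y => F (q.1, y)) q.2| ≤ D) ∧
      ∀ j, Continuous (fun q : ℝ × ℝ => csq (stdGaussian ℝ) m (fun i z => c i q.1 • z) ls
        (fun y => G (q.1, y)) (fun y => F (q.1, y)) j q.2) ∧
      (∀ q : ℝ × ℝ, |csq (stdGaussian ℝ) m (fun i z => c i q.1 • z) ls
        (fun y => G (q.1, y)) (fun y => F (q.1, y)) j q.2| ≤ D ^ 2)
  | [], _ => by
    refine ⟨by simpa only [casc] using hG, fun q => hB q, by simpa only [cmean] using hF, fun q => hD q,
      fun j => ?_⟩
    cases j with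
    | zero =>
      simp only [csq, Real.norm_eq_abs, sq_abs]
      exact ⟨hF.pow 2, fun q => by rw [abs_pow]; exact pow_le_pow_left₀ (abs_nonneg _) (hD q) 2⟩
    | succ j =>
      simp only [csq, abs_zero]
      exact ⟨continuous_const, fun _ => sq_nonneg D⟩
  | i :: ls, hm => by
    obtain ⟨cA, bA, cM, bM, hS⟩ :=
      nested_continuous hc hG hB hF hD ls fun j hj => hm j (List.mem_cons_of_mem _ hj)
    have hmi := hm i (List.mem_cons_self ..)
    have hφ : Continuous fun p : (ℝ × ℝ) × ℝ => (p.1.1, p.1.2 + c i p.1.1 • p.2) := by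
      have := hc i
      fun_prop
    set A : (ℝ × ℝ) × ℝ → ℝ := fun p =>
      casc (stdGaussian ℝ) m (fun i z => c i p.1.1 • z) ls (fun y => G (p.1.1, y)) (p.1.2 + c i p.1.1 • p.2)
    have hA : Continuous A := cA.comp hφ
    have hAb : ∀ p, |A p| ≤ B := fun p => bA (p.1.1, p.1.2 + c i p.1.1 • p.2)
    have hw : ∀ q : ℝ × ℝ, Wgt (stdGaussian ℝ) (m i) fun z => A (q, z) := fun q =>
      wgt_of_bdd (hA.measurable.comp measurable_prodMk_left) (fun z => hAb (q, z)) _
    have hden : Continuous fun q : ℝ × ℝ => ∫ z, Real.exp (m i * A (q, z)) ∂stdGaussian ℝ := by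
      simpa using continuous_integral_exp hA (continuous_const (y := (1 : ℝ))) hAb
        (D := 1) (fun _ => by simp) (m i)
    have htilt : ∀ {T : ℝ × ℝ → ℝ} {D' : ℝ}, Continuous T → (∀ q, |T q| ≤ D') →
        Continuous (fun q : ℝ × ℝ =>
          tilt (stdGaussian ℝ) (m i) (fun z => A (q, z)) fun z => T (q.1, q.2 + c i q.1 • z)) ∧
        ∀ q : ℝ × ℝ, |tilt (stdGaussian ℝ) (m i) (fun z => A (q, z)) fun z => T (q.1, q.2 + c i q.1 • z)| ≤ D' :=
      fun {T D'} hT hTb => by
        refine ⟨?_, fun q => (Real.norm_eq_abs _).symm.le.trans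
          (norm_tilt_le (hw q) fun z => (Real.norm_eq_abs _).le.trans (hTb _))⟩
        simp only [tilt, smul_eq_mul]
        exact (hden.inv₀ fun q => (hw q).pos.ne').mul
          (continuous_integral_exp hA (hT.comp hφ) hAb (fun p => hTb _) (m i))
    refine ⟨?_, fun q => ?_, ?_, ?_, fun j => ?_⟩
    · simp only [casc, lexp]
      exact (hden.log fun q => (hw q).pos.ne').div_const _
    · simp only [casc]
      have hl := lexp_const (γ := stdGaussian ℝ) hmi.ne'
      rw [abs_le]
      constructor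
      · exact (hl (-B)).symm.le.trans (lexp_mono (wgt_of_bdd measurable_const (fun _ => le_rfl) _) (hw q) hmi
          fun z => (abs_le.1 (hAb (q, z))).1)
      · exact (lexp_mono (hw q) (wgt_of_bdd measurable_const (fun _ => le_rfl) _) hmi
          fun z => (abs_le.1 (hAb (q, z))).2).trans (hl B).le
    · simp only [cmean]
      exact (htilt cM bM).1
    · simp only [cmean]
      exact (htilt cM bM).2
    · cases j with
      | zero =>
        simp only [csq_zero, Real.norm_eq_abs, sq_abs]
        refine ⟨?_, fun q => ?_⟩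
        · simp only [cmean]
          exact (htilt cM bM).1.pow 2
        · rw [abs_pow]
          refine pow_le_pow_left₀ (abs_nonneg _) ?_ 2
          simp only [cmean]
          exact (htilt cM bM).2 q
      | succ j =>
        simp only [csq]
        exact htilt (hS j).1 (hS j).2

end nested

variable {f : ℝ → ℝ} {a : ℝ} {ν : Measure ℝ} {ls : List Lev} {q0 r0 S : ℝ}

/-- The smoothing left in the target, kept away from zero. -/
noncomputable def sigC (S p : ℝ) : ℝ := max (1 - p) (1 / 2) * S

lemma sigC_ge (hS : 0 ≤ S) (p : ℝ) : S / 2 ≤ sigC S p := by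
  rw [sigC, div_eq_mul_inv, mul_comm S]
  exact mul_le_mul_of_nonneg_right (by simpa using le_max_right (1 - p) (1 / 2 : ℝ)) hS

lemma continuous_kU (hk : Ker f a ν) (hS : 0 < S) :
    Continuous fun q : ℝ × ℝ => kU a ν (sigC S q.1) q.2 := by
  have := hk.fin
  have hc : Continuous (sigC S) := by unfold sigC; fun_prop
  refine continuous_const.sub ?_
  simp only [kW]
  refine continuous_of_dominated (bound := fun _ => (1 : ℝ))
    (fun p => (Continuous.aestronglyMeasurable (by fun_prop))) (fun p => Eventually.of_forall fun t => ?_)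
    (integrable_const _) (Eventually.of_forall fun t => by fun_prop)
  rw [Real.norm_eq_abs, abs_mul, Real.abs_exp]
  exact mul_le_one₀ (Real.abs_cos_le_one _) (Real.exp_pos _).le
    (exp_sq_le_one (by linarith [sigC_ge hS.le p.1]) t)

lemma continuous_kD (hk : Ker f a ν) (hS : 0 < S) :
    Continuous fun q : ℝ × ℝ => kD a ν (sigC S q.1) q.2 := by
  have := hk.fin
  obtain ⟨c, hc1, hc⟩ := pow_mul_exp_le (σ₀ := S / 2) (by linarith)
  have hsc : Continuous (sigC S) := by unfold sigC; fun_prop
  simp only [kD]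
  refine Continuous.div ?_ (continuous_kU hk hS) fun q => (kU_pos hk (by linarith [sigC_ge hS.le q.1]) _).ne'
  refine continuous_of_dominated (bound := fun _ => c)
    (fun p => (Continuous.aestronglyMeasurable (by fun_prop))) (fun p => Eventually.of_forall fun t => ?_)
    (integrable_const _) (Eventually.of_forall fun t => by fun_prop)
  rw [Real.norm_eq_abs, abs_mul, abs_mul, Real.abs_exp, mul_assoc]
  refine le_trans ?_ (hc _ (sigC_ge hS.le p.1) t).1
  exact mul_le_mul_of_nonneg_left (mul_le_of_le_one_left (Real.exp_pos _).le (Real.abs_sin_le_one _))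
    (abs_nonneg t)

/-- The level values converge to those of the full target. -/
theorem tendsto_tgtR (hk : Ker f a ν) (h : Adm ls q0 r0 S) (j : ℕ) :
    Tendsto (fun p => tgtR a ν ls q0 (Real.sqrt (1 - p)) ((1 - p) * S) j) (𝓝 0)
      (𝓝 (tgtR a ν ls q0 1 S j)) := by
  have hS := h.S_pos
  obtain ⟨C, hC1, hC⟩ := kern_bounds hk (σ₀ := S / 2) (by linarith)
  have hG : Continuous fun q : ℝ × ℝ => lkU a ν (sigC S q.1) q.2 :=
    (continuous_kU hk hS).log fun q => (kU_pos hk (by linarith [sigC_ge hS.le q.1]) _).ne'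
  have hB : ∀ q : ℝ × ℝ, |lkU a ν (sigC S q.1) q.2| ≤
      |Real.log (a - ν.real Set.univ)| + |Real.log (a + ν.real Set.univ)| := fun q => by
    obtain ⟨h1, h2⟩ := kU_bounds hk (σ := sigC S q.1) (by linarith [sigC_ge hS.le q.1]) q.2
    have hpos : 0 < kU a ν (sigC S q.1) q.2 := kU_pos hk (by linarith [sigC_ge hS.le q.1]) _
    have m1 := Real.log_le_log (by linarith [hk.lt] : 0 < a - ν.real Set.univ) h1
    have m2 := Real.log_le_log hpos h2
    simp only [lkU]
    rw [abs_le]
    constructor
    · linarith [neg_abs_le (Real.log (a - ν.real Set.univ)), abs_nonneg (Real.log (a + ν.real Set.univ))]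
    · linarith [le_abs_self (Real.log (a + ν.real Set.univ)), abs_nonneg (Real.log (a - ν.real Set.univ))]
  obtain ⟨-, -, -, -, hS'⟩ := nested_continuous (m := levM)
    (c := fun (i : Lev) p => Real.sqrt (1 - p) * Real.sqrt i.2.1) (fun i => by fun_prop) hG hB
    (continuous_kD hk hS) (fun q => (hC _ (sigC_ge hS.le q.1) q.2 0).1) ls h.ord.pos
  obtain ⟨hcont, hbd⟩ := hS' j
  have hfull : Continuous fun p : ℝ => ∫ y : ℝ, csq (stdGaussian ℝ) levM (sy (Real.sqrt (1 - p))) ls
      (lkU a ν (sigC S p)) (kD a ν (sigC S p)) j ((Real.sqrt (1 - p) * Real.sqrt q0) • y) ∂stdGaussian ℝ := by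
    have hφ : ∀ y : ℝ, Continuous fun p : ℝ => ((p, (Real.sqrt (1 - p) * Real.sqrt q0) • y) : ℝ × ℝ) :=
      fun y => by fun_prop
    refine continuous_of_dominated (bound := fun _ => C ^ 2) (fun p => ?_)
      (fun p => Eventually.of_forall fun y => ?_) (integrable_const _) (Eventually.of_forall fun y => ?_)
    · have hψ : Continuous fun y : ℝ => ((p, (Real.sqrt (1 - p) * Real.sqrt q0) • y) : ℝ × ℝ) := by fun_prop
      exact (hcont.comp hψ).aestronglyMeasurable
    · exact hbd (p, (Real.sqrt (1 - p) * Real.sqrt q0) • y)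
    · exact hcont.comp (hφ y)
  have h0 : sigC S 0 = S := by simp [sigC]; norm_num
  have hlim := hfull.tendsto 0
  simp only [sub_zero, Real.sqrt_one, h0] at hlim
  refine Tendsto.congr' ?_ hlim
  filter_upwards [Iio_mem_nhds (show (0 : ℝ) < 1 / 2 by norm_num)] with p hp
  have hp' : p < 1 / 2 := hp
  have e : sigC S p = (1 - p) * S := by rw [sigC, max_eq_left (by linarith)]
  simp only [e, tgtR]

end Vale.Agent.P157.RSB
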