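import Vale.Agent.P157.RSB.Bridge
import Vale.Agent.P157.Entropy

/-!
The nested entropy of the cube.
-/

namespace Vale.Agent.P157.RSB

open MeasureTheory ProbabilityTheory Filter
open scoped RealInnerProductSpace Topology

lemma log_cosh_lip (x y : ℝ) : |Real.log (Real.cosh (x + y)) - Real.log (Real.cosh x)| ≤ |y| := by
  have key : ∀ x y : ℝ, Real.log (Real.cosh (x + y)) - Real.log (Real.cosh x) ≤ |y| := fun x y => by
    rw [← Real.log_div (Real.cosh_pos _).ne' (Real.cosh_pos _).ne',
      Real.log_le_iff_le_exp (div_pos (Real.cosh_pos _) (Real.cosh_pos _)), div_le_iff₀ (Real.cosh_pos _),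
      Real.cosh_eq, Real.cosh_eq]
    have h1 : Real.exp (x + y) ≤ Real.exp |y| * Real.exp x := by
      rw [← Real.exp_add]; exact Real.exp_le_exp.2 (by linarith [le_abs_self y])
    have h2 : Real.exp (-(x + y)) ≤ Real.exp |y| * Real.exp (-x) := by
      rw [← Real.exp_add]; exact Real.exp_le_exp.2 (by linarith [neg_abs_le y])
    linarith
  have h := key (x + y) (-y)
  rw [add_neg_cancel_right, abs_neg] at h
  rw [abs_le]
  exact ⟨by linarith, key x y⟩

/-- The spin increments. -/
noncomputable def sx (i : Lev) (z : ℝ) : ℝ := Real.sqrt i.2.2 * z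

lemma good_sx {l : List Lev} (h : Ordered l) : Good (gaussianReal 0 1) levM sx l :=
  fun i hi => ⟨h.pos i hi, shift_mul _⟩

lemma spin_eq : ∀ (ls : List (ℝ × ℝ)) (R : ℕ → ℝ) (x : ℝ),
    rsbSpin ls R x = casc (gaussianReal 0 1) levM sx (withR ls R) (fun t => Real.log (Real.cosh t)) x
  | [], R, x => rfl
  | (m, d) :: ls, R, x => by simp only [rsbSpin, withR, casc, lexp, spin_eq ls]; rfl

lemma lip_spin {ls : List (ℝ × ℝ)} {R : ℕ → ℝ} (h : Ordered (withR ls R)) : Lip 1 (rsbSpin ls R) := by
  have hG : Lip 1 fun t : ℝ => Real.log (Real.cosh t) :=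
    ⟨(Real.continuous_cosh.log fun t => (Real.cosh_pos _).ne').measurable, zero_le_one,
      fun x y => by simpa using log_cosh_lip x y⟩
  rw [show rsbSpin ls R = casc (gaussianReal 0 1) levM sx (withR ls R) (fun t => Real.log (Real.cosh t))
    from funext (spin_eq ls R)]
  exact hG.casc (good_sx h)

lemma hBase_cube (N : ℕ) (H : EuclideanSpace ℝ (Fin N)) :
    hBase (cubeMeasure N) (fun _ => 1) (cubeVec N) H = ∑ i, Real.log (Real.cosh (H i / Real.sqrt N)) := by
  simp only [hBase, one_mul, integral_cube]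
  rw [← Real.log_prod fun i _ => (Real.cosh_pos _).ne']
  congr 1
  have hi : ∀ σ, ⟪H, cubeVec N σ⟫ = ∑ i, H i / Real.sqrt N * sgn (σ i) := fun σ => by
    rw [cubeVec, real_inner_smul_right]
    simp only [PiLp.inner_apply, RCLike.inner_apply, conj_trivial, Finset.mul_sum]
    exact Finset.sum_congr rfl fun i _ => by rw [div_eq_mul_inv]; ring
  simp only [hi, Real.exp_sum]
  rw [← Fintype.piFinset_univ, ← Finset.prod_univ_sum (fun _ : Fin N => (Finset.univ : Finset Bool))
    (fun i b => Real.exp (H i / Real.sqrt N * sgn b)),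
    show (2 : ℝ) ^ N = ∏ _i : Fin N, (2 : ℝ) by simp, ← Finset.prod_div_distrib]
  refine Finset.prod_congr rfl fun i _ => ?_
  rw [Fintype.sum_bool, Real.cosh_eq]
  simp [sgn]

variable {N : ℕ} {α : ℝ}

lemma casc_cube (hN : 1 ≤ N) : ∀ (ls : List (ℝ × ℝ)) (R : ℕ → ℝ),
    Ordered (withR ls R) → ∀ x : EuclideanSpace ℝ (Fin N),
    casc (stdGaussian (EuclideanSpace ℝ (Fin N))) levM (sh (α * N)) (withR ls R)
        (hBase (cubeMeasure N) (fun _ => 1) (cubeVec N)) x =
      ∑ i, rsbSpin ls (fun j => α * R j) (x i / Real.sqrt N)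
  | [], R, _, x => by simp [withR, casc, rsbSpin, hBase_cube]
  | (m, d) :: ls, R, h, x => by
    have hord : Ordered (withR ls fun j => R (j + 1)) := h.2.2
    have hm : 0 < m := h.1
    have hN0 : Real.sqrt N ≠ 0 := Real.sqrt_ne_zero'.2 (by exact_mod_cast hN)
    have hord' : Ordered (withR ls fun j => α * R (j + 1)) := by
      clear hm hN0 h x
      have : ∀ (ls : List (ℝ × ℝ)) (R R' : ℕ → ℝ), Ordered (withR ls R) → Ordered (withR ls R') := by
        intro ls
        induction ls with
        | nil => intros; trivial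
        | cons p ls ih =>
          intro R R' h
          refine ⟨h.1, ?_, ih _ _ h.2.2⟩
          cases ls with
          | nil => exact h.2.1
          | cons q ls => exact h.2.1
      exact this ls _ _ hord
    have ih := casc_cube hN ls (fun j => R (j + 1)) hord
    set φ := rsbSpin ls fun j => α * R (j + 1)
    set k := Real.sqrt (α * R 1 - α * R 0)
    have hk : Real.sqrt (α * N * (R 1 - R 0)) / Real.sqrt N = k := by
      rw [show α * N * (R 1 - R 0) = (N : ℝ) * (α * R 1 - α * R 0) by ring,
        Real.sqrt_mul (Nat.cast_nonneg N)]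
      field_simp
      simp [k, mul_sub]
    have hpos : ∀ i : Fin N, 0 < ∫ z, Real.exp (m * φ (x i / Real.sqrt N + k * z)) ∂gaussianReal 0 1 :=
      fun i => ((lip_spin hord').wgt (shift_mul k) (x i / Real.sqrt N) m).pos
    have hsh : ∀ (h : EuclideanSpace ℝ (Fin N)) (i : Fin N),
        (x + sh (α * N) (m, d, R 1 - R 0) h) i / Real.sqrt N = x i / Real.sqrt N + k * h i := fun h i => by
      rw [← hk]; simp [sh, add_div, mul_div_right_comm]
    simp only [withR, casc, rsbSpin, lexp, levM, ih, hsh, Finset.mul_sum, Real.exp_sum]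
    rw [← map_pi_eq_stdGaussian]
    have hme : Measurable fun h : EuclideanSpace ℝ (Fin N) => ∏ i, Real.exp (m * φ (x i / Real.sqrt N + k * h i)) :=
      Finset.measurable_fun_prod _ fun i _ =>
        (((lip_spin hord').meas.comp ((Measurable.const_mul (by fun_prop) k).const_add _)).const_mul m).exp
    rw [integral_map (by fun_prop) hme.aestronglyMeasurable]
    rw [integral_fintype_prod_eq_prod (fun i z => Real.exp (m * φ (x i / Real.sqrt N + k * z))),
      Real.log_prod fun i _ => (hpos i).ne', Finset.sum_div]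

/-- The fields alone give `N` single-spin entropies. -/
theorem fldPsi_cube (hN : 1 ≤ N) {ls : List (ℝ × ℝ)} {R : ℕ → ℝ} (h : Ordered (withR ls R))
    (h' : Ordered (withR ls fun j => α * R j)) :
    fldPsi (cubeMeasure N) (cubeVec N) (withR ls R) (R 0) (α * N) (fun _ => 1) =
      N * ∫ z, rsbSpin ls (fun j => α * R j) (Real.sqrt (α * R 0) * z) ∂gaussianReal 0 1 := by
  set φ := rsbSpin ls fun j => α * R j
  set k := Real.sqrt (α * R 0)
  have hN0 : Real.sqrt N ≠ 0 := Real.sqrt_ne_zero'.2 (by exact_mod_cast hN)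
  have hsc : ∀ (g : EuclideanSpace ℝ (Fin N)) (i : Fin N),
      (Real.sqrt (α * N * R 0) • g) i / Real.sqrt N = k * g i := fun g i => by
    rw [show α * N * R 0 = (N : ℝ) * (α * R 0) by ring, Real.sqrt_mul (Nat.cast_nonneg N)]
    simp only [PiLp.smul_apply, smul_eq_mul, k]
    field_simp
  simp only [fldPsi, casc_cube hN ls R h, hsc]
  have hz : Integrable (fun z : ℝ => φ (k * z)) (gaussianReal 0 1) := by
    simpa using (lip_spin h').integrable (shift_mul k) 0
  have hi : ∀ i : Fin N, Integrable (fun g : EuclideanSpace ℝ (Fin N) => φ (k * g i)) (stdGaussian _) :=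
    fun i => (measurePreserving_coord i).integrable_comp_of_integrable hz
  rw [integral_finsetSum _ fun i _ => hi i]
  have hmap : ∀ i : Fin N, ∫ g : EuclideanSpace ℝ (Fin N), φ (k * g i) ∂stdGaussian _ =
      ∫ z, φ (k * z) ∂gaussianReal 0 1 := fun i => by
    have hm := measurePreserving_coord i
    have h2 := integral_map hm.measurable.aemeasurable
      ((((lip_spin h').meas.comp (measurable_const_mul k))).aestronglyMeasurable
        (μ := (stdGaussian (EuclideanSpace ℝ (Fin N))).map fun g => g i))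
    rw [hm.map_eq] at h2
    exact h2.symm
  simp [hmap]

end Vale.Agent.P157.RSB
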