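import Vale.Agent.P157.RSB.Conc

/-!
Second-order expansion of nested functionals under a small Gaussian perturbation.
-/

namespace Vale.Agent.P157.RSB

open MeasureTheory ProbabilityTheory Filter
open scoped RealInnerProductSpace Topology

lemma exp_taylor2 (y : ℝ) : |Real.exp y - 1 - y - y ^ 2 / 2| ≤ 4 * |y| ^ 3 * Real.exp |y| := by
  have he : 1 ≤ Real.exp |y| := Real.one_le_exp (abs_nonneg y)
  rcases le_or_gt |y| 1 with h | h
  · have hb := Real.exp_bound h (show 0 < 3 by norm_num)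
    simp only [Finset.sum_range_succ, Finset.sum_range_zero, Nat.factorial] at hb
    norm_num at hb
    have h3 : 0 ≤ |y| ^ 3 := by positivity
    have h4 : |y| ^ 3 ≤ |y| ^ 3 * Real.exp |y| := le_mul_of_one_le_right h3 he
    obtain ⟨b1, b2⟩ := abs_le.1 hb
    rw [abs_le]
    constructor <;> linarith
  · have h3 : 1 ≤ |y| ^ 3 := one_le_pow₀ h.le
    have h1 : |y| ≤ |y| ^ 3 := le_self_pow₀ h.le (by norm_num)
    have h2 : |y| ^ 2 ≤ |y| ^ 3 := pow_le_pow_right₀ h.le (by norm_num)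
    have hy := Real.exp_le_exp.2 (le_abs_self y)
    have hyp := Real.exp_pos y
    have e2 : y ^ 2 = |y| ^ 2 := (sq_abs y).symm
    have p1 : Real.exp |y| ≤ |y| ^ 3 * Real.exp |y| := le_mul_of_one_le_left (by linarith) h3
    have p2 : |y| ^ 3 ≤ |y| ^ 3 * Real.exp |y| := le_mul_of_one_le_right (by linarith) he
    have hl := le_abs_self y
    have hn := neg_abs_le y
    rw [abs_le, e2]
    constructor <;> linarith [sq_nonneg |y|]

lemma log_taylor2 {x : ℝ} (hx : 0 < 1 + x) :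
    |Real.log (1 + x) - x + x ^ 2 / 2| ≤ 9 * |x| ^ 3 * (1 + (1 + x)⁻¹) := by
  have hi : 0 < (1 + x)⁻¹ := inv_pos.2 hx
  have hx3 : 0 ≤ |x| ^ 3 := by positivity
  rcases le_or_gt |x| (1 / 2) with h | h
  · have hb := Real.abs_log_sub_add_sum_range_le (x := -x) (by rw [abs_neg]; linarith) 2
    simp only [Finset.sum_range_succ, Finset.sum_range_zero, abs_neg, sub_neg_eq_add] at hb
    norm_num at hb
    have h2 : |x| ^ 3 / (1 - |x|) ≤ 2 * |x| ^ 3 := by
      rw [div_le_iff₀ (by linarith)]; nlinarith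
    obtain ⟨b1, b2⟩ := abs_le.1 hb
    have h9 : 2 * |x| ^ 3 ≤ 9 * |x| ^ 3 * (1 + (1 + x)⁻¹) := by nlinarith
    rw [abs_le]
    constructor <;> linarith
  · have u1 : Real.log (1 + x) ≤ |x| := by
      linarith [Real.log_le_sub_one_of_pos hx, le_abs_self x]
    have u2 : -(|x| * (1 + (1 + x)⁻¹)) ≤ Real.log (1 + x) := by
      refine le_trans ?_ (Real.one_sub_inv_le_log_of_pos hx)
      have e : 1 - (1 + x)⁻¹ = x * (1 + x)⁻¹ := by field_simp; ring
      rw [e]
      have := mul_le_mul_of_nonneg_right (neg_abs_le x) hi.le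
      linarith [abs_nonneg x]
    have hq : 1 / 4 ≤ |x| ^ 2 := by nlinarith
    have a1 : |x| ≤ 4 * |x| ^ 3 := by
      have := mul_le_mul_of_nonneg_right hq (abs_nonneg x)
      nlinarith
    have a2 : x ^ 2 ≤ 2 * |x| ^ 3 := by
      rw [← sq_abs x]
      have := mul_le_mul_of_nonneg_left h.le (sq_nonneg |x|)
      nlinarith
    have hl := le_abs_self x
    have hn := neg_abs_le x
    have m1 : |x| * (1 + (1 + x)⁻¹) ≤ 4 * |x| ^ 3 * (1 + (1 + x)⁻¹) :=
      mul_le_mul_of_nonneg_right a1 (by linarith)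
    have m2 : |x| ^ 3 ≤ |x| ^ 3 * (1 + (1 + x)⁻¹) := le_mul_of_one_le_right hx3 (by linarith)
    rw [abs_le]
    constructor <;> linarith [sq_nonneg x]

/-- The error envelope. -/
noncomputable def env (C : ℝ) (k : ℕ) (t : ℝ) : ℝ := C * t ^ k * Real.exp (C * t)

section step

variable {Ω : Type} [MeasurableSpace Ω] {P : Measure Ω} [IsProbabilityMeasure P]

/-- Second-order expansion of a log-moment. -/
lemma log_exp_expand {Y L Q T : Ω → ℝ} {C M D t : ℝ} (hC : 1 ≤ C) (hM : 1 ≤ M) (hD : 0 ≤ D)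
    (ht : 0 ≤ t) (hY : Measurable Y) (hL : Measurable L) (hQ : Measurable Q) (hT : Measurable T)
    (hT0 : ∀ ω, 0 ≤ T ω)
    (bY : ∀ ω, |Y ω| ≤ C * T ω) (bL : ∀ ω, |L ω| ≤ C * T ω) (bQ : ∀ ω, |Q ω| ≤ C * T ω ^ 2)
    (bE : ∀ ω, |Y ω - L ω - Q ω| ≤ env C 3 (T ω))
    (hT1 : Integrable T P ∧ ∫ ω, T ω ∂P ≤ M * t)
    (hmom : ∀ k : ℕ, 1 ≤ k → k ≤ 3 → Integrable (fun ω => T ω ^ k * Real.exp (3 * C * T ω)) P ∧
      ∫ ω, T ω ^ k * Real.exp (3 * C * T ω) ∂P ≤ M * t ^ k * Real.exp (D * t)) :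
    |Real.log (∫ ω, Real.exp (Y ω) ∂P) -
      (∫ ω, L ω ∂P + (∫ ω, (Q ω + L ω ^ 2 / 2) ∂P - (∫ ω, L ω ∂P) ^ 2 / 2))| ≤
      1000 * C ^ 6 * M ^ 3 * (t ^ 3 * Real.exp ((3 * D + C * M + C) * t) * Real.exp (C * M * t)) := by
  have hC0 : 0 ≤ C := by linarith
  have hexp : ∀ ω, 1 ≤ Real.exp (3 * C * T ω) := fun ω =>
    Real.one_le_exp (by have := hT0 ω; positivity)
  have hk : ∀ (k : ℕ) (φ : Ω → ℝ) (c : ℝ), 1 ≤ k → k ≤ 3 → 0 ≤ c → Measurable φ →
      (∀ ω, |φ ω| ≤ c * (T ω ^ k * Real.exp (3 * C * T ω))) →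
      Integrable φ P ∧ |∫ ω, φ ω ∂P| ≤ c * (M * t ^ k * Real.exp (D * t)) := fun k φ c h1 h2 hc hm hb => by
    obtain ⟨hi, hle⟩ := hmom k h1 h2
    refine ⟨Integrable.mono' (hi.const_mul c) hm.aestronglyMeasurable (Eventually.of_forall hb), ?_⟩
    rw [← Real.norm_eq_abs]
    refine (norm_integral_le_of_norm_le (hi.const_mul c) (Eventually.of_forall hb)).trans ?_
    rw [integral_const_mul]
    exact mul_le_mul_of_nonneg_left hle hc
  have hpow : ∀ (k : ℕ) ω, T ω ^ k ≤ T ω ^ k * Real.exp (3 * C * T ω) := fun k ω =>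
    le_mul_of_one_le_right (pow_nonneg (hT0 ω) k) (hexp ω)
  have hCT : ∀ ω, C * T ω ≤ 3 * C * T ω := fun ω => by nlinarith [hT0 ω]
  obtain ⟨iL, hLI⟩ := hk 1 L C le_rfl (by norm_num) hC0 hL fun ω =>
    (bL ω).trans (mul_le_mul_of_nonneg_left (by simpa using hpow 1 ω) hC0)
  obtain ⟨iY, hYI⟩ := hk 1 Y C le_rfl (by norm_num) hC0 hY fun ω =>
    (bY ω).trans (mul_le_mul_of_nonneg_left (by simpa using hpow 1 ω) hC0)
  have hL2 : ∀ ω, L ω ^ 2 ≤ C ^ 2 * T ω ^ 2 := fun ω => by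
    rw [← sq_abs, ← mul_pow]; exact pow_le_pow_left₀ (abs_nonneg _) (bL ω) 2
  obtain ⟨iV, hVI⟩ := hk 2 (fun ω => Q ω + L ω ^ 2 / 2) (2 * C ^ 2) (by norm_num) (by norm_num)
    (by positivity) (hQ.add ((hL.pow_const 2).div_const 2)) fun ω => by
      refine le_trans ?_ (mul_le_mul_of_nonneg_left (hpow 2 ω) (by positivity))
      refine (abs_add_le _ _).trans ?_
      rw [abs_div, abs_of_nonneg (sq_nonneg (L ω)), abs_two]
      have h1 := bQ ω
      have h2 := hL2 ω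
      have h3 : C * T ω ^ 2 ≤ C ^ 2 * T ω ^ 2 :=
        mul_le_mul_of_nonneg_right (le_self_pow₀ hC (by norm_num)) (sq_nonneg _)
      have h4 : 0 ≤ C ^ 2 * T ω ^ 2 := by positivity
      linarith
  obtain ⟨iR, hRI⟩ := hk 3 (fun ω => Real.exp (Y ω) - 1 - L ω - (Q ω + L ω ^ 2 / 2)) (8 * C ^ 3)
    (by norm_num) le_rfl (by positivity)
    (((hY.exp.sub_const 1).sub hL).sub (hQ.add ((hL.pow_const 2).div_const 2))) fun ω => by
      set x := T ω
      have hx := hT0 ω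
      have e1 := exp_taylor2 (Y ω)
      have e2 : |Y ω| ^ 3 * Real.exp |Y ω| ≤ C ^ 3 * x ^ 3 * Real.exp (C * x) := by
        rw [← mul_pow]
        exact mul_le_mul (pow_le_pow_left₀ (abs_nonneg _) (bY ω) 3) (Real.exp_le_exp.2 (bY ω))
          (Real.exp_pos _).le (by positivity)
      have e3 : |Y ω - L ω| ≤ 2 * C * (x ^ 2 * Real.exp (2 * C * x)) := by
        have h3 := bE ω
        simp only [env] at h3
        have hxe : x ≤ Real.exp (C * x) :=
          (le_mul_of_one_le_left hx hC).trans (by linarith [Real.add_one_le_exp (C * x)])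
        have h4 : C * x ^ 3 * Real.exp (C * x) ≤ C * (x ^ 2 * Real.exp (2 * C * x)) := by
          rw [show (2 : ℝ) * C * x = C * x + C * x by ring, Real.exp_add]
          have := mul_le_mul_of_nonneg_left hxe (by positivity : 0 ≤ C * x ^ 2 * Real.exp (C * x))
          nlinarith
        have h5 : C * x ^ 2 ≤ C * (x ^ 2 * Real.exp (2 * C * x)) := mul_le_mul_of_nonneg_left
          (le_mul_of_one_le_right (sq_nonneg x) (Real.one_le_exp (by positivity))) hC0
        calc |Y ω - L ω| = |(Y ω - L ω - Q ω) + Q ω| := by ring_nf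
          _ ≤ |Y ω - L ω - Q ω| + |Q ω| := abs_add_le _ _
          _ ≤ _ := by linarith [bQ ω]
      have e4 : |Y ω ^ 2 / 2 - L ω ^ 2 / 2| ≤ 2 * C ^ 2 * (x ^ 3 * Real.exp (2 * C * x)) := by
        rw [show Y ω ^ 2 / 2 - L ω ^ 2 / 2 = (Y ω - L ω) * ((Y ω + L ω) / 2) by ring, abs_mul]
        refine (mul_le_mul e3 (d := C * x) ?_ (abs_nonneg _) (by positivity)).trans_eq (by ring)
        rw [abs_div, abs_two, div_le_iff₀ two_pos]
        exact (abs_add_le _ _).trans (by linarith [bY ω, bL ω])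
      have x1 : Real.exp (C * x) ≤ Real.exp (3 * C * x) := Real.exp_le_exp.2 (hCT ω)
      have x2 : Real.exp (2 * C * x) ≤ Real.exp (3 * C * x) :=
        Real.exp_le_exp.2 (by nlinarith [mul_nonneg hC0 hx])
      have c1 : C ≤ C ^ 3 := le_self_pow₀ hC (by norm_num)
      have c2 : C ^ 2 ≤ C ^ 3 := pow_le_pow_right₀ hC (by norm_num)
      have hx3 : 0 ≤ x ^ 3 := pow_nonneg hx 3
      have b3 := bE ω
      simp only [env] at b3
      have k1 : C * x ^ 3 * Real.exp (C * x) ≤ C ^ 3 * (x ^ 3 * Real.exp (3 * C * x)) := by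
        rw [mul_assoc]
        exact mul_le_mul c1 (mul_le_mul_of_nonneg_left x1 hx3) (by positivity) (by positivity)
      have k2 : C ^ 3 * x ^ 3 * Real.exp (C * x) ≤ C ^ 3 * (x ^ 3 * Real.exp (3 * C * x)) := by
        rw [mul_assoc]
        exact mul_le_mul_of_nonneg_left (mul_le_mul_of_nonneg_left x1 hx3) (by positivity)
      have k3 : C ^ 2 * (x ^ 3 * Real.exp (2 * C * x)) ≤ C ^ 3 * (x ^ 3 * Real.exp (3 * C * x)) :=
        mul_le_mul c2 (mul_le_mul_of_nonneg_left x2 hx3) (by positivity) (by positivity)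
      calc |Real.exp (Y ω) - 1 - L ω - (Q ω + L ω ^ 2 / 2)|
          = |(Real.exp (Y ω) - 1 - Y ω - Y ω ^ 2 / 2) + (Y ω - L ω - Q ω) +
              (Y ω ^ 2 / 2 - L ω ^ 2 / 2)| := by ring_nf
        _ ≤ |Real.exp (Y ω) - 1 - Y ω - Y ω ^ 2 / 2| + |Y ω - L ω - Q ω| +
              |Y ω ^ 2 / 2 - L ω ^ 2 / 2| := abs_add_three _ _ _
        _ ≤ _ := by
          have : 0 ≤ C ^ 3 * (x ^ 3 * Real.exp (3 * C * x)) := by positivity
          linarith
  obtain ⟨ie, hxI⟩ := hk 1 (fun ω => Real.exp (Y ω) - 1) C le_rfl (by norm_num) hC0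
    (hY.exp.sub_const 1) fun ω => by
      have h1 : |Real.exp (Y ω) - 1| ≤ |Y ω| * Real.exp |Y ω| := by
        rcases le_or_gt 0 (Y ω) with h | h
        · rw [abs_of_nonneg (by linarith [Real.one_le_exp h] : 0 ≤ Real.exp (Y ω) - 1), abs_of_nonneg h]
          have := mul_le_mul_of_nonneg_right (Real.add_one_le_exp (-Y ω)) (Real.exp_pos (Y ω)).le
          rw [← Real.exp_add, neg_add_cancel, Real.exp_zero] at this
          linarith
        · rw [abs_of_nonpos (by linarith [Real.exp_le_one_iff.2 h.le] : Real.exp (Y ω) - 1 ≤ 0)]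
          refine le_trans ?_ (le_mul_of_one_le_right (abs_nonneg _) (Real.one_le_exp (abs_nonneg _)))
          rw [abs_of_neg h]
          linarith [Real.add_one_le_exp (Y ω)]
      rw [pow_one, ← mul_assoc]
      exact h1.trans (mul_le_mul (bY ω) (Real.exp_le_exp.2 ((bY ω).trans (hCT ω)))
        (Real.exp_pos _).le (by have := hT0 ω; positivity))
  simp only [pow_one] at hxI hLI hYI
  have iE : Integrable (fun ω => Real.exp (Y ω)) P := by
    have := ie.fun_add (integrable_const (1 : ℝ))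
    simpa using this
  set x := ∫ ω, (Real.exp (Y ω) - 1) ∂P with hxdef
  set u := ∫ ω, L ω ∂P
  set w := ∫ ω, (Q ω + L ω ^ 2 / 2) ∂P
  have hint : ∫ ω, Real.exp (Y ω) ∂P = 1 + x := by
    rw [hxdef, integral_sub iE (integrable_const _)]; simp
  have hpos : 0 < 1 + x := hint ▸ integral_exp_pos iE
  have hR : |x - u - w| ≤ 8 * C ^ 3 * (M * t ^ 3 * Real.exp (D * t)) := by
    have e : x - u - w = ∫ ω, (Real.exp (Y ω) - 1 - L ω - (Q ω + L ω ^ 2 / 2)) ∂P := by
      rw [integral_sub (ie.sub' iL) iV, integral_sub ie iL]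
    rw [e]; exact hRI
  -- lower bound of the moment
  set E := Real.exp (C * M * t)
  have hE1 : 1 ≤ E := Real.one_le_exp (by positivity)
  have hinv : (1 + x)⁻¹ ≤ E := by
    have h1 : Real.exp (∫ ω, Y ω ∂P) ≤ 1 + x := by
      rw [← hint]
      have h2 : ∫ ω, (Real.exp (∫ ω, Y ω ∂P) * (1 + (Y ω - ∫ ω, Y ω ∂P))) ∂P ≤ ∫ ω, Real.exp (Y ω) ∂P := by
        refine integral_mono (((integrable_const _).add (iY.sub (integrable_const _))).const_mul _) iE
          fun ω => ?_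
        have h := mul_le_mul_of_nonneg_left (Real.add_one_le_exp (Y ω - ∫ ω, Y ω ∂P))
          (Real.exp_pos (∫ ω, Y ω ∂P)).le
        rw [← Real.exp_add, add_sub_cancel] at h
        linarith
      rw [integral_const_mul, integral_add (integrable_const _) (iY.sub' (integrable_const _)),
        integral_sub iY (integrable_const _)] at h2
      simpa using h2
    refine (inv_anti₀ (Real.exp_pos _) h1).trans ?_
    rw [← Real.exp_neg]
    refine Real.exp_le_exp.2 ((neg_le_abs _).trans ((abs_integral_le_integral_abs).trans ?_))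
    refine (integral_mono iY.abs (hT1.1.const_mul C) bY).trans ?_
    rw [integral_const_mul, mul_assoc]
    exact mul_le_mul_of_nonneg_left hT1.2 hC0
  have hlt := log_taylor2 hpos
  set e1 := Real.exp (D * t)
  have he1 : 1 ≤ e1 := Real.one_le_exp (by positivity)
  have hx3 : |x| ^ 3 ≤ C ^ 3 * M ^ 3 * (t ^ 3 * e1 ^ 3) :=
    (pow_le_pow_left₀ (abs_nonneg x) hxI 3).trans_eq (by ring)
  set B := C ^ 6 * M ^ 3 * (t ^ 3 * Real.exp ((3 * D + C * M + C) * t) * E)
  have hB0 : 0 ≤ B := by positivity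
  have t1 : t ≤ Real.exp ((C * M + C) * t) := by
    have := Real.add_one_le_exp ((C * M + C) * t)
    nlinarith [mul_nonneg (mul_nonneg hC0 (by linarith : (0 : ℝ) ≤ M)) ht]
  have hexpB : e1 ^ 3 * Real.exp ((C * M + C) * t) = Real.exp ((3 * D + C * M + C) * t) := by
    simp only [e1]
    rw [← Real.exp_nat_mul, ← Real.exp_add]
    congr 1; push_cast; ring
  have key : ∀ (c : ℝ) (i j k l : ℕ), 0 ≤ c → i ≤ 6 → j ≤ 3 → k ≤ 3 → l ≤ 1 →
      c * (C ^ i * M ^ j * (t ^ 3 * t ^ l * e1 ^ k)) ≤ c * B := fun c i j k l hc hi hj hk' hl => by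
    refine mul_le_mul_of_nonneg_left ?_ hc
    have a1 : C ^ i ≤ C ^ 6 := pow_le_pow_right₀ hC hi
    have a2 : M ^ j ≤ M ^ 3 := pow_le_pow_right₀ hM hj
    have a3 : e1 ^ k ≤ e1 ^ 3 := pow_le_pow_right₀ he1 hk'
    have a4 : t ^ l ≤ Real.exp ((C * M + C) * t) := by
      rcases Nat.le_one_iff_eq_zero_or_eq_one.1 hl with rfl | rfl
      · simpa using Real.one_le_exp (by positivity : 0 ≤ (C * M + C) * t)
      · simpa using t1
    calc C ^ i * M ^ j * (t ^ 3 * t ^ l * e1 ^ k)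
        ≤ C ^ 6 * M ^ 3 * (t ^ 3 * Real.exp ((C * M + C) * t) * e1 ^ 3) := by gcongr
      _ ≤ C ^ 6 * M ^ 3 * (t ^ 3 * Real.exp ((C * M + C) * t) * e1 ^ 3 * E) := by
          exact mul_le_mul_of_nonneg_left (le_mul_of_one_le_right (by positivity) hE1) (by positivity)
      _ = B := by simp only [B]; rw [← hexpB]; ring
  have b1 : 9 * |x| ^ 3 * (1 + (1 + x)⁻¹) ≤ 18 * B := by
    have : 9 * |x| ^ 3 * (1 + (1 + x)⁻¹) ≤ 18 * (C ^ 3 * M ^ 3 * (t ^ 3 * e1 ^ 3)) * E := by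
      have h1 : 1 + (1 + x)⁻¹ ≤ 2 * E := by linarith
      calc 9 * |x| ^ 3 * (1 + (1 + x)⁻¹) ≤ 9 * (C ^ 3 * M ^ 3 * (t ^ 3 * e1 ^ 3)) * (2 * E) :=
            mul_le_mul (by linarith) h1 (by have := inv_pos.2 hpos; linarith) (by positivity)
        _ = _ := by ring
    refine this.trans ?_
    have hc : C ^ 3 ≤ C ^ 6 := pow_le_pow_right₀ hC (by norm_num)
    have he : e1 ^ 3 ≤ Real.exp ((3 * D + C * M + C) * t) := by
      rw [← hexpB]
      exact le_mul_of_one_le_right (by positivity) (Real.one_le_exp (by positivity))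
    calc 18 * (C ^ 3 * M ^ 3 * (t ^ 3 * e1 ^ 3)) * E
        ≤ 18 * (C ^ 6 * M ^ 3 * (t ^ 3 * Real.exp ((3 * D + C * M + C) * t))) * E := by gcongr
      _ = 18 * B := by simp only [B]; ring
  have hw : |w| ≤ 2 * C ^ 2 * (M * t ^ 2 * e1) := hVI
  have hu : |u| ≤ C * (M * t * e1) := hLI
  have hxu : |x - u| ≤ 8 * C ^ 3 * (M * t ^ 3 * e1) + 2 * C ^ 2 * (M * t ^ 2 * e1) :=
    calc |x - u| = |(x - u - w) + w| := by ring_nf
      _ ≤ _ := (abs_add_le _ _).trans (add_le_add hR hw)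
  have b2 : |x ^ 2 / 2 - u ^ 2 / 2| ≤ 10 * B := by
    rw [show x ^ 2 / 2 - u ^ 2 / 2 = (x - u) * ((x + u) / 2) by ring, abs_mul]
    have h2 : |(x + u) / 2| ≤ C * (M * t * e1) := by
      rw [abs_div, abs_two, div_le_iff₀ two_pos]
      exact (abs_add_le _ _).trans (by linarith [hxI])
    refine (mul_le_mul hxu h2 (abs_nonneg _) (by positivity)).trans ?_
    have k1 := key 8 4 2 2 1 (by norm_num) (by norm_num) (by norm_num) (by norm_num) le_rfl
    have k2 := key 2 3 2 2 0 (by norm_num) (by norm_num) (by norm_num) (by norm_num) (by norm_num)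
    linarith
  have b3 : 8 * C ^ 3 * (M * t ^ 3 * e1) ≤ 8 * B := by
    have := key 8 3 1 1 0 (by norm_num) (by norm_num) (by norm_num) (by norm_num) (by norm_num)
    linarith
  rw [hint]
  calc |Real.log (1 + x) - (u + (w - u ^ 2 / 2))|
      = |(Real.log (1 + x) - x + x ^ 2 / 2) + (x - u - w) + (-(x ^ 2 / 2 - u ^ 2 / 2))| := by ring_nf
    _ ≤ |Real.log (1 + x) - x + x ^ 2 / 2| + |x - u - w| + |-(x ^ 2 / 2 - u ^ 2 / 2)| := abs_add_three _ _ _
    _ ≤ 36 * B := by rw [abs_neg]; linarith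
    _ ≤ _ := by simp only [B]; nlinarith

end step

end Vale.Agent.P157.RSB
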