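import Vale.Agent.P157.Critical

/-!
The replica-symmetric formula fails on the cube for high-frequency cosine potentials.
-/

namespace Vale.Agent.P157

open MeasureTheory ProbabilityTheory Filter
open scoped RealInnerProductSpace Topology

variable {l t α : ℝ}

/-- The log-potential with `exp f = 1 - l cos (t x)`. -/
noncomputable def cosPot (l t : ℝ) (x : ℝ) : ℝ := Real.log (1 - l * Real.cos (t * x))

lemma one_sub_cos_bounds (hl0 : 0 ≤ l) (hl : l < 1) (x : ℝ) :
    0 < 1 - l * Real.cos x ∧ 1 - l * Real.cos x ≤ 2 := by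
  have h1 := mul_le_mul_of_nonneg_left (Real.cos_le_one x) hl0
  have h2 := mul_le_mul_of_nonneg_left (Real.neg_one_le_cos x) hl0
  constructor <;> linarith

lemma integral_cos_std (s : ℝ) :
    ∫ z, Real.cos (s * z) ∂gaussianReal 0 1 = Real.exp (-s ^ 2 / 2) := by
  have hi : Integrable (fun z : ℝ => Complex.exp ((s * z : ℝ) * Complex.I)) (gaussianReal 0 1) :=
    Integrable.mono' (integrable_const (1 : ℝ)) (Continuous.aestronglyMeasurable (by fun_prop))
      (Filter.Eventually.of_forall fun z => by simp [Complex.norm_exp])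
  have h := congrArg Complex.re (integral_cexp_gaussian s)
  rw [show (∫ z : ℝ, Complex.exp ((s * z : ℝ) * Complex.I) ∂gaussianReal 0 1).re =
      ∫ z, Real.cos (s * z) ∂gaussianReal 0 1 from
    (Complex.reCLM.integral_comp_comm hi).symm.trans (integral_congr_ae
      (Filter.Eventually.of_forall fun z => Complex.exp_ofReal_mul_I_re _)),
    show -(s : ℂ) ^ 2 / 2 = ((-s ^ 2 / 2 : ℝ) : ℂ) by push_cast; ring, ← Complex.ofReal_exp,
    Complex.ofReal_re] at h
  exact h

/-- The symmetric measure of the cosine potential. -/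
noncomputable def cosMeas (l t : ℝ) : Measure ℝ :=
  ENNReal.ofReal (l / 2) • (Measure.dirac t + Measure.dirac (-t))

lemma integral_cosMeas (hl0 : 0 ≤ l) (φ : ℝ → ℝ) :
    ∫ s, φ s ∂cosMeas l t = l / 2 * (φ t + φ (-t)) := by
  rw [cosMeas, integral_smul_measure, integral_add_measure (integrable_dirac (by simp))
    (integrable_dirac (by simp)), integral_dirac, integral_dirac,
    ENNReal.toReal_ofReal (by linarith), smul_eq_mul]

lemma ker_cosPot (hl0 : 0 ≤ l) (hl : l < 1) : Ker (cosPot l t) 1 (cosMeas l t) where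
  fin := Measure.smul_finite _ ENNReal.ofReal_ne_top
  symm := by
    rw [cosMeas, Measure.map_smul, Measure.map_add _ _ measurable_neg,
      Measure.map_dirac' measurable_neg, Measure.map_dirac' measurable_neg, neg_neg, add_comm]
  lt := by
    have h : (cosMeas l t).real Set.univ = ∫ _, (1 : ℝ) ∂cosMeas l t := by simp
    rw [h, integral_cosMeas hl0]
    linarith
  eq x := by
    rw [cosPot, Real.exp_log (one_sub_cos_bounds hl0 hl _).1, integral_cosMeas hl0]
    rw [neg_mul, Real.cos_neg]
    ring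

lemma rsW_cosMeas (hl0 : 0 ≤ l) (q y : ℝ) :
    rsW (cosMeas l t) q y = l * damp q t * Real.cos (t * (Real.sqrt q * y)) := by
  rw [rsW, integral_cosMeas hl0, neg_mul, Real.cos_neg, damp, damp, neg_sq]
  ring

lemma rsS_cosMeas (hl0 : 0 ≤ l) (q y : ℝ) :
    rsS (cosMeas l t) q y = t * (l * damp q t) * Real.sin (t * (Real.sqrt q * y)) := by
  rw [rsS, integral_cosMeas hl0, neg_mul, neg_mul, Real.sin_neg, damp, damp, neg_sq]
  ring

/-- Halving the potential costs at most one bit per spin. -/
lemma cubePressure_le_half (hl0 : 0 ≤ l) (hl : l < 1) {N : ℕ} (hN : 1 ≤ N) (M : ℕ) :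
    cubePressure (cosPot l t) N M ≤ M / N * (2 * Real.log (∫ z, Real.exp (cosPot l t z / 2)
      ∂gaussianReal 0 1)) + Real.log 2 := by
  have hf := (ker_cosPot (t := t) hl0 hl).pot
  obtain ⟨B, hB⟩ : ∃ B, B = |Real.log (1 - (cosMeas l t).real Set.univ)| +
    |Real.log (1 + (cosMeas l t).real Set.univ)| := ⟨_, rfl⟩
  rw [← hB] at hf
  have hh : Pot (fun x => cosPot l t x / 2) (B / 2) := ⟨hf.meas.div_const 2, fun x => by
    rw [abs_div, abs_two]; exact div_le_div_of_nonneg_right (hf.bound x) two_pos.le⟩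
  have hv : Measurable (cubeVec N) := measurable_of_finite _
  have hN0 : (0 : ℝ) < N := by exact_mod_cast hN
  have h0 := annealed_upper (μ := cubeMeasure N) hh hv (norm_cubeVec hN) M _ Wt.one
  simp only [logI, integral_const, probReal_univ, one_smul, Real.log_one, zero_add] at h0
  rw [← cubeF_eq hf, cubeF, div_le_iff₀ hN0, add_mul,
    show (M : ℝ) / N * (2 * Real.log (∫ z, Real.exp (cosPot l t z / 2) ∂gaussianReal 0 1)) * N =
      2 * (M * Real.log (∫ z, Real.exp (cosPot l t z / 2) ∂gaussianReal 0 1)) by field_simp]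
  refine le_trans ?_ (add_le_add (mul_le_mul_of_nonneg_left h0 two_pos.le) le_rfl)
  rw [L_eq_integral hf hv M _ Wt.one, L_eq_integral hh hv M _ Wt.one]
  simp only [one_mul, integral_cube]
  set P := Measure.pi fun _ : Fin M => stdGaussian (EuclideanSpace ℝ (Fin N))
  have hint : ∀ (φ : ℝ → ℝ) (b : ℝ), Pot φ b → Integrable (fun g : Fin M → EuclideanSpace ℝ (Fin N) =>
      Real.log ((∑ σ, Real.exp (∑ i, φ ⟪g i, cubeVec N σ⟫)) / 2 ^ N)) P := fun φ b hφ => by
    refine Integrable.mono' (integrable_const ((M : ℝ) * b)) ?_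
      (Filter.Eventually.of_forall fun g => ?_)
    · exact ((Finset.measurable_sum _ fun σ _ => (Finset.measurable_sum _ fun i _ =>
        hφ.meas.comp ((measurable_pi_apply i).inner measurable_const)).exp).div_const _).log
        |>.aestronglyMeasurable
    · rw [Real.norm_eq_abs, ← integral_cube N fun σ => Real.exp (∑ i, φ ⟪g i, cubeVec N σ⟫)]
      refine abs_log_integral_exp_le (measurable_of_finite _) fun σ => ?_
      exact (Finset.abs_sum_le_sum_abs _ _).trans
        ((Finset.sum_le_sum fun i _ => hφ.bound _).trans_eq (by simp))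
  have h2 := (hint _ _ hh).const_mul 2
  refine le_trans ?_ (le_of_eq (by
    rw [integral_add h2 (integrable_const _), integral_const_mul, integral_const, probReal_univ,
      one_smul] : (∫ g : Fin M → EuclideanSpace ℝ (Fin N), (2 * Real.log ((∑ σ, Real.exp (∑ i, cosPot l t ⟪g i, cubeVec N σ⟫ / 2)) /
        2 ^ N) + Real.log 2 * N) ∂P) = _))
  refine integral_mono (hint _ _ hf) (h2.add (integrable_const _)) fun g => ?_
  set a : (Fin N → Bool) → ℝ := fun σ => Real.exp (∑ i, cosPot l t ⟪g i, cubeVec N σ⟫ / 2)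
  have he : ∀ σ, Real.exp (∑ i, cosPot l t ⟪g i, cubeVec N σ⟫) = a σ ^ 2 := fun σ => by
    simp only [a]
    rw [← Real.exp_nat_mul, ← Finset.sum_div]
    congr 1
    push_cast
    ring
  have hsq : ∑ σ, a σ ^ 2 ≤ (∑ σ, a σ) ^ 2 :=
    Finset.sum_sq_le_sq_sum_of_nonneg fun σ _ => (Real.exp_pos _).le
  have hpos : 0 < ∑ σ, a σ := Finset.sum_pos (fun σ _ => Real.exp_pos _) Finset.univ_nonempty
  have hpos2 : 0 < ∑ σ, a σ ^ 2 :=
    Finset.sum_pos (fun σ _ => pow_pos (Real.exp_pos _) 2) Finset.univ_nonempty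
  have h := Real.log_le_log hpos2 hsq
  rw [Real.log_pow] at h
  simp only [he]
  rw [show (∑ σ, Real.exp (∑ i, cosPot l t ⟪g i, cubeVec N σ⟫ / 2)) = ∑ σ, a σ from rfl,
    Real.log_div hpos2.ne' (by positivity), Real.log_div hpos.ne' (by positivity), Real.log_pow]
  push_cast at h
  linarith

/-- The halved potential has annealed weight at most `1 - l² / 24`. -/
lemma half_weight_le (hl0 : 0 ≤ l) (hl : l < 1) (t : ℝ) :
    Real.log (∫ z, Real.exp (cosPot l t z / 2) ∂gaussianReal 0 1) ≤ -(l ^ 2 / 24) := by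
  set c : ℝ → ℝ := fun z => Real.cos (t * z)
  set c2 : ℝ → ℝ := fun z => Real.cos (2 * t * z)
  have hbd : ∀ g : ℝ → ℝ, Continuous g → (∀ z, |g z| ≤ 1) → Integrable g (gaussianReal 0 1) :=
    fun g hg h => Integrable.mono' (integrable_const (1 : ℝ)) hg.aestronglyMeasurable
      (Filter.Eventually.of_forall h)
  have hc : Integrable c (gaussianReal 0 1) := hbd c (by fun_prop) fun z => Real.abs_cos_le_one _
  have hc2 : Integrable c2 (gaussianReal 0 1) := hbd c2 (by fun_prop) fun z => Real.abs_cos_le_one _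
  set up : ℝ → ℝ := fun z => 1 - l / 2 * c z - l ^ 2 / 12 * (1 + c2 z) / 2
  have hup : Integrable up (gaussianReal 0 1) :=
    ((integrable_const 1).sub (hc.const_mul _)).sub
      ((((integrable_const 1).add hc2).const_mul _).div_const 2)
  have hi : Integrable (fun z => Real.exp (cosPot l t z / 2)) (gaussianReal 0 1) := by
    have hm : Continuous fun z => Real.exp (cosPot l t z / 2) :=
      Real.continuous_exp.comp (((continuous_const.sub (continuous_const.mul
        (Real.continuous_cos.comp (continuous_const.mul continuous_id)))).log fun z =>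
          (one_sub_cos_bounds hl0 hl _).1.ne').div_const 2)
    refine Integrable.mono' (integrable_const (2 : ℝ)) hm.aestronglyMeasurable
      (Filter.Eventually.of_forall fun z => ?_)
    obtain ⟨h1, h2⟩ := one_sub_cos_bounds hl0 hl (t * z)
    rw [Real.norm_eq_abs, abs_of_pos (Real.exp_pos _), cosPot, ← Real.log_sqrt h1.le,
      Real.exp_log (Real.sqrt_pos.2 h1), Real.sqrt_le_left two_pos.le]
    linarith
  have hle : ∀ z, Real.exp (cosPot l t z / 2) ≤ up z := fun z => by
    obtain ⟨h1, h2⟩ := one_sub_cos_bounds hl0 hl (t * z)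
    rw [cosPot, ← Real.log_sqrt h1.le, Real.exp_log (Real.sqrt_pos.2 h1)]
    set u := 1 - l * Real.cos (t * z) with hu
    have hs := Real.sq_sqrt h1.le
    have hs0 := Real.sqrt_nonneg u
    have hs2 : Real.sqrt u ≤ 71 / 50 := by
      rw [Real.sqrt_le_left (by norm_num)]; linarith
    have key : (u - 1) ^ 2 ≤ 6 * (2 * ((u + 1) / 2 - Real.sqrt u)) := by
      have e : (u - 1) ^ 2 = (Real.sqrt u - 1) ^ 2 * (Real.sqrt u + 1) ^ 2 := by
        rw [← mul_pow, show (Real.sqrt u - 1) * (Real.sqrt u + 1) = Real.sqrt u ^ 2 - 1 by ring, hs]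
      rw [e, show (2 * ((u + 1) / 2 - Real.sqrt u)) = (Real.sqrt u - 1) ^ 2 by nlinarith,
        mul_comm (6 : ℝ)]
      exact mul_le_mul_of_nonneg_left (by nlinarith) (sq_nonneg _)
    have hd : c2 z = 2 * c z ^ 2 - 1 := by
      simp only [c2, c]; rw [mul_assoc]; exact Real.cos_two_mul _
    simp only [up, hd, c]
    nlinarith [hu]
  have hval : ∫ z, up z ∂gaussianReal 0 1 =
      1 - l / 2 * Real.exp (-t ^ 2 / 2) - l ^ 2 / 12 * (1 + Real.exp (-(2 * t) ^ 2 / 2)) / 2 := by
    simp only [up]
    rw [integral_sub ((integrable_const 1).sub' (hc.const_mul _))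
        ((((integrable_const (1 : ℝ)).fun_add hc2).const_mul _).div_const 2),
      integral_sub (integrable_const (1 : ℝ)) (hc.const_mul _), integral_div, integral_const_mul,
      integral_const_mul, integral_add (integrable_const (1 : ℝ)) hc2, integral_cos_std,
      integral_cos_std]
    simp
  have hpos : 0 < ∫ z, Real.exp (cosPot l t z / 2) ∂gaussianReal 0 1 := integral_exp_pos hi
  refine (Real.log_le_log hpos ((integral_mono hi hup hle).trans_eq hval)).trans ?_
  have hb : ∀ s : ℝ, Real.exp (-s ^ 2 / 2) ≤ 1 := fun s =>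
    Real.exp_le_one_iff.2 (by nlinarith [sq_nonneg s])
  have hpos' : 0 < 1 - l / 2 * Real.exp (-t ^ 2 / 2) -
      l ^ 2 / 12 * (1 + Real.exp (-(2 * t) ^ 2 / 2)) / 2 := by
    nlinarith [hb t, hb (2 * t), mul_le_mul_of_nonneg_left (hb t) hl0,
      mul_le_mul_of_nonneg_left (hb (2 * t)) (sq_nonneg l), sq_nonneg l]
  refine (Real.log_le_sub_one_of_pos hpos').trans ?_
  have hl2 : l ^ 2 ≤ l := by nlinarith
  nlinarith [Real.exp_pos (-t ^ 2 / 2), Real.exp_pos (-(2 * t) ^ 2 / 2),
    mul_le_mul_of_nonneg_left (hb (2 * t)) (sq_nonneg l),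
    mul_nonneg hl0 (Real.exp_pos (-t ^ 2 / 2)).le]

lemma integral_abs_std_pos : 0 < ∫ z, |z| ∂gaussianReal 0 1 := by
  rw [integral_pos_iff_support_of_nonneg (fun z => abs_nonneg z)
    (IsGaussian.integrable_id (μ := gaussianReal 0 1)).abs]
  have h : Function.support (fun z : ℝ => |z|) = {(0 : ℝ)}ᶜ := by
    ext z; simp
  have := noAtoms_gaussianReal (μ := 0) one_ne_zero
  rw [h, measure_compl (measurableSet_singleton 0) (measure_ne_top _ _), measure_singleton]
  simp

lemma abs_mul_le_lcE {s : ℝ} (hs : 0 ≤ s) :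
    s * (∫ z, |z| ∂gaussianReal 0 1) - Real.log 2 ≤ lcE s := by
  have hm : Continuous fun z : ℝ => Real.log (Real.cosh (s * z)) :=
    (Real.continuous_cosh.comp (continuous_const.mul continuous_id)).log fun z => (Real.cosh_pos _).ne'
  have hz : Integrable (fun z : ℝ => |z|) (gaussianReal 0 1) :=
    (IsGaussian.integrable_id (μ := gaussianReal 0 1)).abs
  have hi : Integrable (fun z : ℝ => Real.log (Real.cosh (s * z))) (gaussianReal 0 1) :=
    Integrable.mono' (hz.const_mul |s|) hm.aestronglyMeasurable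
      (Filter.Eventually.of_forall fun z => by simpa [abs_mul] using abs_log_cosh_le (s * z))
  have he : ∫ z, (s * |z| - Real.log 2) ∂gaussianReal 0 1 =
      s * (∫ z, |z| ∂gaussianReal 0 1) - Real.log 2 := by
    rw [integral_sub (hz.const_mul s) (integrable_const _), integral_const_mul]
    simp
  rw [← he]
  refine integral_mono ((hz.const_mul s).sub (integrable_const _)) hi fun z => ?_
  have h1 : Real.exp |s * z| / 2 ≤ Real.cosh (s * z) := by
    rw [Real.cosh_eq]
    refine div_le_div_of_nonneg_right ?_ two_pos.le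
    rcases abs_cases (s * z) with ⟨h, -⟩ | ⟨h, -⟩ <;> rw [h] <;>
      linarith [Real.exp_pos (s * z), Real.exp_pos (-(s * z))]
  have h2 := Real.log_le_log (by positivity) h1
  rw [Real.log_div (Real.exp_pos _).ne' two_ne_zero, Real.log_exp, abs_mul, abs_of_nonneg hs] at h2
  exact h2

/-- For high frequency every replica-symmetric value is almost nonnegative. -/
lemma gardnerIsing_cos_lower (hl0 : 0 < l) (hl : l < 1) (hα : 0 < α) {η : ℝ} (hη : 0 < η) :
    ∀ᶠ t in atTop, ∀ q, 0 ≤ q → q < 1 → -η ≤ gardnerIsing (cosPot l t) α q := by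
  set C := 1 / (1 - l) + 1 / (1 - l) ^ 2
  have hC : 0 < C := by have : 0 < 1 - l := by linarith
                        positivity
  obtain ⟨δ, hδ0, hδ1, hδ⟩ : ∃ δ, 0 < δ ∧ δ < 1 ∧ α * δ * C ≤ η := by
    refine ⟨min (η / (α * C)) (1 / 2), lt_min (by positivity) (by norm_num),
      (min_le_right _ _).trans_lt (by norm_num), ?_⟩
    calc α * min (η / (α * C)) (1 / 2) * C ≤ α * (η / (α * C)) * C :=
          mul_le_mul_of_nonneg_right (mul_le_mul_of_nonneg_left (min_le_left _ _) hα.le) hC.le
      _ = η := by field_simp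
  set c := ∫ z, |z| ∂gaussianReal 0 1
  have hc : 0 < c := integral_abs_std_pos
  have ev1 : ∀ᶠ t : ℝ in atTop, 1 ≤ t := eventually_ge_atTop 1
  have ev2 : ∀ᶠ t : ℝ in atTop, 4 * -Real.log δ ≤ t :=
    eventually_ge_atTop _
  have ev3 : ∀ᶠ t : ℝ in atTop, (α * -Real.log (1 - l) + α / (2 * (1 - l) ^ 2) + Real.log 2) /
      (Real.sqrt α * δ * c / 4) ≤ t := eventually_ge_atTop _
  filter_upwards [ev1, ev2, ev3] with t ht1 ht2 ht3
  intro q hq0 hq1
  have hk := ker_cosPot (t := t) hl0.le hl
  have := hk.fin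
  rw [gardnerIsing, gardnerEnergy_eq hk hq0 hq1, gardnerOverlap_eq hk hq0 hq1]
  set L := l * damp q t
  set r := rsR 1 (cosMeas l t) q
  set A := rsA 1 (cosMeas l t) q
  change -η ≤ α * A - α * r * (1 - q) / 2 + lcE (Real.sqrt (α * r))
  set lam := (1 - q) * t ^ 2 with hlam
  have hlam0 : 0 ≤ lam := mul_nonneg (by linarith) (sq_nonneg t)
  have hdamp : damp q t = Real.exp (-lam / 2) := by
    rw [damp, hlam]; congr 1; ring
  have hL0 : 0 < L := mul_pos hl0 (Real.exp_pos _)
  have hLl : L ≤ l := mul_le_of_le_one_right hl0.le (damp_le_one hq1.le t)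
  have hl' : 0 < 1 - l := by linarith
  -- entropy
  have hA : Real.log (1 - L) ≤ A := by
    have hWm := (continuous_rsW (ν := cosMeas l t) hq1.le).measurable
    have hb : ∀ y, 1 - L ≤ 1 - rsW (cosMeas l t) q y ∧ 1 - rsW (cosMeas l t) q y ≤ 2 := fun y => by
      rw [rsW_cosMeas hl0.le]
      have h1 := mul_le_mul_of_nonneg_left (Real.cos_le_one (t * (Real.sqrt q * y))) hL0.le
      have h2 := mul_le_mul_of_nonneg_left (Real.neg_one_le_cos (t * (Real.sqrt q * y))) hL0.le
      constructor <;> linarith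
    have hi : Integrable (fun y => Real.log (1 - rsW (cosMeas l t) q y)) (gaussianReal 0 1) :=
      Integrable.mono' (integrable_const (|Real.log (1 - L)| + |Real.log 2|))
        (hWm.const_sub 1).log.aestronglyMeasurable (Filter.Eventually.of_forall fun y => by
          have m1 := Real.log_le_log (by linarith : 0 < 1 - L) (hb y).1
          have m2 := Real.log_le_log (by linarith [(hb y).1] : 0 < 1 - rsW (cosMeas l t) q y) (hb y).2
          rw [Real.norm_eq_abs, abs_le]
          constructor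
          · linarith [neg_abs_le (Real.log (1 - L)), abs_nonneg (Real.log 2)]
          · linarith [le_abs_self (Real.log 2), abs_nonneg (Real.log (1 - L))])
    refine le_trans (le_of_eq (by simp)) (integral_mono (integrable_const (Real.log (1 - L))) hi fun y =>
      Real.log_le_log (by linarith) (hb y).1)
  -- conjugate overlap
  set G : ℝ → ℝ := fun y => (rsS (cosMeas l t) q y / (1 - rsW (cosMeas l t) q y)) ^ 2
  have hG : ∀ y, G y = (t * L) ^ 2 * (Real.sin (t * (Real.sqrt q * y)) /
      (1 - L * Real.cos (t * (Real.sqrt q * y)))) ^ 2 := fun y => by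
    simp only [G, rsW_cosMeas hl0.le, rsS_cosMeas hl0.le]
    rw [← mul_pow, mul_div_assoc]
  have hGb : ∀ y, (t * L) ^ 2 * (Real.sin (t * (Real.sqrt q * y)) ^ 2 / 4) ≤ G y ∧
      G y ≤ (t * L) ^ 2 / (1 - l) ^ 2 := fun y => by
    set x := t * (Real.sqrt q * y)
    obtain ⟨h1, h2⟩ := one_sub_cos_bounds hL0.le (hLl.trans_lt hl) x
    rw [hG]
    refine ⟨mul_le_mul_of_nonneg_left ?_ (sq_nonneg _), ?_⟩
    · rw [div_pow, show (4 : ℝ) = 2 ^ 2 by norm_num]
      exact div_le_div_of_nonneg_left (sq_nonneg _) (pow_pos h1 2) (pow_le_pow_left₀ h1.le h2 2)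
    · rw [div_pow, div_eq_mul_one_div ((t * L) ^ 2) ((1 - l) ^ 2)]
      refine mul_le_mul_of_nonneg_left (div_le_div₀ zero_le_one (Real.sin_sq_le_one x)
        (pow_pos hl' 2) (pow_le_pow_left₀ hl'.le ?_ 2)) (sq_nonneg _)
      have := mul_le_mul_of_nonneg_left (Real.cos_le_one x) hL0.le
      linarith
  have hGm : Measurable G :=
    (((continuous_rsS (ν := cosMeas l t) hq1).measurable).div
      ((continuous_rsW (ν := cosMeas l t) hq1.le).measurable.const_sub 1)).pow_const 2
  have hGi : Integrable G (gaussianReal 0 1) := Integrable.mono'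
    (integrable_const ((t * L) ^ 2 / (1 - l) ^ 2)) hGm.aestronglyMeasurable
    (Filter.Eventually.of_forall fun y => by
      rw [Real.norm_eq_abs, abs_of_nonneg (sq_nonneg _)]; exact (hGb y).2)
  have hr0 : 0 ≤ r := rsR_nonneg
  have hr : r ≤ (t * L) ^ 2 / (1 - l) ^ 2 :=
    (integral_mono hGi (integrable_const _) fun y => (hGb y).2).trans_eq (by simp)
  have hrq : r * (1 - q) ≤ lam * L ^ 2 / (1 - l) ^ 2 :=
    (mul_le_mul_of_nonneg_right hr (by linarith)).trans_eq (by rw [hlam]; ring)
  rcases le_or_gt L δ with hLd | hLd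
  · have hlc : 0 ≤ lcE (Real.sqrt (α * r)) :=
      integral_nonneg fun z => Real.log_nonneg (Real.one_le_cosh _)
    have hA' : -(δ / (1 - l)) ≤ A := by
      refine le_trans ?_ hA
      refine le_trans ?_ (Real.one_sub_inv_le_log_of_pos (by linarith : 0 < 1 - L))
      have hne : (1 : ℝ) - L ≠ 0 := by linarith
      rw [show 1 - (1 - L)⁻¹ = -(L / (1 - L)) by field_simp; ring]
      exact neg_le_neg (div_le_div₀ hδ0.le hLd hl' (by linarith))
    have hlL : lam * L ^ 2 ≤ 2 * δ := by
      have h1 : lam / 2 * Real.exp (-lam / 2) ≤ 1 := by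
        rw [show -lam / 2 = -(lam / 2) by ring, Real.exp_neg, ← div_eq_mul_inv,
          div_le_one (Real.exp_pos _)]
        linarith [Real.add_one_le_exp (lam / 2)]
      calc lam * L ^ 2 = 2 * (lam / 2 * Real.exp (-lam / 2)) * (L * l) := by
            simp only [L, hdamp]; ring
        _ ≤ 2 * 1 * (L * 1) := by gcongr
        _ ≤ 2 * δ := by linarith
    have hr2 : r * (1 - q) / 2 ≤ δ / (1 - l) ^ 2 := by
      refine (div_le_div_of_nonneg_right (hrq.trans
        (div_le_div_of_nonneg_right hlL (by positivity))) two_pos.le).trans_eq (by ring)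
    have : α * δ * C = α * (δ / (1 - l)) + α * (δ / (1 - l) ^ 2) := by simp only [C]; ring
    have h1 := mul_le_mul_of_nonneg_left hA' hα.le
    have h2 := mul_le_mul_of_nonneg_left hr2 hα.le
    have e2 : α * r * (1 - q) / 2 = α * (r * (1 - q) / 2) := by ring
    linarith
  · have hlam2 : lam ≤ 2 * -Real.log δ := by
      have h : Real.log δ ≤ Real.log (damp q t) :=
        Real.log_le_log hδ0 (hLd.le.trans (mul_le_of_le_one_left (damp_nonneg q t) hl.le))
      rw [hdamp, Real.log_exp] at h
      linarith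
    have hq2 : 1 / 2 ≤ q := by
      by_contra h
      have ht2' : t ≤ t ^ 2 := by nlinarith
      have : t ^ 2 / 2 < lam := by rw [hlam]; nlinarith
      linarith
    have hlL : lam * L ^ 2 ≤ 1 := by
      have h1 : lam * Real.exp (-lam) ≤ 1 := by
        rw [Real.exp_neg, ← div_eq_mul_inv, div_le_one (Real.exp_pos _)]
        linarith [Real.add_one_le_exp lam]
      calc lam * L ^ 2 = l ^ 2 * (lam * Real.exp (-lam)) := by
            simp only [L, hdamp]
            rw [show -lam = -lam / 2 + -lam / 2 by ring, Real.exp_add]; ring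
        _ ≤ 1 * 1 := mul_le_mul (pow_le_one₀ hl0.le hl.le) h1 (by positivity) zero_le_one
        _ = 1 := one_mul 1
    have hA' : Real.log (1 - l) ≤ A :=
      (Real.log_le_log hl' (by linarith)).trans hA
    have hrlow : (t * δ / 4) ^ 2 ≤ r := by
      have hsin : ∫ y, Real.sin (t * (Real.sqrt q * y)) ^ 2 ∂gaussianReal 0 1 =
          (1 - Real.exp (-(2 * (t * Real.sqrt q)) ^ 2 / 2)) / 2 := by
        have e : ∀ y, Real.sin (t * (Real.sqrt q * y)) ^ 2 =
            (1 - Real.cos (2 * (t * Real.sqrt q) * y)) / 2 := fun y => by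
          rw [mul_assoc 2, Real.cos_two_mul, Real.sin_sq, mul_assoc]; ring
        simp only [e]
        rw [integral_div, integral_sub (integrable_const _)
          (Integrable.mono' (integrable_const (1 : ℝ)) (Continuous.aestronglyMeasurable (by fun_prop))
            (Filter.Eventually.of_forall fun y => Real.abs_cos_le_one _)), integral_cos_std]
        simp
      have h12 : 1 / 2 ≤ 1 - Real.exp (-(2 * (t * Real.sqrt q)) ^ 2 / 2) := by
        have h : (1 : ℝ) ≤ (2 * (t * Real.sqrt q)) ^ 2 / 2 := by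
          rw [mul_pow, mul_pow, Real.sq_sqrt hq0]; nlinarith
        have h' := Real.exp_le_exp.2 (neg_le_neg h)
        have he := Real.add_one_le_exp (1 : ℝ)
        have : Real.exp (-1 : ℝ) ≤ 1 / 2 := by
          rw [Real.exp_neg, one_div]; exact inv_anti₀ two_pos (by linarith)
        rw [show -((2 * (t * Real.sqrt q)) ^ 2 / 2) = -(2 * (t * Real.sqrt q)) ^ 2 / 2 by ring] at h'
        linarith
      have hsi : Integrable (fun y => (t * L) ^ 2 * (Real.sin (t * (Real.sqrt q * y)) ^ 2 / 4))
          (gaussianReal 0 1) :=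
        ((Integrable.mono' (integrable_const (1 : ℝ)) (Continuous.aestronglyMeasurable (by fun_prop))
          (Filter.Eventually.of_forall fun y => by
            rw [Real.norm_eq_abs, abs_of_nonneg (sq_nonneg _)]
            exact Real.sin_sq_le_one _)).div_const 4).const_mul _
      refine le_trans ?_ (integral_mono hsi hGi fun y => (hGb y).1)
      rw [integral_const_mul, integral_div, hsin]
      have htd : (t * δ) ^ 2 ≤ (t * L) ^ 2 :=
        pow_le_pow_left₀ (by positivity) (mul_le_mul_of_nonneg_left hLd.le (by linarith)) 2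
      nlinarith [sq_nonneg (t * L)]
    have hs : Real.sqrt α * (t * δ / 4) ≤ Real.sqrt (α * r) := by
      rw [Real.sqrt_mul hα.le]
      exact mul_le_mul_of_nonneg_left ((Real.le_sqrt (by positivity) hr0).2 hrlow) (Real.sqrt_nonneg _)
    have hlc := abs_mul_le_lcE (Real.sqrt_nonneg (α * r))
    rw [div_le_iff₀ (by positivity)] at ht3
    have e : α * (r * (1 - q) / 2) ≤ α / (2 * (1 - l) ^ 2) := by
      refine (mul_le_mul_of_nonneg_left (div_le_div_of_nonneg_right (hrq.trans
        (div_le_div_of_nonneg_right hlL (by positivity))) two_pos.le) hα.le).trans_eq ?_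
      rw [div_div, mul_one_div, mul_comm ((1 - l) ^ 2) 2]
    have h1 := mul_le_mul_of_nonneg_left hA' hα.le
    have h3 := mul_le_mul_of_nonneg_right hs hc.le
    have e1 : Real.sqrt α * (t * δ / 4) * c = t * (Real.sqrt α * δ * c / 4) := by ring
    rw [e1] at h3
    have e2 : α * r * (1 - q) / 2 = α * (r * (1 - q) / 2) := by ring
    linarith

/-- For `α l² > 12 log 2` and high frequency, the limit lies uniformly below every
replica-symmetric value. -/
theorem rs_fails_cube (hl0 : 0 < l) (hl : l < 1) (hα : 12 * Real.log 2 < α * l ^ 2) :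
    ∀ᶠ t in atTop, ∃ p, Tendsto (fun N : ℕ => cubePressure (cosPot l t) N ⌊α * N⌋₊) atTop (𝓝 p) ∧
      ∃ γ, 0 < γ ∧ ∀ q, 0 ≤ q → q < 1 → p + γ ≤ gardnerIsing (cosPot l t) α q := by
  have h2 : 0 < Real.log 2 := Real.log_pos (by norm_num)
  have hα0 : 0 < α := pos_of_mul_pos_left (lt_trans (by positivity) hα) (sq_nonneg l)
  have hB : 0 < α * l ^ 2 / 12 - Real.log 2 := by linarith
  filter_upwards [gardnerIsing_cos_lower hl0 hl hα0 (half_pos hB)] with t ht
  have hk := ker_cosPot (t := t) hl0.le hl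
  have := hk.fin
  obtain ⟨⟨p, hp, -⟩, -⟩ := exists_limit hk.lt hk.eq hα0
  refine ⟨p, hp, (α * l ^ 2 / 12 - Real.log 2) / 2, half_pos hB, fun q hq0 hq1 => ?_⟩
  set w := Real.log (∫ z, Real.exp (cosPot l t z / 2) ∂gaussianReal 0 1)
  have hlim : Tendsto (fun N : ℕ => (⌊α * N⌋₊ : ℝ) / N * (2 * w) + Real.log 2) atTop
      (𝓝 (α * (2 * w) + Real.log 2)) :=
    (((tendsto_nat_floor_mul_div_atTop hα0.le).comp
      (tendsto_natCast_atTop_atTop (R := ℝ))).mul_const _).add_const _
  have hle : p ≤ α * (2 * w) + Real.log 2 := le_of_tendsto_of_tendsto hp hlim (by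
    filter_upwards [eventually_ge_atTop 1] with N hN using cubePressure_le_half hl0.le hl hN _)
  have hw : w ≤ -(l ^ 2 / 24) := half_weight_le hl0.le hl t
  have := ht q hq0 hq1
  nlinarith [mul_le_mul_of_nonneg_left hw hα0.le]

end Vale.Agent.P157
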