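import Vale.Agent.P157.RSB.Target

/-!
The nested functional of the fields, and its expansion when the fields grow.
-/

namespace Vale.Agent.P157.RSB

open MeasureTheory ProbabilityTheory Filter
open scoped RealInnerProductSpace Topology

variable {X : Type} [MeasurableSpace X] {E : Type} [NormedAddCommGroup E] [InnerProductSpace ℝ E]
  [FiniteDimensional ℝ E] [MeasurableSpace E] [BorelSpace E]

/-- The field increments at time `c`. -/
noncomputable def sh (c : ℝ) (i : Lev) (h : E) : E := Real.sqrt (c * i.2.2) • h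

/-- The nested log-partition function in the fields of time `c`. -/
noncomputable def fldPsi (μ : Measure X) (v : X → E) (ls : List Lev) (r0 c : ℝ) (w : X → ℝ) : ℝ :=
  ∫ h : E, casc (stdGaussian E) levM (sh c) ls (hBase μ w v) (Real.sqrt (c * r0) • h) ∂stdGaussian E

/-- The averaged level values of the magnetisation. -/
noncomputable def fldR (μ : Measure X) (v : X → E) (ls : List Lev) (r0 c : ℝ) (w : X → ℝ) (j : ℕ) : ℝ :=
  ∫ h : E, csq (stdGaussian E) levM (sh c) ls (hBase μ w v) (hMean μ w v) j (Real.sqrt (c * r0) • h)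
    ∂stdGaussian E

variable {ls : List Lev} {q0 r0 S : ℝ}

lemma good_sh (h : Ordered ls) (c : ℝ) : Good (stdGaussian E) levM (sh c) ls :=
  fun i hi => ⟨h.pos i hi, shift_smul _⟩

lemma lip_hBase_sum {μ : Measure X} [IsProbabilityMeasure μ] {w : X → ℝ} {v : X → E} (hw : Wt w)
    (hv : Measurable v) (hv1 : ∀ x, ‖v x‖ = 1) : Lip 2 fun p : E × E => hBase μ w v (p.1 + p.2) := by
  have hG := lip_hBase (μ := μ) hw hv hv1
  refine ⟨hG.meas.comp (by fun_prop), two_pos.le, fun x y => ?_⟩
  have e : (x + y).1 + (x + y).2 = x.1 + x.2 + (y.1 + y.2) := by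
    simp only [Prod.fst_add, Prod.snd_add]; abel
  rw [e]
  refine (hG.lip _ _).trans ?_
  rw [one_mul]
  have h1 := norm_fst_le y
  have h2 := norm_snd_le y
  linarith [norm_add_le y.1 y.2]

lemma integrable_hSq {μ : Measure X} [IsProbabilityMeasure μ] {w : X → ℝ} {v : X → E} (hw : Wt w)
    (hv : Measurable v) (hv1 : ∀ x, ‖v x‖ = 1) (H : E) (k : ℝ) :
    Integrable (fun z : E => hSq μ w v H (k • z)) (stdGaussian E) := by
  refine Integrable.mono' ((integrable_norm_pow (E := E) 2).const_mul (k ^ 2))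
    ((measurable_hSq (μ := μ) hw hv).comp (measurable_const.prodMk (measurable_id.const_smul k))).aestronglyMeasurable
    (Eventually.of_forall fun z => ?_)
  refine (abs_hSq_le (μ := μ) hw hv hv1 H (k • z)).trans_eq ?_
  rw [norm_smul, mul_pow, Real.norm_eq_abs, sq_abs]

lemma integrable_inner_sq' (b : E) (k : ℝ) :
    Integrable (fun z : E => ⟪b, k • z⟫ ^ 2) (stdGaussian E) := by
  refine Integrable.mono' ((integrable_norm_pow (E := E) 2).const_mul (‖b‖ ^ 2 * k ^ 2))
    ((measurable_const.inner (measurable_id.const_smul k)).pow_const 2).aestronglyMeasurable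
    (Eventually.of_forall fun z => ?_)
  rw [Real.norm_eq_abs, abs_pow, ← sq_abs k, ← mul_pow, ← mul_pow]
  refine pow_le_pow_left₀ (abs_nonneg _) ((abs_real_inner_le_norm _ _).trans (le_of_eq ?_)) 2
  rw [norm_smul, Real.norm_eq_abs]
  ring

/-- Letting time advance by `p`. -/
theorem field_lower (h : Adm ls q0 r0 S) :
    ∃ C p₁, 0 ≤ C ∧ 0 < p₁ ∧ ∀ {μ : Measure X} [IsProbabilityMeasure μ] {w : X → ℝ} {v : X → E},
      Wt w → Measurable v → (∀ x, ‖v x‖ = 1) → ∀ c p, 0 ≤ c → 0 ≤ p → p ≤ p₁ →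
      fldPsi μ v ls r0 c w + p / 2 * (r0 + (ls.map fun i => i.2.2).sum -
          pen levM (fun i => i.2.2) ls r0 (fldR μ v ls r0 c w)) - C * Real.sqrt p ^ 3 ≤
        fldPsi μ v ls r0 (c + p) w := by
  obtain ⟨Cf, hCf1, hCf⟩ := approx_field (X := X) (E := E)
  obtain ⟨C', hC'0, hexp⟩ := expand_mean (Z := E) (S := E) (F := E) levM ls h.ord.bounds hCf1
  have hrs : 0 ≤ (ls.map fun i => i.2.2).sum := List.sum_nonneg fun t ht => by
    obtain ⟨i, hi, rfl⟩ := List.mem_map.1 ht
    exact h.r_nonneg i hi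
  set R := 1 + r0 + (ls.map fun i => i.2.2).sum
  have hR0 : 0 < R := by linarith [h.r0_nonneg]
  have hr : ∀ i ∈ ls, i.2.2 ≤ R := fun i hi => by
    have h2 := List.single_le_sum (l := ls.map fun i => i.2.2) (fun t ht => by
      obtain ⟨k, hk, rfl⟩ := List.mem_map.1 ht
      exact h.r_nonneg k hk) _ (List.mem_map.2 ⟨i, hi, rfl⟩)
    linarith [h.r0_nonneg]
  refine ⟨C' * Real.sqrt R ^ 3, R⁻¹, by positivity, inv_pos.2 hR0, ?_⟩
  intro μ _ w v hw hv hv1 c p hc hp hp1
  set ε := Real.sqrt (R * p)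
  have hε1 : ε ≤ 1 := by
    refine Real.sqrt_le_one.2 ?_
    have := mul_le_mul_of_nonneg_left hp1 hR0.le
    rwa [mul_inv_cancel₀ hR0.ne'] at this
  have hG := lip_hBase (μ := μ) hw hv hv1
  have htop : ∀ (H : E) (t : ℝ), 0 ≤ t → ∫ z : E, (hSq μ w v H (Real.sqrt t • z) -
      ⟪hMean μ w v H, Real.sqrt t • z⟫ ^ 2) / 2 ∂stdGaussian E =
      ((fun _ : E => (1 : ℝ)) H * t + (fun _ : E => (0 : ℝ)) H - t * ‖hMean μ w v H‖ ^ 2) / 2 :=
    fun H t ht => by
      rw [integral_div, integral_sub (integrable_hSq hw hv hv1 H _) (integrable_inner_sq' _ _),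
        integral_hSq hw hv hv1 H ht, integral_inner_sq', Real.sq_sqrt ht]
      ring
  have key := hexp (γ := stdGaussian E) (σ := sh c) (e := fun i => p * i.2.2) (ε := ε)
    (P := stdGaussian E) (x := fun ω : E => Real.sqrt (c * r0) • ω) (acc := p * r0)
    (good_sh h.ord c)
    (fun i hi => ⟨mul_nonneg hp (h.r_nonneg i hi), Real.sqrt_le_sqrt
      (by rw [mul_comm R]; exact mul_le_mul_of_nonneg_left (hr i hi) hp)⟩)
    hε1 (mul_nonneg hp h.r0_nonneg)
    (Real.sqrt_le_sqrt (by rw [mul_comm R]; exact mul_le_mul_of_nonneg_left (by linarith) hp))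
    hG (lip_hBase_sum hw hv hv1) (hCf hw hv hv1 (Real.sqrt_nonneg _)) measurable_const measurable_const
    (fun _ => by rw [abs_one]; exact hCf1) (fun _ => by rw [abs_zero]; linarith) htop (shift_smul _)
  have hsplit : ∀ x g : E, casc ((stdGaussian E).prod (stdGaussian E)) levM
      (joint (sh c) fun i => p * i.2.2) ls (fun q : E × E => hBase μ w v (q.1 + q.2)) (x, g) =
      casc (stdGaussian E) levM (sh (c + p)) ls (hBase μ w v) (x + g) := fun x g =>
    casc_split h.ord.pos (a := fun i => Real.sqrt (c * i.2.2)) (c := fun i => Real.sqrt ((c + p) * i.2.2))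
      (e := fun i => p * i.2.2) (fun i hi => ⟨by
        rw [Real.sq_sqrt (mul_nonneg hc (h.r_nonneg i hi)),
          Real.sq_sqrt (mul_nonneg (by linarith) (h.r_nonneg i hi))]
        ring, mul_nonneg hp (h.r_nonneg i hi)⟩) hG x g
  have hmerge : ∫ x : E, ∫ g : E, casc ((stdGaussian E).prod (stdGaussian E)) levM
      (joint (sh c) fun i => p * i.2.2) ls (fun q : E × E => hBase μ w v (q.1 + q.2))
        (Real.sqrt (c * r0) • x, Real.sqrt (p * r0) • g) ∂stdGaussian E ∂stdGaussian E =
      fldPsi μ v ls r0 (c + p) w := by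
    simp only [hsplit]
    exact integral_merge (hG.casc (good_sh h.ord (c + p))) (mul_nonneg hp h.r0_nonneg)
      (c := Real.sqrt ((c + p) * r0))
      (by rw [Real.sq_sqrt (mul_nonneg hc h.r0_nonneg),
        Real.sq_sqrt (mul_nonneg (by linarith) h.r0_nonneg)]; ring)
  rw [hmerge] at key
  simp only [cmean_const hG _ (good_sh h.ord c), integral_const, probReal_univ, one_smul,
    List.sum_map_mul_left, pen_scale] at key
  have he : ε ^ 3 = Real.sqrt R ^ 3 * Real.sqrt p ^ 3 := by
    simp only [ε]; rw [Real.sqrt_mul hR0.le, mul_pow]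
  rw [he] at key
  have key2 := (abs_le.1 key).1
  have eR : fldR μ v ls r0 c w = fun j => ∫ h : E, csq (stdGaussian E) levM (sh c) ls (hBase μ w v)
      (hMean μ w v) j (Real.sqrt (c * r0) • h) ∂stdGaussian E := rfl
  rw [eR]
  simp only [fldPsi] at key2 ⊢
  linear_combination key2

end Vale.Agent.P157.RSB
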