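import Vale.Agent.P157.RSB.Casc
import Vale.Agent.P157.Kernel

/-!
A cone of functions of one pattern whose Gaussian averages are convex along the interpolation
between the pattern and the hierarchical target.
-/

namespace Vale.Agent.P157.RSB

open MeasureTheory ProbabilityTheory Filter
open scoped RealInnerProductSpace Topology

variable {E : Type} [NormedAddCommGroup E] [InnerProductSpace ℝ E] [FiniteDimensional ℝ E]
  [MeasurableSpace E] [BorelSpace E]

/-- The basic functions: damped waves in the pattern and the target variable. -/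
noncomputable def chr (u : E) (τ A s : ℝ) (p : E × ℝ) : ℝ :=
  Real.exp (-(1 - s) * A) * Real.cos (Real.sqrt s * ⟪p.1, u⟫ + Real.sqrt (1 - s) * (τ * p.2))

lemma abs_chr_le {u : E} {τ A s : ℝ} (hA : 0 ≤ A) (hs : s ∈ Set.Icc (0 : ℝ) 1) (p : E × ℝ) :
    |chr u τ A s p| ≤ 1 := by
  rw [chr, abs_mul, Real.abs_exp]
  refine mul_le_one₀ (Real.exp_le_one_iff.2 ?_) (abs_nonneg _) (Real.abs_cos_le_one _)
  nlinarith [hs.2]

lemma measurable_chr (u : E) (τ A s : ℝ) : Measurable (chr u τ A s) := by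
  unfold chr; fun_prop

lemma chr_mul (u u' : E) (τ τ' A A' s : ℝ) (p : E × ℝ) : chr u τ A s p * chr u' τ' A' s p =
    (chr (u + u') (τ + τ') (A + A') s p + chr (u - u') (τ - τ') (A + A') s p) / 2 := by
  simp only [chr, inner_add_right, inner_sub_right]
  set x := Real.sqrt s * ⟪p.1, u⟫ + Real.sqrt (1 - s) * (τ * p.2)
  set y := Real.sqrt s * ⟪p.1, u'⟫ + Real.sqrt (1 - s) * (τ' * p.2)
  rw [show Real.sqrt s * (⟪p.1, u⟫ + ⟪p.1, u'⟫) + Real.sqrt (1 - s) * ((τ + τ') * p.2) = x + y by
      simp only [x, y]; ring,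
    show Real.sqrt s * (⟪p.1, u⟫ - ⟪p.1, u'⟫) + Real.sqrt (1 - s) * ((τ - τ') * p.2) = x - y by
      simp only [x, y]; ring,
    show -(1 - s) * (A + A') = -(1 - s) * A + -(1 - s) * A' by ring, Real.exp_add, Real.cos_add x y,
    Real.cos_sub x y]
  ring

/-- Gaussian average of a shifted cosine. -/
lemma integral_cos_add (c k : ℝ) :
    ∫ y, Real.cos (c + k * y) ∂gaussianReal 0 1 = Real.cos c * Real.exp (-k ^ 2 / 2) := by
  have hi : Integrable (fun y => Complex.exp ((c + k * y : ℝ) * Complex.I)) (gaussianReal 0 1) :=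
    Integrable.mono' (integrable_const (1 : ℝ)) (Continuous.aestronglyMeasurable (by fun_prop))
      (Filter.Eventually.of_forall fun y => by simp [Complex.norm_exp])
  have h : ∫ y, Complex.exp ((c + k * y : ℝ) * Complex.I) ∂gaussianReal 0 1 =
      Complex.exp ((c : ℝ) * Complex.I) * Complex.exp (-(k : ℂ) ^ 2 / 2) := by
    rw [← integral_cexp_gaussian, ← integral_const_mul]
    refine integral_congr_ae (Filter.Eventually.of_forall fun y => ?_)
    simp only
    rw [← Complex.exp_add]; congr 1; push_cast; ring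
  have h' := congrArg Complex.re h
  rw [show -(k : ℂ) ^ 2 / 2 = ((-k ^ 2 / 2 : ℝ) : ℂ) by push_cast; ring, ← Complex.ofReal_exp,
    Complex.re_mul_ofReal, Complex.exp_ofReal_mul_I_re] at h'
  rw [← h']
  exact (integral_congr_ae (Filter.Eventually.of_forall fun y =>
    (Complex.exp_ofReal_mul_I_re _).symm)).trans (Complex.reCLM.integral_comp_comm hi)

lemma integral_cos_inner (c : ℝ) (u : E) :
    ∫ g, Real.cos (c + ⟪g, u⟫) ∂stdGaussian E = Real.cos c * Real.exp (-‖u‖ ^ 2 / 2) := by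
  have hi : Integrable (fun g => Complex.exp ((c + ⟪g, u⟫ : ℝ) * Complex.I)) (stdGaussian E) :=
    Integrable.mono' (integrable_const (1 : ℝ)) (Continuous.aestronglyMeasurable (by fun_prop))
      (Filter.Eventually.of_forall fun y => by simp [Complex.norm_exp])
  have h : ∫ g, Complex.exp ((c + ⟪g, u⟫ : ℝ) * Complex.I) ∂stdGaussian E =
      Complex.exp ((c : ℝ) * Complex.I) * Complex.exp (-((‖u‖ : ℂ) ^ 2) / 2) := by
    rw [← integral_cexp_inner, ← integral_const_mul]
    refine integral_congr_ae (Filter.Eventually.of_forall fun y => ?_)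
    simp only
    rw [← Complex.exp_add]; congr 1; push_cast; ring
  have h' := congrArg Complex.re h
  rw [show -((‖u‖ : ℂ) ^ 2) / 2 = ((-‖u‖ ^ 2 / 2 : ℝ) : ℂ) by push_cast; ring, ← Complex.ofReal_exp,
    Complex.re_mul_ofReal, Complex.exp_ofReal_mul_I_re] at h'
  rw [← h']
  exact (integral_congr_ae (Filter.Eventually.of_forall fun y =>
    (Complex.exp_ofReal_mul_I_re _).symm)).trans (Complex.reCLM.integral_comp_comm hi)

variable {Ω : Type} [MeasurableSpace Ω]

/-- A bounded family of test functions whose pairing with every basic function is convex. -/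
structure TestFn (P : Measure Ω) (π : Ω → E × ℝ) (G : ℝ → Ω → ℝ) : Prop where
  fin : IsFiniteMeasure P
  mpi : Measurable π
  meas : ∀ s, Measurable (G s)
  bdd : ∃ B, 0 ≤ B ∧ ∀ s ∈ Set.Icc (0 : ℝ) 1, ∀ ω, |G s ω| ≤ B
  conv : ∀ (u : E) (τ A : ℝ), 0 ≤ A →
    ConvexOn ℝ (Set.Icc 0 1) fun s => ∫ ω, G s ω * chr u τ A s (π ω) ∂P

/-- The cone: bounded functions that keep test families test families. -/
structure Pd (F : ℝ → E × ℝ → ℝ) (C : ℝ) : Prop where
  meas : ∀ s, Measurable (F s)
  nonneg : 0 ≤ C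
  bdd : ∀ s ∈ Set.Icc (0 : ℝ) 1, ∀ p, |F s p| ≤ C
  closed : ∀ (Ω : Type) [MeasurableSpace Ω] (P : Measure Ω) (π : Ω → E × ℝ) (G : ℝ → Ω → ℝ),
    TestFn P π G → TestFn P π fun s ω => G s ω * F s (π ω)

lemma convexOn_congr' {g g' : ℝ → ℝ} (h : ConvexOn ℝ (Set.Icc 0 1) g)
    (he : ∀ s ∈ Set.Icc (0 : ℝ) 1, g s = g' s) : ConvexOn ℝ (Set.Icc 0 1) g' :=
  h.congr he

variable {P : Measure Ω} {π : Ω → E × ℝ} {G G' : ℝ → Ω → ℝ}

lemma TestFn.integrable (h : TestFn P π G) {s : ℝ} (hs : s ∈ Set.Icc (0 : ℝ) 1) {φ : Ω → ℝ}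
    (hφ : Measurable φ) {c : ℝ} (hb : ∀ ω, |φ ω| ≤ c) : Integrable (fun ω => G s ω * φ ω) P := by
  have := h.fin
  obtain ⟨B, hB0, hB⟩ := h.bdd
  exact Integrable.mono' (integrable_const (B * c)) ((h.meas s).mul hφ).aestronglyMeasurable
    (Eventually.of_forall fun ω => by
      rw [Real.norm_eq_abs, abs_mul]; exact mul_le_mul (hB s hs ω) (hb ω) (abs_nonneg _) hB0)

/-- Linear combinations with nonnegative coefficients. -/
lemma TestFn.add_smul (h : TestFn P π G) (h' : TestFn P π G') {c c' : ℝ} (hc : 0 ≤ c) (hc' : 0 ≤ c') :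
    TestFn P π fun s ω => c * G s ω + c' * G' s ω where
  fin := h.fin
  mpi := h.mpi
  meas s := ((h.meas s).const_mul c).add ((h'.meas s).const_mul c')
  bdd := by
    obtain ⟨B, hB0, hB⟩ := h.bdd
    obtain ⟨B', hB0', hB'⟩ := h'.bdd
    refine ⟨c * B + c' * B', by positivity, fun s hs ω => (abs_add_le _ _).trans ?_⟩
    rw [abs_mul, abs_mul, abs_of_nonneg hc, abs_of_nonneg hc']
    exact add_le_add (mul_le_mul_of_nonneg_left (hB s hs ω) hc)
      (mul_le_mul_of_nonneg_left (hB' s hs ω) hc')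
  conv u τ A hA := by
    refine convexOn_congr' (((h.conv u τ A hA).smul hc).add ((h'.conv u τ A hA).smul hc')) fun s hs => ?_
    simp only [Pi.add_apply, smul_eq_mul, ← integral_const_mul]
    rw [← integral_add ((h.integrable hs (φ := fun ω => chr u τ A s (π ω)) ((measurable_chr u τ A s).comp h.mpi)
        fun ω => abs_chr_le hA hs _).const_mul c)
      ((h'.integrable hs (φ := fun ω => chr u τ A s (π ω)) ((measurable_chr u τ A s).comp h'.mpi)
        fun ω => abs_chr_le hA hs _).const_mul c')]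
    exact integral_congr_ae (Eventually.of_forall fun ω => by
      ring)

lemma convexOn_of_tendsto {g : ℕ → ℝ → ℝ} {l : ℝ → ℝ} (h : ∀ n, ConvexOn ℝ (Set.Icc 0 1) (g n))
    (hl : ∀ s ∈ Set.Icc (0 : ℝ) 1, Tendsto (fun n => g n s) atTop (𝓝 (l s))) :
    ConvexOn ℝ (Set.Icc 0 1) l := by
  refine ⟨convex_Icc _ _, fun x hx y hy a b ha hb hab => ?_⟩
  exact le_of_tendsto_of_tendsto (hl _ (convex_Icc _ _ hx hy ha hb hab))
    (((hl x hx).const_smul a).add ((hl y hy).const_smul b))
    (Eventually.of_forall fun n => (h n).2 hx hy ha hb hab)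

variable {F F' : ℝ → E × ℝ → ℝ} {C C' : ℝ}

lemma pd_chr (u : E) (τ : ℝ) {A : ℝ} (hA : 0 ≤ A) : Pd (chr u τ A) 1 where
  meas s := measurable_chr u τ A s
  nonneg := zero_le_one
  bdd _ hs p := abs_chr_le hA hs p
  closed Ω _ P π G h := by
    refine ⟨h.fin, h.mpi, fun s => (h.meas s).mul ((measurable_chr u τ A s).comp h.mpi), ?_,
      fun u' τ' A' hA' => ?_⟩
    · obtain ⟨B, hB0, hB⟩ := h.bdd
      exact ⟨B, hB0, fun s hs ω => by
        rw [abs_mul]
        exact (mul_le_of_le_one_right (abs_nonneg _) (abs_chr_le hA hs _)).trans (hB s hs ω)⟩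
    · refine convexOn_congr' (((h.conv (u + u') (τ + τ') (A + A') (add_nonneg hA hA')).add
        (h.conv (u - u') (τ - τ') (A + A') (add_nonneg hA hA'))).smul (show (0 : ℝ) ≤ 1 / 2 by norm_num))
        fun s hs => ?_
      simp only [Pi.add_apply, smul_eq_mul]
      rw [← integral_add (h.integrable hs (φ := fun ω => chr (u + u') (τ + τ') (A + A') s (π ω))
          ((measurable_chr _ _ _ s).comp h.mpi) fun ω => abs_chr_le (add_nonneg hA hA') hs _)
        (h.integrable hs (φ := fun ω => chr (u - u') (τ - τ') (A + A') s (π ω))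
          ((measurable_chr _ _ _ s).comp h.mpi) fun ω => abs_chr_le (add_nonneg hA hA') hs _),
        ← integral_const_mul]
      refine integral_congr_ae (Eventually.of_forall fun ω => ?_)
      simp only [mul_assoc (G s ω), chr_mul]
      ring

lemma pd_one : Pd (fun (_ : ℝ) (_ : E × ℝ) => (1 : ℝ)) 1 := by
  refine ⟨fun _ => measurable_const, zero_le_one, fun _ _ _ => by simp, fun Ω _ P π G h => ?_⟩
  simpa using h

lemma Pd.mul (h : Pd F C) (h' : Pd F' C') : Pd (fun s p => F s p * F' s p) (C * C') where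
  meas s := (h.meas s).mul (h'.meas s)
  nonneg := mul_nonneg h.nonneg h'.nonneg
  bdd s hs p := by
    rw [abs_mul]; exact mul_le_mul (h.bdd s hs p) (h'.bdd s hs p) (abs_nonneg _) h.nonneg
  closed Ω _ P π G hG := by
    have := h'.closed Ω P π _ (h.closed Ω P π G hG)
    simpa only [mul_assoc] using this

lemma Pd.pow (h : Pd F C) : ∀ n : ℕ, Pd (fun s p => F s p ^ n) (C ^ n)
  | 0 => by simpa using pd_one (E := E)
  | n + 1 => by simpa only [pow_succ] using (h.pow n).mul h

lemma Pd.add_smul (h : Pd F C) (h' : Pd F' C') {c c' : ℝ} (hc : 0 ≤ c) (hc' : 0 ≤ c') :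
    Pd (fun s p => c * F s p + c' * F' s p) (c * C + c' * C') where
  meas s := ((h.meas s).const_mul c).add ((h'.meas s).const_mul c')
  nonneg := add_nonneg (mul_nonneg hc h.nonneg) (mul_nonneg hc' h'.nonneg)
  bdd s hs p := by
    refine (abs_add_le _ _).trans ?_
    rw [abs_mul, abs_mul, abs_of_nonneg hc, abs_of_nonneg hc']
    exact add_le_add (mul_le_mul_of_nonneg_left (h.bdd s hs p) hc)
      (mul_le_mul_of_nonneg_left (h'.bdd s hs p) hc')
  closed Ω _ P π G hG := by
    have := (h.closed Ω P π G hG).add_smul (h'.closed Ω P π G hG) hc hc'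
    simpa only [mul_add, mul_left_comm (G _ _)] using this

/-- Bounded pointwise limits. -/
lemma pd_of_tendsto {Fn : ℕ → ℝ → E × ℝ → ℝ} {Cn : ℕ → ℝ} (h : ∀ n, Pd (Fn n) (Cn n))
    (hm : ∀ s, Measurable (F s)) (hC : 0 ≤ C) (hb : ∀ s ∈ Set.Icc (0 : ℝ) 1, ∀ p, |F s p| ≤ C)
    (hbn : ∀ n, ∀ s ∈ Set.Icc (0 : ℝ) 1, ∀ p, |Fn n s p| ≤ C)
    (hl : ∀ s ∈ Set.Icc (0 : ℝ) 1, ∀ p, Tendsto (fun n => Fn n s p) atTop (𝓝 (F s p))) : Pd F C where
  meas := hm
  nonneg := hC
  bdd := hb
  closed Ω _ P π G hG := by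
    have := hG.fin
    obtain ⟨B, hB0, hB⟩ := hG.bdd
    refine ⟨hG.fin, hG.mpi, fun s => (hG.meas s).mul ((hm s).comp hG.mpi), ⟨B * C,
      mul_nonneg hB0 hC, fun s hs ω => by
        rw [abs_mul]; exact mul_le_mul (hB s hs ω) (hb s hs _) (abs_nonneg _) hB0⟩,
      fun u τ A hA => ?_⟩
    refine convexOn_of_tendsto (g := fun n s => ∫ ω, G s ω * Fn n s (π ω) * chr u τ A s (π ω) ∂P)
      (fun n => ((h n).closed Ω P π G hG).conv u τ A hA) fun s hs => ?_
    refine tendsto_integral_of_dominated_convergence (fun _ => B * C) (fun n =>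
      (((hG.meas s).mul (((h n).meas s).comp hG.mpi)).mul
        ((measurable_chr u τ A s).comp hG.mpi)).aestronglyMeasurable) (integrable_const _)
      (fun n => Eventually.of_forall fun ω => ?_)
      (Eventually.of_forall fun ω => ((hl s hs _).const_mul _).mul_const _)
    rw [Real.norm_eq_abs, abs_mul, abs_mul]
    exact (mul_le_of_le_one_right (mul_nonneg (abs_nonneg _) (abs_nonneg _))
      (abs_chr_le hA hs _)).trans (mul_le_mul (hB s hs ω) (hbn n s hs _) (abs_nonneg _) hB0)

/-- Power series with nonnegative coefficients and no constant term. -/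
lemma Pd.series (h : Pd F C) {c : ℕ → ℝ} (hc : ∀ n, 0 ≤ c n) {D : ℝ}
    (hD : HasSum (fun n => c n * C ^ (n + 1)) D) {Φ : ℝ → ℝ} (hΦm : Measurable Φ)
    (hΦ : ∀ x, |x| ≤ C → HasSum (fun n => c n * x ^ (n + 1)) (Φ x)) :
    Pd (fun s p => Φ (F s p)) D := by
  have hpart : ∀ N, Pd (fun s p => ∑ n ∈ Finset.range N, c n * F s p ^ (n + 1))
      (∑ n ∈ Finset.range N, c n * C ^ (n + 1)) := fun N => by
    induction N with
    | zero =>
      simpa using (pd_one (E := E)).add_smul pd_one (le_refl (0 : ℝ)) (le_refl (0 : ℝ))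
    | succ N ih =>
      simp only [Finset.sum_range_succ]
      simpa using ih.add_smul (h.pow (N + 1)) zero_le_one (hc N)
  have hle : ∀ s ∈ Set.Icc (0 : ℝ) 1, ∀ p n, |c n * F s p ^ (n + 1)| ≤ c n * C ^ (n + 1) :=
    fun s hs p n => by
      rw [abs_mul, abs_of_nonneg (hc n), abs_pow]
      exact mul_le_mul_of_nonneg_left (pow_le_pow_left₀ (abs_nonneg _) (h.bdd s hs p) _) (hc n)
  have hterm : ∀ n, 0 ≤ c n * C ^ (n + 1) := fun n => mul_nonneg (hc n) (pow_nonneg h.nonneg _)
  have hD0 : 0 ≤ D := hD.nonneg hterm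
  refine pd_of_tendsto hpart (fun s => hΦm.comp (h.meas s)) hD0 (fun s hs p => ?_)
    (fun N s hs p => ?_) fun s hs p => (hΦ _ (h.bdd s hs p)).tendsto_sum_nat
  · have hh := hΦ _ (h.bdd s hs p)
    rw [abs_le]
    exact ⟨hasSum_le (fun n => neg_le_of_abs_le (hle s hs p n)) hD.neg hh,
      hasSum_le (fun n => le_of_abs_le (hle s hs p n)) hh hD⟩
  · exact (Finset.abs_sum_le_sum_abs _ _).trans ((Finset.sum_le_sum fun n _ => hle s hs p n).trans
      (sum_le_hasSum _ (fun n _ => hterm n) hD))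

/-- Mixtures with nonnegative integrable weights. -/
lemma pd_integral {Θ : Type} [MeasurableSpace Θ] {η : Measure Θ} [SFinite η] {k : Θ → ℝ}
    (hk : Integrable k η) (hk0 : ∀ θ, 0 ≤ k θ) (hkm : Measurable k) {Fθ : Θ → ℝ → E × ℝ → ℝ}
    (hm : ∀ s, Measurable fun z : Θ × (E × ℝ) => Fθ z.1 s z.2) (h : ∀ θ, Pd (Fθ θ) C) (hC : 0 ≤ C) :
    Pd (fun s p => ∫ θ, k θ * Fθ θ s p ∂η) ((∫ θ, k θ ∂η) * C) where
  meas s := (StronglyMeasurable.integral_prod_left' (μ := η)
    ((hkm.comp measurable_fst).mul (hm s)).stronglyMeasurable).measurable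
  nonneg := mul_nonneg (integral_nonneg hk0) hC
  bdd s hs p := by
    rw [← Real.norm_eq_abs, ← integral_mul_const]
    refine norm_integral_le_of_norm_le (hk.mul_const C) (Eventually.of_forall fun θ => ?_)
    rw [Real.norm_eq_abs, abs_mul, abs_of_nonneg (hk0 θ)]
    exact mul_le_mul_of_nonneg_left ((h θ).bdd s hs p) (hk0 θ)
  closed Ω _ P π G hG := by
    have := hG.fin
    obtain ⟨B, hB0, hB⟩ := hG.bdd
    refine ⟨hG.fin, hG.mpi, fun s => (hG.meas s).mul ((StronglyMeasurable.integral_prod_left' (μ := η)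
        ((hkm.comp measurable_fst).mul (hm s)).stronglyMeasurable).measurable.comp hG.mpi),
      ⟨B * ((∫ θ, k θ ∂η) * C), mul_nonneg hB0 (mul_nonneg (integral_nonneg hk0) hC), fun s hs ω => ?_⟩,
      fun u τ A hA => ?_⟩
    · rw [abs_mul]
      refine mul_le_mul (hB s hs ω) ?_ (abs_nonneg _) hB0
      rw [← Real.norm_eq_abs, ← integral_mul_const]
      refine norm_integral_le_of_norm_le (hk.mul_const C) (Eventually.of_forall fun θ => ?_)
      rw [Real.norm_eq_abs, abs_mul, abs_of_nonneg (hk0 θ)]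
      exact mul_le_mul_of_nonneg_left ((h θ).bdd s hs _) (hk0 θ)
    · set J : Θ → ℝ → ℝ := fun θ s => ∫ ω, G s ω * Fθ θ s (π ω) * chr u τ A s (π ω) ∂P with hJdef
      have hJ : ∀ θ, ConvexOn ℝ (Set.Icc 0 1) (J θ) :=
        fun θ => ((h θ).closed Ω P π G hG).conv u τ A hA
      have hint : ∀ s ∈ Set.Icc (0 : ℝ) 1, Integrable
          (fun z : Θ × Ω => k z.1 * (G s z.2 * Fθ z.1 s (π z.2) * chr u τ A s (π z.2))) (η.prod P) :=
        fun s hs => Integrable.mono' ((hk.comp_fst P).mul_const (B * C))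
          (((hkm.comp measurable_fst).mul ((((hG.meas s).comp measurable_snd).mul
            ((hm s).comp (measurable_fst.prodMk (hG.mpi.comp measurable_snd)))).mul
            ((measurable_chr u τ A s).comp (hG.mpi.comp measurable_snd))))).aestronglyMeasurable
          (Eventually.of_forall fun z => by
            rw [Real.norm_eq_abs, abs_mul, abs_mul, abs_mul, abs_of_nonneg (hk0 z.1)]
            refine mul_le_mul_of_nonneg_left ?_ (hk0 _)
            exact (mul_le_of_le_one_right (mul_nonneg (abs_nonneg _) (abs_nonneg _))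
              (abs_chr_le hA hs _)).trans
              (mul_le_mul (hB s hs _) ((h _).bdd s hs _) (abs_nonneg _) hB0))
      have hkJ : ∀ s ∈ Set.Icc (0 : ℝ) 1, Integrable (fun θ => k θ * J θ s) η := fun s hs => by
        simpa only [J, ← integral_const_mul] using (hint s hs).integral_prod_left
      have hc : ConvexOn ℝ (Set.Icc 0 1) fun s => ∫ θ, k θ * J θ s ∂η := by
        refine ⟨convex_Icc _ _, fun x hx y hy a b ha hb hab => ?_⟩
        simp only [smul_eq_mul, ← integral_const_mul]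
        rw [← integral_add ((hkJ x hx).const_mul a) ((hkJ y hy).const_mul b)]
        refine integral_mono (hkJ _ (convex_Icc _ _ hx hy ha hb hab))
          (((hkJ x hx).const_mul a).add ((hkJ y hy).const_mul b)) fun θ => ?_
        have := mul_le_mul_of_nonneg_left ((hJ θ).2 hx hy ha hb hab) (hk0 θ)
        simp only [smul_eq_mul] at this
        linarith
      refine convexOn_congr' hc fun s hs => ?_
      simp only [J, ← integral_const_mul]
      rw [integral_integral_swap (f := fun θ ω => k θ * (G s ω * Fθ θ s (π ω) * chr u τ A s (π ω)))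
        (hint s hs)]
      refine integral_congr_ae (Eventually.of_forall fun ω => ?_)
      simp only [← integral_mul_const]
      exact integral_congr_ae (Eventually.of_forall fun θ => by ring)

/-- Adding an independent increment to the target variable keeps a test family. -/
lemma TestFn.extend (hG : TestFn P π G) (b : ℝ) :
    TestFn (P.prod (gaussianReal 0 1)) (fun z => ((π z.1).1, (π z.1).2 + b * z.2))
      fun s z => G s z.1 := by
  have := hG.fin
  obtain ⟨B, hB0, hB⟩ := hG.bdd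
  set π' : Ω × ℝ → E × ℝ := fun z => ((π z.1).1, (π z.1).2 + b * z.2)
  have hπ' : Measurable π' :=
    (measurable_fst.comp (hG.mpi.comp measurable_fst)).prodMk
      ((measurable_snd.comp (hG.mpi.comp measurable_fst)).add (measurable_snd.const_mul b))
  refine ⟨inferInstance, hπ', fun s => (hG.meas s).comp measurable_fst,
    ⟨B, hB0, fun s hs z => hB s hs _⟩, fun u τ A hA => ?_⟩
  refine convexOn_congr' (hG.conv u τ (A + (b * τ) ^ 2 / 2) (by positivity)) fun s hs => ?_
  have hi : Integrable (fun z : Ω × ℝ => G s z.1 * chr u τ A s (π' z)) (P.prod (gaussianReal 0 1)) :=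
    Integrable.mono' (integrable_const B) (((hG.meas s).comp measurable_fst).mul
      ((measurable_chr u τ A s).comp hπ')).aestronglyMeasurable (Eventually.of_forall fun z => by
        rw [Real.norm_eq_abs, abs_mul]
        exact (mul_le_of_le_one_right (abs_nonneg _) (abs_chr_le hA hs _)).trans (hB s hs _))
  rw [integral_prod _ hi]
  refine integral_congr_ae (Eventually.of_forall fun ω => ?_)
  simp only [π', chr]
  rw [integral_const_mul, integral_const_mul]
  have e : ∀ y : ℝ, Real.sqrt s * ⟪(π ω).1, u⟫ + Real.sqrt (1 - s) * (τ * ((π ω).2 + b * y)) =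
      (Real.sqrt s * ⟪(π ω).1, u⟫ + Real.sqrt (1 - s) * (τ * (π ω).2)) +
        (Real.sqrt (1 - s) * (τ * b)) * y := fun y => by ring
  simp only [e]
  rw [integral_cos_add, mul_pow (Real.sqrt (1 - s)), Real.sq_sqrt (by linarith [hs.2]),
    show -(1 - s) * (A + (b * τ) ^ 2 / 2) = -(1 - s) * A + -((1 - s) * (τ * b) ^ 2) / 2 by ring,
    Real.exp_add]
  ring

/-- Averaging an independent increment of the target variable. -/
lemma Pd.smooth (h : Pd F C) (b : ℝ) :
    Pd (fun s p => ∫ y, F s (p.1, p.2 + b * y) ∂gaussianReal 0 1) C := by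
  have hφ : Measurable fun z : (E × ℝ) × ℝ => ((z.1.1, z.1.2 + b * z.2) : E × ℝ) := by fun_prop
  have hmeas : ∀ s, Measurable fun p : E × ℝ => ∫ y, F s (p.1, p.2 + b * y) ∂gaussianReal 0 1 :=
    fun s => (StronglyMeasurable.integral_prod_right' (ν := gaussianReal 0 1)
      ((h.meas s).comp hφ).stronglyMeasurable).measurable
  have hbd : ∀ s ∈ Set.Icc (0 : ℝ) 1, ∀ p : E × ℝ,
      |∫ y, F s (p.1, p.2 + b * y) ∂gaussianReal 0 1| ≤ C := fun s hs p => by
    rw [← Real.norm_eq_abs]
    exact (norm_integral_le_of_norm_le_const (μ := gaussianReal 0 1) (C := C)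
      (Eventually.of_forall fun y => (Real.norm_eq_abs _).le.trans (h.bdd s hs _))).trans_eq (by simp)
  refine ⟨hmeas, h.nonneg, hbd, fun Ω _ P π G hG => ?_⟩
  have := hG.fin
  obtain ⟨B, hB0, hB⟩ := hG.bdd
  refine ⟨hG.fin, hG.mpi, fun s => (hG.meas s).mul ((hmeas s).comp hG.mpi), ⟨B * C,
    mul_nonneg hB0 h.nonneg, fun s hs ω => by
      rw [abs_mul]; exact mul_le_mul (hB s hs ω) (hbd s hs _) (abs_nonneg _) hB0⟩, fun u τ A hA => ?_⟩
  have hT := h.closed _ _ _ _ (((pd_chr u τ hA).closed Ω P π G hG).extend b)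
  refine convexOn_congr' (hT.conv 0 0 0 le_rfl) fun s hs => ?_
  have h1 : ∀ p : E × ℝ, chr (0 : E) 0 0 s p = 1 := fun p => by simp [chr]
  simp only [h1, mul_one]
  have hi : Integrable (fun z : Ω × ℝ => G s z.1 * chr u τ A s (π z.1) *
      F s ((π z.1).1, (π z.1).2 + b * z.2)) (P.prod (gaussianReal 0 1)) := by
    obtain ⟨B', -, hB'⟩ := hT.bdd
    exact Integrable.mono' (integrable_const B') (hT.meas s).aestronglyMeasurable
      (Eventually.of_forall fun z => hB' s hs z)
  rw [integral_prod _ hi]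
  refine integral_congr_ae (Eventually.of_forall fun ω => ?_)
  simp only [integral_const_mul]
  ring

/-- The cone has convex Gaussian averages along the interpolation. -/
theorem Pd.convexOn (h : Pd F C) (b : ℝ) : ConvexOn ℝ (Set.Icc 0 1)
    fun s => ∫ p : E × ℝ, F s (p.1, b * p.2) ∂(stdGaussian E).prod (gaussianReal 0 1) := by
  have hb : TestFn ((stdGaussian E).prod (gaussianReal 0 1)) (fun p : E × ℝ => ((p.1, b * p.2) : E × ℝ))
      fun _ _ => 1 := by
    refine ⟨inferInstance, by fun_prop, fun _ => measurable_const,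
      ⟨1, zero_le_one, fun _ _ _ => by simp⟩, fun u τ A hA => ?_⟩
    have he : ConvexOn ℝ (Set.Icc 0 1)
        fun s => Real.exp (-(1 - s) * (A + (τ * b) ^ 2 / 2) - s * (‖u‖ ^ 2 / 2)) := by
      refine ⟨convex_Icc _ _, fun x _ y _ a c ha hc hac => ?_⟩
      have h := convexOn_exp.2 (Set.mem_univ (-(1 - x) * (A + (τ * b) ^ 2 / 2) - x * (‖u‖ ^ 2 / 2)))
        (Set.mem_univ (-(1 - y) * (A + (τ * b) ^ 2 / 2) - y * (‖u‖ ^ 2 / 2))) ha hc hac
      simp only [smul_eq_mul] at h ⊢
      refine le_trans (le_of_eq ?_) h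
      congr 1
      linear_combination (A + (τ * b) ^ 2 / 2) * hac
    refine convexOn_congr' he fun s hs => ?_
    have hi : Integrable (fun p : E × ℝ => (1 : ℝ) * chr u τ A s (p.1, b * p.2))
        ((stdGaussian E).prod (gaussianReal 0 1)) :=
      Integrable.mono' (integrable_const (1 : ℝ))
        (((measurable_chr u τ A s).comp (f := fun p : E × ℝ => ((p.1, b * p.2) : E × ℝ))
          (by fun_prop)).const_mul 1).aestronglyMeasurable
        (Eventually.of_forall fun p => by
          rw [one_mul, Real.norm_eq_abs]; exact abs_chr_le hA hs _)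
    rw [integral_prod _ hi]
    simp only [one_mul, chr]
    have e1 : ∀ g : E, ∫ y, Real.exp (-(1 - s) * A) *
        Real.cos (Real.sqrt s * ⟪g, u⟫ + Real.sqrt (1 - s) * (τ * (b * y))) ∂gaussianReal 0 1 =
        Real.exp (-(1 - s) * A) * Real.exp (-(Real.sqrt (1 - s) * (τ * b)) ^ 2 / 2) *
          Real.cos (0 + ⟪g, Real.sqrt s • u⟫) := fun g => by
      have e : ∀ y : ℝ, Real.sqrt (1 - s) * (τ * (b * y)) = Real.sqrt (1 - s) * (τ * b) * y :=
        fun y => by ring
      simp only [e]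
      rw [integral_const_mul, integral_cos_add, real_inner_smul_right, zero_add]
      ring
    simp only [e1]
    rw [integral_const_mul, integral_cos_inner, Real.cos_zero, one_mul, norm_smul, Real.norm_eq_abs,
      abs_of_nonneg (Real.sqrt_nonneg s), mul_pow (Real.sqrt s), mul_pow (Real.sqrt (1 - s)),
      Real.sq_sqrt hs.1, Real.sq_sqrt (by linarith [hs.2]), ← Real.exp_add, ← Real.exp_add]
    congr 1
    ring
  refine convexOn_congr' ((h.closed _ _ _ _ hb).conv 0 0 0 le_rfl) fun s _ => ?_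
  simp [chr]

/-! ### The two series -/

/-- Coefficients of `1 - (1 - x) ^ θ`. -/
noncomputable def binomC (θ : ℝ) : ℕ → ℝ
  | 0 => θ
  | n + 1 => binomC θ n * ((n : ℝ) + 1 - θ) / ((n : ℝ) + 2)

lemma binomC_nonneg {θ : ℝ} (h0 : 0 ≤ θ) (h1 : θ ≤ 1) : ∀ n, 0 ≤ binomC θ n
  | 0 => h0
  | n + 1 => div_nonneg (mul_nonneg (binomC_nonneg h0 h1 n)
      (by linarith [Nat.cast_nonneg (α := ℝ) n])) (by positivity)

lemma binomC_eq (θ : ℝ) : ∀ n, binomC θ n = (-1) ^ n * Ring.choose θ (n + 1)
  | 0 => by simp [binomC, Ring.choose_one_right]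
  | n + 1 => by
    rw [binomC, binomC_eq θ n, Ring.choose_eq_smul, Ring.choose_eq_smul, descPochhammer_succ_right ℤ (n + 1),
      Polynomial.smeval_mul, Polynomial.smeval_sub, Polynomial.smeval_X, Polynomial.smeval_natCast,
      pow_one, pow_zero, Nat.factorial_succ (n + 1), pow_succ]
    simp only [smul_eq_mul, nsmul_eq_mul]
    push_cast
    have h2 : ((n : ℝ) + 2) ≠ 0 := by positivity
    field_simp
    ring

lemma hasSum_binom {θ x : ℝ} (hx : |x| < 1) :
    HasSum (fun n => binomC θ n * x ^ (n + 1)) (1 - (1 - x) ^ θ) := by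
  have h := (Real.one_add_rpow_hasFPowerSeriesOnBall_zero (a := θ)).hasSum (y := -x) (by
    rw [Metric.mem_eball, edist_dist, dist_zero_right, norm_neg, Real.norm_eq_abs]
    exact ENNReal.ofReal_lt_one.2 hx)
  simp only [binomialSeries_apply, List.ofFn_const, List.prod_replicate, smul_eq_mul] at h
  rw [zero_add, ← sub_eq_add_neg] at h
  have h' := ((hasSum_nat_add_iff' 1).2 h).neg
  simp only [Finset.range_one, Finset.sum_singleton, pow_zero, mul_one, Ring.choose_zero_right,
    neg_sub] at h'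
  refine h'.congr_fun fun n => ?_
  rw [binomC_eq, neg_pow x, pow_succ (-1 : ℝ)]
  ring

lemma Pd.binom (h : Pd F C) (hC : C < 1) {θ : ℝ} (h0 : 0 ≤ θ) (h1 : θ ≤ 1) :
    Pd (fun s p => 1 - (1 - F s p) ^ θ) (1 - (1 - C) ^ θ) :=
  h.series (binomC_nonneg h0 h1) (hasSum_binom (by rwa [abs_of_nonneg h.nonneg]))
    (Φ := fun x => 1 - (1 - x) ^ θ) (by fun_prop) fun _ hx => hasSum_binom (hx.trans_lt hC)

lemma Pd.neg_log (h : Pd F C) (hC : C < 1) :
    Pd (fun s p => -Real.log (1 - F s p)) (-Real.log (1 - C)) := by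
  have he : ∀ x : ℝ, |x| < 1 →
      HasSum (fun n : ℕ => 1 / ((n : ℝ) + 1) * x ^ (n + 1)) (-Real.log (1 - x)) := fun x hx => by
    simpa [one_div, inv_mul_eq_div] using Real.hasSum_pow_div_log_of_abs_lt_one hx
  exact h.series (fun n => by positivity) (he C (by rwa [abs_of_nonneg h.nonneg]))
    (Φ := fun x => -Real.log (1 - x)) (by fun_prop) fun x hx => he x (hx.trans_lt hC)

end Vale.Agent.P157.RSB
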