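import Vale.Agent.P157.Kernel
import Vale.Agent.P157.RSB.PosDef

/-!
The smoothed kernel and its logarithmic derivatives.
-/

namespace Vale.Agent.P157.RSB

open MeasureTheory ProbabilityTheory Filter
open scoped RealInnerProductSpace Topology

variable {f : ℝ → ℝ} {a : ℝ} {ν : Measure ℝ} {σ σ₀ : ℝ}

/-- The positive-definite part smoothed by a Gaussian of variance `σ`. -/
noncomputable def kW (ν : Measure ℝ) (σ y : ℝ) : ℝ :=
  ∫ t, Real.cos (t * y) * Real.exp (-σ * t ^ 2 / 2) ∂ν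

/-- The smoothed weight. -/
noncomputable def kU (a : ℝ) (ν : Measure ℝ) (σ y : ℝ) : ℝ := a - kW ν σ y

/-- Its logarithmic derivative. -/
noncomputable def kD (a : ℝ) (ν : Measure ℝ) (σ y : ℝ) : ℝ :=
  (∫ t, t * Real.sin (t * y) * Real.exp (-σ * t ^ 2 / 2) ∂ν) / kU a ν σ y

/-- Its normalised second derivative. -/
noncomputable def kH (a : ℝ) (ν : Measure ℝ) (σ y : ℝ) : ℝ :=
  (∫ t, t ^ 2 * Real.cos (t * y) * Real.exp (-σ * t ^ 2 / 2) ∂ν) / kU a ν σ y

lemma exp_sq_le_one (hσ : 0 ≤ σ) (t : ℝ) : Real.exp (-σ * t ^ 2 / 2) ≤ 1 :=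
  Real.exp_le_one_iff.2 (by nlinarith [sq_nonneg t])

/-- Powers of the frequency are controlled by the smoothing. -/
lemma pow_mul_exp_le (hσ₀ : 0 < σ₀) :
    ∃ c, 1 ≤ c ∧ ∀ σ, σ₀ ≤ σ → ∀ t : ℝ,
      |t| * Real.exp (-σ * t ^ 2 / 2) ≤ c ∧ t ^ 2 * Real.exp (-σ * t ^ 2 / 2) ≤ c ∧
        |t| ^ 3 * Real.exp (-σ * t ^ 2 / 2) ≤ c := by
  refine ⟨2 + 2 / σ₀ + 8 / σ₀ ^ 2, ?_, fun σ hσ t => ?_⟩
  · have : 0 ≤ 2 / σ₀ + 8 / σ₀ ^ 2 := by positivity
    linarith
  set e := Real.exp (-σ * t ^ 2 / 2)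
  have he0 : 0 ≤ e := (Real.exp_pos _).le
  have he1 : e ≤ 1 := exp_sq_le_one (hσ₀.le.trans hσ) t
  set x := σ₀ * t ^ 2 / 2
  have hx : 0 ≤ x := by positivity
  have hle : e ≤ Real.exp (-x) := Real.exp_le_exp.2 (by simp only [x]; nlinarith [sq_nonneg t])
  have h1 : x * e ≤ 1 := by
    refine (mul_le_mul_of_nonneg_left hle hx).trans ?_
    rw [Real.exp_neg, ← div_eq_mul_inv, div_le_one (Real.exp_pos _)]
    linarith [Real.add_one_le_exp x]
  have h2 : x ^ 2 * e ≤ 2 := by
    refine (mul_le_mul_of_nonneg_left hle (sq_nonneg x)).trans ?_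
    rw [Real.exp_neg, ← div_eq_mul_inv, div_le_iff₀ (Real.exp_pos _)]
    linarith [Real.quadratic_le_exp_of_nonneg hx]
  have k2 : t ^ 2 * e ≤ 2 / σ₀ := by
    rw [le_div_iff₀ hσ₀]; simp only [x] at h1; linarith
  have k4 : t ^ 4 * e ≤ 8 / σ₀ ^ 2 := by
    rw [le_div_iff₀ (pow_pos hσ₀ 2)]; simp only [x] at h2; linarith
  have a1 : |t| ≤ 1 + t ^ 2 := by nlinarith [sq_abs t, sq_nonneg (|t| - 1), abs_nonneg t]
  have a3 : |t| ^ 3 ≤ t ^ 2 + t ^ 4 := by
    have h := mul_le_mul_of_nonneg_right a1 (sq_nonneg t)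
    rw [← sq_abs t] at h
    nlinarith [sq_abs t]
  have p2 : 0 ≤ 2 / σ₀ := by positivity
  have p4 : 0 ≤ 8 / σ₀ ^ 2 := by positivity
  refine ⟨?_, by linarith, ?_⟩
  · nlinarith [mul_le_mul_of_nonneg_right a1 he0]
  · nlinarith [mul_le_mul_of_nonneg_right a3 he0]

lemma cos_taylor (c b : ℝ) :
    |Real.cos (c + b) - Real.cos c + b * Real.sin c + b ^ 2 / 2 * Real.cos c| ≤ 4 * |b| ^ 3 := by
  have h1 : |Real.cos b - 1 + b ^ 2 / 2| ≤ 3 * |b| ^ 3 := by
    rcases le_or_gt |b| 1 with h | h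
    · have := Real.cos_bound h
      have h4 : |b| ^ 4 ≤ |b| ^ 3 := pow_le_pow_of_le_one (abs_nonneg b) h (by norm_num)
      rw [show Real.cos b - 1 + b ^ 2 / 2 = Real.cos b - (1 - b ^ 2 / 2) by ring]
      nlinarith [pow_nonneg (abs_nonneg b) 3]
    · have h2 : 1 ≤ |b| ^ 2 := one_le_pow₀ h.le
      have h3 : |b| ^ 2 ≤ |b| ^ 3 := pow_le_pow_right₀ h.le (by norm_num)
      rw [abs_le, ← sq_abs b]
      constructor <;> nlinarith [Real.neg_one_le_cos b, Real.cos_le_one b]
  have h2 : |Real.sin b - b| ≤ |b| ^ 3 := by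
    rcases le_or_gt |b| 1 with h | h
    · obtain ⟨l1, l2⟩ := abs_le.1 (Real.sin_bound h)
      have h4 : |b| ^ 5 ≤ |b| ^ 3 := pow_le_pow_of_le_one (abs_nonneg b) h (by norm_num)
      have h6 : |b ^ 3 / 6| = |b| ^ 3 / 6 := by rw [abs_div, abs_pow]; norm_num
      obtain ⟨m1, m2⟩ := abs_le.1 h6.le
      have := pow_nonneg (abs_nonneg b) 3
      rw [abs_le]
      constructor <;> linarith
    · rcases le_or_gt |b| 2 with h2 | h2
      · have h3 : |Real.sin b| ≤ 1 := Real.abs_sin_le_one b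
        obtain ⟨l1, l2⟩ := abs_le.1 h3
        have hp : 1 ≤ |b| ^ 3 := one_le_pow₀ h.le
        rcases le_or_gt 0 b with hb | hb
        · have hs : Real.sin b ≤ b := Real.sin_le hb
          have hs0 : 0 ≤ Real.sin b := Real.sin_nonneg_of_nonneg_of_le_pi hb (by
            have := abs_of_nonneg hb; linarith [Real.two_le_pi])
          rw [abs_of_nonpos (by linarith)]
          have := abs_of_nonneg hb
          have := le_self_pow₀ h.le (show 3 ≠ 0 by norm_num)
          linarith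
        · have hs : b ≤ Real.sin b := by
            have := Real.sin_le (neg_nonneg.2 hb.le); rw [Real.sin_neg] at this; linarith
          have hs0 : Real.sin b ≤ 0 := Real.sin_nonpos_of_nonpos_of_neg_pi_le hb.le (by
            have := abs_of_neg hb; linarith [Real.two_le_pi])
          rw [abs_of_nonneg (by linarith)]
          have := abs_of_neg hb
          have := le_self_pow₀ h.le (show 3 ≠ 0 by norm_num)
          linarith
      · refine (abs_sub _ _).trans ?_
        have h4 : 2 * |b| ≤ |b| ^ 3 := by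
          have : 2 ≤ |b| ^ 2 := by nlinarith
          have h5 := mul_le_mul_of_nonneg_right this (abs_nonneg b)
          calc 2 * |b| ≤ |b| ^ 2 * |b| := h5
            _ = |b| ^ 3 := by ring
        linarith [Real.abs_sin_le_one b]
  rw [Real.cos_add, show Real.cos c * Real.cos b - Real.sin c * Real.sin b - Real.cos c +
    b * Real.sin c + b ^ 2 / 2 * Real.cos c =
      Real.cos c * (Real.cos b - 1 + b ^ 2 / 2) - Real.sin c * (Real.sin b - b) by ring]
  refine (abs_sub _ _).trans ?_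
  rw [abs_mul, abs_mul]
  nlinarith [mul_le_of_le_one_left (abs_nonneg (Real.cos b - 1 + b ^ 2 / 2)) (Real.abs_cos_le_one c),
    mul_le_of_le_one_left (abs_nonneg (Real.sin b - b)) (Real.abs_sin_le_one c)]

variable (hk : Ker f a ν)
include hk

lemma abs_kW_le (hσ : 0 ≤ σ) (y : ℝ) : |kW ν σ y| ≤ ν.real Set.univ := by
  have := hk.fin
  rw [← Real.norm_eq_abs]
  refine (norm_integral_le_of_norm_le_const (μ := ν) (C := 1)
    (Eventually.of_forall fun t => ?_)).trans_eq (one_mul _)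
  rw [Real.norm_eq_abs, abs_mul, abs_of_pos (Real.exp_pos _)]
  exact mul_le_one₀ (Real.abs_cos_le_one _) (Real.exp_pos _).le (exp_sq_le_one hσ t)

lemma kU_bounds (hσ : 0 ≤ σ) (y : ℝ) :
    a - ν.real Set.univ ≤ kU a ν σ y ∧ kU a ν σ y ≤ a + ν.real Set.univ := by
  obtain ⟨h1, h2⟩ := abs_le.1 (abs_kW_le hk hσ y)
  simp only [kU]
  constructor <;> linarith

lemma kU_pos (hσ : 0 ≤ σ) (y : ℝ) : 0 < kU a ν σ y := by
  linarith [(kU_bounds hk hσ y).1, hk.lt]

lemma exp_eq_kU (x : ℝ) : Real.exp (f x) = kU a ν 0 x := by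
  rw [hk.eq, kU, kW]
  simp

lemma measurable_kU : Measurable fun p : ℝ × ℝ => kU a ν p.1 p.2 := by
  have := hk.fin
  have h : Measurable fun z : (ℝ × ℝ) × ℝ => Real.cos (z.2 * z.1.2) * Real.exp (-z.1.1 * z.2 ^ 2 / 2) := by
    fun_prop
  exact (h.stronglyMeasurable.integral_prod_right' (ν := ν)).measurable.const_sub a

lemma measurable_kU_right (σ : ℝ) : Measurable (kU a ν σ) := by
  have h : Measurable fun y : ℝ => ((σ, y) : ℝ × ℝ) := measurable_const.prodMk measurable_id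
  have h2 := (measurable_kU hk).comp h
  exact h2

lemma measurable_kD (σ : ℝ) : Measurable (kD a ν σ) := by
  have := hk.fin
  have h : Measurable fun z : ℝ × ℝ => z.2 * Real.sin (z.2 * z.1) * Real.exp (-σ * z.2 ^ 2 / 2) := by
    fun_prop
  exact (h.stronglyMeasurable.integral_prod_right' (ν := ν)).measurable.div (measurable_kU_right hk σ)

lemma measurable_kH (σ : ℝ) : Measurable (kH a ν σ) := by
  have := hk.fin
  have h : Measurable fun z : ℝ × ℝ => z.2 ^ 2 * Real.cos (z.2 * z.1) * Real.exp (-σ * z.2 ^ 2 / 2) := by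
    fun_prop
  exact (h.stronglyMeasurable.integral_prod_right' (ν := ν)).measurable.div (measurable_kU_right hk σ)

/-- Gaussian smoothing adds variances. -/
lemma integral_kU_add {τ : ℝ} (hσ : 0 ≤ σ) (hτ : 0 ≤ τ) (y : ℝ) :
    ∫ z, kU a ν σ (y + Real.sqrt τ * z) ∂gaussianReal 0 1 = kU a ν (σ + τ) y := by
  have := hk.fin
  have hi : Integrable (Function.uncurry fun z t : ℝ =>
      Real.cos (t * (y + Real.sqrt τ * z)) * Real.exp (-σ * t ^ 2 / 2)) ((gaussianReal 0 1).prod ν) :=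
    Integrable.mono' (integrable_const (1 : ℝ)) (Continuous.aestronglyMeasurable (by fun_prop))
      (Eventually.of_forall fun p => by
        rw [Function.uncurry, Real.norm_eq_abs, abs_mul, abs_of_pos (Real.exp_pos _)]
        exact mul_le_one₀ (Real.abs_cos_le_one _) (Real.exp_pos _).le (exp_sq_le_one hσ _))
  have hi1 : Integrable (fun z : ℝ => ∫ t, Real.cos (t * (y + Real.sqrt τ * z)) *
      Real.exp (-σ * t ^ 2 / 2) ∂ν) (gaussianReal 0 1) := hi.integral_prod_left
  simp only [kU, kW]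
  rw [integral_sub (integrable_const a) hi1, integral_const, probReal_univ, one_smul,
    integral_integral_swap hi]
  congr 1
  refine integral_congr_ae (Eventually.of_forall fun t => ?_)
  simp only
  have e : ∀ z, t * (y + Real.sqrt τ * z) = t * y + t * Real.sqrt τ * z := fun z => by ring
  simp only [e]
  rw [integral_mul_const, integral_cos_add, mul_pow, Real.sq_sqrt hτ, mul_assoc, ← Real.exp_add]
  congr 2
  ring

/-- Uniform bounds for a smoothing bounded away from zero. -/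
lemma kern_bounds (hσ₀ : 0 < σ₀) :
    ∃ C, 1 ≤ C ∧ ∀ σ, σ₀ ≤ σ → ∀ y z : ℝ, |kD a ν σ y| ≤ C ∧ |kH a ν σ y| ≤ C ∧
      |kU a ν σ (y + z) / kU a ν σ y - 1| ≤ C * |z| ∧
      |kU a ν σ (y + z) / kU a ν σ y - 1 - kD a ν σ y * z - kH a ν σ y * (z ^ 2 / 2)| ≤ C * |z| ^ 3 ∧
      |Real.log (kU a ν σ (y + z)) - Real.log (kU a ν σ y)| ≤ C * |z| := by
  have := hk.fin
  obtain ⟨c, hc1, hc⟩ := pow_mul_exp_le hσ₀
  set b := ν.real Set.univ
  have hb0 : 0 ≤ b := measureReal_nonneg
  have hab : 0 < a - b := by linarith [hk.lt]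
  refine ⟨4 * (c * b) / (a - b) + 1, le_add_of_nonneg_left (by positivity), fun σ hσ y z => ?_⟩
  have hσ0 : 0 ≤ σ := hσ₀.le.trans hσ
  set e : ℝ → ℝ := fun t => Real.exp (-σ * t ^ 2 / 2)
  have he0 : ∀ t, 0 ≤ e t := fun t => (Real.exp_pos _).le
  have bd : ∀ (φ : ℝ → ℝ) (k : ℝ), Measurable φ → (∀ t, |φ t| ≤ k) →
      |∫ t, φ t ∂ν| ≤ k * b ∧ Integrable φ ν := fun φ k hm hφ =>
    ⟨(Real.norm_eq_abs _).symm.le.trans (norm_integral_le_of_norm_le_const
      (Eventually.of_forall fun t => (Real.norm_eq_abs _).le.trans (hφ t))),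
     Integrable.mono' (integrable_const k) hm.aestronglyMeasurable (Eventually.of_forall hφ)⟩
  have hW : ∀ y, Integrable (fun t => Real.cos (t * y) * e t) ν := fun y =>
    (bd _ 1 (by fun_prop) fun t => by
      rw [abs_mul, abs_of_nonneg (he0 t)]
      exact mul_le_one₀ (Real.abs_cos_le_one _) (he0 t) (exp_sq_le_one hσ0 t)).2
  obtain ⟨hS, hSi⟩ := bd (fun t => t * Real.sin (t * y) * e t) c (by fun_prop) fun t => by
    rw [abs_mul, abs_mul, abs_of_nonneg (he0 t)]
    exact (mul_le_mul_of_nonneg_right (mul_le_of_le_one_right (abs_nonneg t)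
      (Real.abs_sin_le_one _)) (he0 t)).trans (hc σ hσ t).1
  obtain ⟨hC2, hC2i⟩ := bd (fun t => t ^ 2 * Real.cos (t * y) * e t) c (by fun_prop) fun t => by
    rw [abs_mul, abs_mul, abs_of_nonneg (he0 t), abs_of_nonneg (sq_nonneg t)]
    exact (mul_le_mul_of_nonneg_right (mul_le_of_le_one_right (sq_nonneg t)
      (Real.abs_cos_le_one _)) (he0 t)).trans (hc σ hσ t).2.1
  have hU := (kU_bounds hk hσ0 y).1
  have hUp := kU_pos hk hσ0 y
  have hlip : |kU a ν σ (y + z) - kU a ν σ y| ≤ c * b * |z| := by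
    simp only [kU, kW, sub_sub_sub_cancel_left]
    rw [← integral_sub (hW y) (hW (y + z))]
    refine (bd _ (c * |z|) (by fun_prop) fun t => ?_).1.trans_eq (by ring)
    rw [← sub_mul, abs_mul, abs_of_nonneg (he0 t)]
    refine (mul_le_mul_of_nonneg_right (Real.abs_cos_sub_cos_le _ _) (he0 t)).trans ?_
    rw [show t * y - t * (y + z) = -(t * z) by ring, abs_neg, abs_mul,
      mul_comm |t| |z|, mul_assoc, mul_comm c]
    exact mul_le_mul_of_nonneg_left (hc σ hσ t).1 (abs_nonneg z)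
  have htay : |kU a ν σ (y + z) - kU a ν σ y - (∫ t, t * Real.sin (t * y) * e t ∂ν) * z -
      (∫ t, t ^ 2 * Real.cos (t * y) * e t ∂ν) * (z ^ 2 / 2)| ≤ 4 * c * b * |z| ^ 3 := by
    obtain ⟨hR, hRi⟩ := bd (fun t => (Real.cos (t * y + t * z) - Real.cos (t * y) +
        t * z * Real.sin (t * y) + (t * z) ^ 2 / 2 * Real.cos (t * y)) * e t) (4 * c * |z| ^ 3)
      (by fun_prop) fun t => by
        rw [abs_mul, abs_of_nonneg (he0 t)]
        refine (mul_le_mul_of_nonneg_right (cos_taylor _ _) (he0 t)).trans ?_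
        rw [abs_mul, mul_pow]
        nlinarith [mul_le_mul_of_nonneg_left (hc σ hσ t).2.2 (pow_nonneg (abs_nonneg z) 3)]
    have e1 : kU a ν σ (y + z) - kU a ν σ y - (∫ t, t * Real.sin (t * y) * e t ∂ν) * z -
        (∫ t, t ^ 2 * Real.cos (t * y) * e t ∂ν) * (z ^ 2 / 2) =
        -∫ t, (Real.cos (t * y + t * z) - Real.cos (t * y) +
          t * z * Real.sin (t * y) + (t * z) ^ 2 / 2 * Real.cos (t * y)) * e t ∂ν := by
      have e2 : ∀ t, (Real.cos (t * y + t * z) - Real.cos (t * y) +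
          t * z * Real.sin (t * y) + (t * z) ^ 2 / 2 * Real.cos (t * y)) * e t =
          (Real.cos (t * (y + z)) * e t - Real.cos (t * y) * e t) +
            (z * (t * Real.sin (t * y) * e t) + z ^ 2 / 2 * (t ^ 2 * Real.cos (t * y) * e t)) :=
        fun t => by rw [mul_add t y z]; ring
      simp only [e2]
      rw [integral_add ((hW _).sub' (hW _)) ((hSi.const_mul z).fun_add (hC2i.const_mul _)),
        integral_sub (hW _) (hW _), integral_add (hSi.const_mul z) (hC2i.const_mul _),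
        integral_const_mul, integral_const_mul]
      simp only [kU, kW, e]
      ring
    rw [e1, abs_neg]
    exact hR.trans_eq (by ring)
  have hdiv : ∀ {x k : ℝ}, |x| ≤ k → |x / kU a ν σ y| ≤ k / (a - b) := fun {x k} hx => by
    rw [abs_div, abs_of_pos hUp]
    exact div_le_div₀ ((abs_nonneg x).trans hx) hx hab hU
  have hcb : 0 ≤ c * b := by positivity
  have hC1 : c * b / (a - b) ≤ 4 * (c * b) / (a - b) + 1 := by
    have h : c * b / (a - b) ≤ 4 * (c * b) / (a - b) := div_le_div_of_nonneg_right (by linarith) hab.le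
    linarith
  refine ⟨(hdiv hS).trans hC1, (hdiv hC2).trans hC1, ?_, ?_, ?_⟩
  · rw [div_sub_one hUp.ne']
    refine (hdiv hlip).trans ?_
    rw [mul_div_right_comm]
    exact mul_le_mul_of_nonneg_right hC1 (abs_nonneg z)
  · have e1 : kU a ν σ (y + z) / kU a ν σ y - 1 - kD a ν σ y * z - kH a ν σ y * (z ^ 2 / 2) =
        (kU a ν σ (y + z) - kU a ν σ y - (∫ t, t * Real.sin (t * y) * e t ∂ν) * z -
          (∫ t, t ^ 2 * Real.cos (t * y) * e t ∂ν) * (z ^ 2 / 2)) / kU a ν σ y := by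
      rw [show kD a ν σ y = (∫ t, t * Real.sin (t * y) * e t ∂ν) / kU a ν σ y from rfl,
        show kH a ν σ y = (∫ t, t ^ 2 * Real.cos (t * y) * e t ∂ν) / kU a ν σ y from rfl]
      generalize (∫ t, t * Real.sin (t * y) * e t ∂ν) = I1
      generalize (∫ t, t ^ 2 * Real.cos (t * y) * e t ∂ν) = I2
      field_simp
    rw [e1]
    refine (hdiv htay).trans ?_
    rw [mul_div_right_comm]
    refine mul_le_mul_of_nonneg_right ?_ (by positivity)
    rw [show 4 * c * b = 4 * (c * b) by ring]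
    linarith
  · have hz := kU_pos hk hσ0 (y + z)
    have hzl := (kU_bounds hk hσ0 (y + z)).1
    have hk' : ∀ u w : ℝ, a - b ≤ w → 0 < u → Real.log u - Real.log w ≤ |u - w| / (a - b) := fun u w hw hu => by
      have hw0 : 0 < w := hab.trans_le hw
      rw [← Real.log_div hu.ne' hw0.ne']
      refine (Real.log_le_sub_one_of_pos (div_pos hu hw0)).trans ?_
      rw [div_sub_one hw0.ne']
      exact (div_le_div_of_nonneg_right (le_abs_self _) hw0.le).trans
        (div_le_div_of_nonneg_left (abs_nonneg _) hab hw)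
    have k1 := hk' (kU a ν σ (y + z)) (kU a ν σ y) hU hz
    have k2 := hk' (kU a ν σ y) (kU a ν σ (y + z)) hzl hUp
    rw [abs_sub_comm (kU a ν σ y)] at k2
    have k3 : |kU a ν σ (y + z) - kU a ν σ y| / (a - b) ≤ (4 * (c * b) / (a - b) + 1) * |z| := by
      refine (div_le_div_of_nonneg_right hlip hab.le).trans ?_
      rw [mul_div_right_comm]
      exact mul_le_mul_of_nonneg_right hC1 (abs_nonneg z)
    rw [abs_le]
    constructor <;> linarith

end Vale.Agent.P157.RSB
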