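import Vale.Agent.P157.RSB.Fields

/-!
The nested free energy of one interpolated pattern: its end values and its expansion.
-/

namespace Vale.Agent.P157.RSB

open MeasureTheory ProbabilityTheory Filter
open scoped RealInnerProductSpace Topology

variable {X : Type} [MeasurableSpace X] {E : Type} [NormedAddCommGroup E] [InnerProductSpace ℝ E]
  [FiniteDimensional ℝ E] [MeasurableSpace E] [BorelSpace E]

/-- A level with its field variance multiplied by `c`. -/
noncomputable def scaleR (c : ℝ) (i : Lev) : Lev := (i.1, i.2.1, c * i.2.2)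

lemma lip_zero {S : Type} [NormedAddCommGroup S] [MeasurableSpace S] : Lip 0 fun _ : S => (0 : ℝ) :=
  ⟨measurable_const, le_rfl, fun x y => by simp⟩

lemma casc_zero {ι Z S : Type} [MeasurableSpace Z] [AddGroup S] {γ : Measure Z} [IsProbabilityMeasure γ]
    {m : ι → ℝ} {σ : ι → Z → S} : ∀ {ls : List ι}, (∀ i ∈ ls, m i ≠ 0) → ∀ x,
      casc γ m σ ls (fun _ => (0 : ℝ)) x = 0
  | [], _, _ => rfl
  | i :: ls, h, x => by
    simp only [casc, casc_zero fun j hj => h j (List.mem_cons_of_mem _ hj)]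
    exact lexp_const (h i (List.mem_cons_self ..)) 0

lemma Ordered.scale : ∀ {ls : List Lev}, Ordered ls → ∀ c, Ordered (ls.map (scaleR c))
  | [], _, _ => trivial
  | i :: ls, h, c => by
    refine ⟨h.1, ?_, Ordered.scale h.2.2 c⟩
    show i.1 ≤ nextM (ls.map (scaleR c))
    cases ls with
    | nil => exact h.2.1
    | cons k ls => exact h.2.1

variable {f : ℝ → ℝ} {a : ℝ} {ν : Measure ℝ} {ls : List Lev} {q0 r0 S : ℝ}
variable {μ : Measure X} [IsProbabilityMeasure μ] {w : X → ℝ} {v : X → E}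

/-- The interpolated functional in the shifts of time `c`. -/
lemma phiI_eq (c s : ℝ) : phiI μ w v a ν S q0 (c * r0) (ls.map (scaleR c)) s =
    ∫ g : E, (∫ z : E × ℝ, casc ((stdGaussian E).prod (stdGaussian ℝ)) levM
      (fun i z => (sh c i z.1, sy 1 i z.2)) ls (mixPot μ w v a ν S s g)
      (Real.sqrt (c * r0) • z.1, Real.sqrt q0 * z.2) ∂(stdGaussian E).prod (stdGaussian ℝ)) ∂stdGaussian E := by
  simp only [phiI, casc_mapList, ← stdGaussian_real]
  have e1 : (fun i => levM (scaleR c i)) = levM := rfl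
  have e2 : (fun i => hyShift (E := E) (scaleR c i)) = fun i z => (sh c i z.1, sy 1 i z.2) := by
    funext i z
    simp [hyShift, hShift, yShift, sh, sy, scaleR]
  rw [e1, e2]

lemma integral_prod_add {A B : Type} [MeasurableSpace A] [MeasurableSpace B] {P : Measure A}
    [IsProbabilityMeasure P] {Q : Measure B} [IsProbabilityMeasure Q] {g : A → ℝ} {h : B → ℝ}
    (hg : Integrable g P) (hh : Integrable h Q) :
    ∫ z : A × B, (g z.1 + h z.2) ∂P.prod Q = ∫ x, g x ∂P + ∫ y, h y ∂Q := by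
  rw [integral_add (hg.comp_fst Q) (hh.comp_snd P), integral_fun_fst g, integral_fun_snd h, probReal_univ,
    probReal_univ, one_smul, one_smul]

/-- Without the pattern, the target and the fields decouple. -/
theorem phiI_zero (hk : Ker f a ν) (hw : Wt w) (hv : Measurable v) (hv1 : ∀ x, ‖v x‖ = 1)
    (h : Adm ls q0 r0 S) (c : ℝ) :
    phiI μ w v a ν S q0 (c * r0) (ls.map (scaleR c)) 0 = fldPsi μ v ls r0 c w + tgtA a ν ls q0 1 S := by
  obtain ⟨Ck, hCk1, hCk⟩ := kern_bounds hk h.S_pos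
  have hG := lip_hBase (μ := μ) hw hv hv1
  have hT := lip_lkU hk (by linarith : 0 ≤ Ck) (fun σ' hσ' y z => (hCk σ' hσ' y z).2.2.2.2) le_rfl
  have e : ∀ g : E, mixPot μ w v a ν S 0 g = fun p => hBase μ w v p.1 + lkU a ν S p.2 := fun g => by
    funext p
    simp only [mixPot, Real.sqrt_zero, zero_mul, sub_zero, one_mul, Real.sqrt_one, zero_add, hBase, lkU]
    rw [integral_mul_const, Real.log_mul (wt_field hw hv hv1 p.1).integral_pos.ne' (kU_pos hk h.S_pos.le _).ne']
  rw [phiI_eq]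
  simp only [e, casc_prod hG hT (good_sh h.ord c) (good_sy h.ord 1), integral_const, probReal_univ, one_smul]
  rw [integral_prod_add (g := fun x : E => casc (stdGaussian E) levM (sh c) ls (hBase μ w v) (Real.sqrt (c * r0) • x))
    (h := fun y : ℝ => casc (stdGaussian ℝ) levM (sy 1) ls (lkU a ν S) (Real.sqrt q0 * y))
    (by simpa using (hG.casc (good_sh h.ord c)).integrable (shift_smul (Real.sqrt (c * r0))) 0)
    (by simpa using (hT.casc (good_sy h.ord 1)).integrable (shift_smul (Real.sqrt q0)) 0)]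
  simp [fldPsi, tgtA]

/-- The full pattern multiplies the weight. -/
theorem phiI_one (hk : Ker f a ν) (hw : Wt w) (hv : Measurable v) (hv1 : ∀ x, ‖v x‖ = 1)
    (h : Adm ls q0 r0 S) (c : ℝ) :
    phiI μ w v a ν S q0 (c * r0) (ls.map (scaleR c)) 1 =
      avg (stdGaussian E) (pw f v) (fldPsi μ v ls r0 c) w := by
  have e : ∀ g : E, mixPot μ w v a ν S 1 g = fun p => hBase μ (fun x => w x * pw f v g x) v p.1 + 0 :=
    fun g => by
      funext p
      simp only [mixPot, sub_self, zero_mul, Real.sqrt_zero, Real.sqrt_one, one_mul, add_zero, hBase, pw,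
        exp_eq_kU hk]
      congr 1
      refine integral_congr_ae (Eventually.of_forall fun x => ?_)
      simp only
      ring
  have hwt : ∀ g, Wt fun x => w x * pw f v g x := fun g => hw.mul ((mult_pw hk.pot hv).wt g)
  have hstep : ∀ g : E, ∫ z : E × ℝ, casc ((stdGaussian E).prod (stdGaussian ℝ)) levM
      (fun i z => (sh c i z.1, sy 1 i z.2)) ls (mixPot μ w v a ν S 1 g)
      (Real.sqrt (c * r0) • z.1, Real.sqrt q0 * z.2) ∂(stdGaussian E).prod (stdGaussian ℝ) =
      fldPsi μ v ls r0 c (fun x => w x * pw f v g x) := fun g => by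
    have hG := lip_hBase (μ := μ) (hwt g) hv hv1
    simp only [e g, casc_prod hG lip_zero (good_sh h.ord c) (good_sy h.ord 1)]
    simp only [casc_zero fun i hi => (h.ord.pos i hi).ne', add_zero]
    rw [integral_fun_fst fun x : E =>
      casc (stdGaussian E) levM (sh c) ls (hBase μ (fun x => w x * pw f v g x) v) (Real.sqrt (c * r0) • x),
      probReal_univ, one_smul]
    rfl
  rw [phiI_eq]
  simp only [hstep, avg]

/-- Scaling the target coordinate and exchanging it with the field. -/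
noncomputable def swapHom (E : Type) [NormedAddCommGroup E] (κ : ℝ) : E × ℝ →+ ℝ × E :=
  AddMonoidHom.mk' (fun p => (κ * p.2, p.1)) fun p q => by
    simp only [Prod.fst_add, Prod.snd_add, Prod.mk_add_mk, mul_add]

lemma lip_patTop (hk : Ker f a ν) (hw : Wt w) (hv : Measurable v) (hv1 : ∀ x, ‖v x‖ = 1) {σ C : ℝ}
    (hσ : 0 ≤ σ) (hC : 0 ≤ C)
    (hl : ∀ y z : ℝ, |Real.log (kU a ν σ (y + z)) - Real.log (kU a ν σ y)| ≤ C * |z|) :
    Lip (1 + 2 * C) (patTop μ w v a ν σ) := by
  refine ⟨?_, by linarith, fun p q => ?_⟩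
  · have h1 : Measurable fun y : ((ℝ × E) × E) × X => kU a ν σ (y.1.1.1 + ⟪y.1.2, v y.2⟫) :=
      (measurable_kU_right hk σ).comp ((measurable_fst.comp (measurable_fst.comp measurable_fst)).add
        ((measurable_snd.comp measurable_fst).inner (hv.comp measurable_snd)))
    have h2 : Measurable fun y : ((ℝ × E) × E) × X => w y.2 * Real.exp ⟪y.1.1.2, v y.2⟫ :=
      (hw.meas.comp measurable_snd).mul
        ((measurable_snd.comp (measurable_fst.comp measurable_fst)).inner (hv.comp measurable_snd)).exp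
    exact ((h2.mul h1).stronglyMeasurable.integral_prod_right' (ν := μ)).measurable.log
  have hm : ∀ r : (ℝ × E) × E, Measurable fun x => r.1.1 + ⟪r.2, v x⟫ := fun r =>
    (measurable_const.inner hv).const_add _
  refine abs_log_integral_sub_le (wt_mix hk hw hv hv1 hσ _ _ (hm _)) (wt_mix hk hw hv hv1 hσ _ _ (hm _))
    fun x => ?_
  rw [Real.log_mul (mul_pos (hw.pos x) (Real.exp_pos _)).ne' (kU_pos hk hσ _).ne',
    Real.log_mul (mul_pos (hw.pos x) (Real.exp_pos _)).ne' (kU_pos hk hσ _).ne',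
    Real.log_mul (hw.pos x).ne' (Real.exp_pos _).ne', Real.log_mul (hw.pos x).ne' (Real.exp_pos _).ne',
    Real.log_exp, Real.log_exp]
  have e : (p + q).1.1 + ⟪(p + q).2, v x⟫ = p.1.1 + ⟪p.2, v x⟫ + (q.1.1 + ⟪q.2, v x⟫) := by
    simp only [Prod.fst_add, Prod.snd_add, inner_add_left]; ring
  rw [e]
  have b := hl (p.1.1 + ⟪p.2, v x⟫) (q.1.1 + ⟪q.2, v x⟫)
  have n1 := norm_fst_le q
  have n2 := norm_snd_le q
  have n3 : |q.1.1| ≤ ‖q‖ := ((Real.norm_eq_abs _).ge.trans (norm_fst_le q.1)).trans n1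
  have n4 : |⟪q.1.2, v x⟫| ≤ ‖q‖ := ((abs_inner_le hv1 _ x).trans (norm_snd_le q.1)).trans n1
  have n5 : |⟪q.2, v x⟫| ≤ ‖q‖ := (abs_inner_le hv1 _ x).trans n2
  have b2 : C * |q.1.1 + ⟪q.2, v x⟫| ≤ C * (2 * ‖q‖) :=
    mul_le_mul_of_nonneg_left ((abs_add_le _ _).trans (by linarith)) hC
  simp only [Prod.fst_add, Prod.snd_add, inner_add_left]
  obtain ⟨b3, b4⟩ := abs_le.1 (b.trans b2)
  obtain ⟨c1, c2⟩ := abs_le.1 n4
  rw [abs_le]
  constructor <;> linarith

lemma lip_patBase (hk : Ker f a ν) (hw : Wt w) (hv : Measurable v) (hv1 : ∀ x, ‖v x‖ = 1) {σ C : ℝ}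
    (hC : 0 ≤ C) (hl : ∀ y z : ℝ, |Real.log (kU a ν σ (y + z)) - Real.log (kU a ν σ y)| ≤ C * |z|) :
    Lip (1 + C) (patBase μ w v a ν σ) := by
  refine ⟨((measurable_kU_right hk σ).log.comp measurable_fst).add
    ((lip_hBase (μ := μ) hw hv hv1).meas.comp measurable_snd), by linarith, fun p q => ?_⟩
  have b1 := (hl p.1 q.1).trans (mul_le_mul_of_nonneg_left ((Real.norm_eq_abs _).ge.trans (norm_fst_le q)) hC)
  have b2 := ((lip_hBase (μ := μ) hw hv hv1).lip p.2 q.2).trans
    ((one_mul _).le.trans (norm_snd_le q))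
  simp only [patBase, Prod.fst_add, Prod.snd_add]
  obtain ⟨c1, c2⟩ := abs_le.1 b1
  obtain ⟨c3, c4⟩ := abs_le.1 b2
  rw [abs_le]
  constructor <;> linarith

/-- The interpolated functional in the state of the expansion. -/
lemma phiI_swap (hk : Ker f a ν) (hw : Wt w) (hv : Measurable v) (hv1 : ∀ x, ‖v x‖ = 1)
    (h : Adm ls q0 r0 S) {p K : ℝ} (hp0 : 0 ≤ p) (hp1 : p ≤ 1)
    (hK : Lip K (patTop μ w v a ν ((1 - p) * S))) (c : ℝ) :
    phiI μ w v a ν S q0 (c * r0) (ls.map (scaleR c)) p =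
      ∫ ω : ℝ × E, ∫ g : E, casc (((stdGaussian ℝ).prod (stdGaussian E)).prod (stdGaussian E)) levM
        (joint (fun i z => (sy (Real.sqrt (1 - p)) i z.1, sh c i z.2)) fun _ => 0) ls
        (patTop μ w v a ν ((1 - p) * S))
        (((Real.sqrt (1 - p) * Real.sqrt q0) • ω.1, Real.sqrt (c * r0) • ω.2), Real.sqrt p • g)
        ∂stdGaussian E ∂(stdGaussian ℝ).prod (stdGaussian E) := by
  set κ := Real.sqrt (1 - p)
  set k := Real.sqrt p
  set T := patTop μ w v a ν ((1 - p) * S)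
  have hTg : ∀ g : E, Lip K fun y : ℝ × E => T (y, k • g) := fun g =>
    ⟨hK.meas.comp (measurable_id.prodMk measurable_const), hK.nonneg, fun x y => by
      have h2 := hK.lip (x, k • g) (y, 0)
      simp only [Prod.mk_add_mk, add_zero] at h2
      exact h2.trans_eq (by simp [Prod.norm_def])⟩
  have e : ∀ g : E, mixPot μ w v a ν S p g = fun q => T (swapHom E κ q, k • g) := fun g => by
    funext q
    simp only [mixPot, T, patTop, swapHom, AddMonoidHom.mk'_apply, real_inner_smul_left]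
    congr 1
    refine integral_congr_ae (Eventually.of_forall fun x => ?_)
    simp only [κ, k]
    rw [add_comm (Real.sqrt p * _)]
  set γ' := (stdGaussian ℝ).prod (stdGaussian E)
  set σ' : Lev → ℝ × E → ℝ × E := fun i z => (sy κ i z.1, sh c i z.2)
  have hg' : Good γ' levM σ' ls := fun i hi => ⟨h.ord.pos i hi, (shift_smul _).prodMk (shift_smul _)⟩
  have hσ : ∀ (i : Lev) (z : E × ℝ), swapHom E κ (sh c i z.1, sy 1 i z.2) = σ' i z.swap := fun i z => by
    simp [swapHom, σ', sy, sh, mul_assoc]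
  have hswp : ((stdGaussian E).prod (stdGaussian ℝ)).map Prod.swap = γ' := Measure.prod_swap
  have hgs : Good ((stdGaussian E).prod (stdGaussian ℝ)) levM (fun i z => σ' i z.swap) ls := fun i hi => by
    obtain ⟨hm, hs⟩ := hg' i hi
    refine ⟨hm, hs.meas.comp measurable_swap, fun t => ?_⟩
    have hmz : Measurable fun z : ℝ × E => Real.exp (t * ‖σ' i z‖) := (hs.meas.norm.const_mul t).exp
    have h2 := hs.int t
    rw [← hswp] at h2
    exact (integrable_map_measure hmz.aestronglyMeasurable measurable_swap.aemeasurable).1 h2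
  have hstep : ∀ (g : E) (z : E × ℝ), casc ((stdGaussian E).prod (stdGaussian ℝ)) levM
      (fun i z => (sh c i z.1, sy 1 i z.2)) ls (mixPot μ w v a ν S p g)
      (Real.sqrt (c * r0) • z.1, Real.sqrt q0 * z.2) =
      casc (γ'.prod (stdGaussian E)) levM (joint σ' fun _ => 0) ls T
        (((κ * Real.sqrt q0) • z.2, Real.sqrt (c * r0) • z.1), k • g) := fun g z => by
    rw [e g, casc_map ((stdGaussian E).prod (stdGaussian ℝ)) levM
      (fun i z => (sh c i z.1, sy 1 i z.2)) (swapHom E κ) (fun y => T (y, k • g)) ls,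
      casc_joint_zero]
    have hx : swapHom E κ (Real.sqrt (c * r0) • z.1, Real.sqrt q0 * z.2) =
        ((κ * Real.sqrt q0) • z.2, Real.sqrt (c * r0) • z.1) := by
      simp [swapHom, mul_assoc]
    rw [hx]
    simp only [hσ]
    refine casc_law (hTg g) hgs hg' (fun i hi => ?_) _
    rw [← hswp, Measure.map_map (hg' i hi).2.meas measurable_swap]
    rfl
  rw [phiI_eq]
  simp only [hstep]
  set F : (ℝ × E) × E → ℝ := fun q => casc (γ'.prod (stdGaussian E)) levM (joint σ' fun _ => 0) ls T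
    (((κ * Real.sqrt q0) • q.1.1, Real.sqrt (c * r0) • q.1.2), k • q.2)
  have hF : Integrable F (γ'.prod (stdGaussian E)) := by
    have h2 := (hK.casc (good_joint (F := E) (fun _ => 0) hg')).integrable
      (((shift_smul (κ * Real.sqrt q0)).prodMk (shift_smul (Real.sqrt (c * r0)))).prodMk (shift_smul k)) 0
    simpa [F] using h2
  rw [integral_integral_swap (f := fun (ω : ℝ × E) (g : E) => F (ω, g)) hF]
  refine integral_congr_ae (Eventually.of_forall fun g => ?_)
  exact integral_prod_swap fun ω : ℝ × E => F (ω, g)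

/-- The interpolated pattern up to second order. -/
theorem phi_upper (hk : Ker f a ν) (h : Adm ls q0 r0 S) :
    ∃ C, 0 ≤ C ∧ ∀ {μ : Measure X} [IsProbabilityMeasure μ] {w : X → ℝ} {v : X → E}, Wt w → Measurable v →
      (∀ x, ‖v x‖ = 1) → ∀ c p, 0 ≤ p → p ≤ 1 / 2 →
      phiI μ w v a ν S q0 (c * r0) (ls.map (scaleR c)) p ≤
        tgtA a ν ls q0 (Real.sqrt (1 - p)) ((1 - p) * S) + fldPsi μ v ls r0 c w +
          p / 2 * (tgtH a ν ls q0 (Real.sqrt (1 - p)) ((1 - p) * S) -
            pen levM (fun _ => 0) ls 1 fun j =>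
              tgtR a ν ls q0 (Real.sqrt (1 - p)) ((1 - p) * S) j * fldR μ v ls r0 c w j) +
          C * Real.sqrt p ^ 3 := by
  have hS := h.S_pos
  have hσ₀ : 0 < S / 2 := by linarith
  obtain ⟨Ck, hCk1, hCk⟩ := kern_bounds hk hσ₀
  obtain ⟨Cp, hCp1, hCp⟩ := approx_pat (X := X) (E := E) hk hσ₀
  obtain ⟨C', hC'0, hexp⟩ := expand_mean (Z := ℝ × E) (S := ℝ × E) (F := E) levM ls h.ord.bounds
    (C := Cp + Ck) (by linarith)
  refine ⟨C', hC'0, ?_⟩
  intro μ _ w v hw hv hv1 c p hp0 hp1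
  set κ := Real.sqrt (1 - p)
  set σ := (1 - p) * S
  have hσ : S / 2 ≤ σ := by simp only [σ]; nlinarith
  have hσ0 : 0 ≤ σ := hσ₀.le.trans hσ
  have hl := fun y z => (hCk σ hσ y z).2.2.2.2
  set γ' := (stdGaussian ℝ).prod (stdGaussian E)
  have hK := lip_patTop (μ := μ) hk hw hv hv1 hσ0 (by linarith) hl
  have hB := lip_patBase (μ := μ) hk hw hv hv1 (by linarith) hl
  have hg : Good γ' levM (fun i (z : ℝ × E) => (sy κ i z.1, sh c i z.2)) ls :=
    fun i hi => ⟨h.ord.pos i hi, (shift_smul _).prodMk (shift_smul _)⟩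
  have htop : ∀ (y : ℝ × E) (t : ℝ), 0 ≤ t → ∫ z : E, patQuad μ w v a ν σ (y, Real.sqrt t • z) ∂stdGaussian E =
      ((fun q : ℝ × E => kH a ν σ q.1 • (1 : ℝ)) y * t + (fun _ : ℝ × E => (0 : ℝ)) y -
        t * ‖patLin μ w v a ν σ y‖ ^ 2) / 2 := fun y t ht => by
    simp only [patQuad]
    rw [integral_div, integral_sub ((integrable_hSq hw hv hv1 _ _).const_mul _) (integrable_inner_sq' _ _),
      integral_const_mul, integral_hSq hw hv hv1 _ ht, integral_inner_sq', Real.sq_sqrt ht]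
    simp
  have key := hexp (γ := γ') (σ := fun i z => (sy κ i z.1, sh c i z.2)) (e := fun _ => 0)
    (ε := Real.sqrt p) (P := γ') (x := fun ω : ℝ × E => ((κ * Real.sqrt q0) • ω.1, Real.sqrt (c * r0) • ω.2))
    (acc := p) (a1 := fun y : ℝ × E => kH a ν σ y.1 • (1 : ℝ)) (a0 := fun _ => 0) hg (fun i _ => ⟨le_rfl, by simp⟩) (Real.sqrt_le_one.2 (by linarith)) hp0 le_rfl hB hK
    ((hCp hw hv hv1 hσ (Real.sqrt_nonneg p)).mono (by linarith) (Real.sqrt_nonneg p) (by linarith))
    (((measurable_kH hk σ).comp measurable_fst).smul measurable_const) measurable_const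
    (fun y => by simpa using ((hCk σ hσ y.1 0).2.1).trans (by linarith : Ck ≤ Cp + Ck))
    (fun _ => by rw [abs_zero]; linarith) htop ((shift_smul _).prodMk (shift_smul _))
  rw [← phiI_swap hk hw hv hv1 h hp0 (by linarith) hK c] at key
  have hlU := lip_lkU hk (by linarith : 0 ≤ Ck) (fun σ' hσ' y z => (hCk σ' hσ' y z).2.2.2.2) hσ
  have hG := lip_hBase (μ := μ) hw hv hv1
  have hgy := good_sy h.ord κ
  have hgh := good_sh (E := E) h.ord c
  have e0 : ∀ q : ℝ × E, casc γ' levM (fun i z => (sy κ i z.1, sh c i z.2)) ls (patBase μ w v a ν σ) q =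
      casc (stdGaussian ℝ) levM (sy κ) ls (lkU a ν σ) q.1 +
        casc (stdGaussian E) levM (sh c) ls (hBase μ w v) q.2 := fun q =>
    casc_prod hlU hG hgy hgh q.1 q.2
  have e1 : ∀ q : ℝ × E, cmean γ' levM (fun i z => (sy κ i z.1, sh c i z.2)) ls (patBase μ w v a ν σ)
      (fun q => kH a ν σ q.1 • (1 : ℝ)) q =
      cmean (stdGaussian ℝ) levM (sy κ) ls (lkU a ν σ) (kH a ν σ) q.1 := fun q =>
    (cmean_prod (F := kH a ν σ) (F' := fun _ : E => (1 : ℝ)) hlU hG hgy hgh q.1 q.2).trans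
      (by rw [cmean_const hG 1 hgh, smul_eq_mul, mul_one])
  have e2 : ∀ (j : ℕ) (q : ℝ × E), csq γ' levM (fun i z => (sy κ i z.1, sh c i z.2)) ls
      (patBase μ w v a ν σ) (patLin μ w v a ν σ) j q =
      csq (stdGaussian ℝ) levM (sy κ) ls (lkU a ν σ) (kD a ν σ) j q.1 *
        csq (stdGaussian E) levM (sh c) ls (hBase μ w v) (hMean μ w v) j q.2 := fun j q =>
    csq_prod hlU hG hgy hgh j q.1 q.2
  simp only [e0, e1, e2, cmean_const hB _ hg, integral_const, probReal_univ, one_smul] at key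
  have hA : ∫ ω : ℝ × E, (casc (stdGaussian ℝ) levM (sy κ) ls (lkU a ν σ) ((κ * Real.sqrt q0) • ω.1) +
      casc (stdGaussian E) levM (sh c) ls (hBase μ w v) (Real.sqrt (c * r0) • ω.2)) ∂γ' =
      tgtA a ν ls q0 κ σ + fldPsi μ v ls r0 c w :=
    integral_prod_add
      (g := fun x : ℝ => casc (stdGaussian ℝ) levM (sy κ) ls (lkU a ν σ) ((κ * Real.sqrt q0) • x))
      (by simpa using (hlU.casc hgy).integrable (shift_smul (κ * Real.sqrt q0)) 0)
      (by simpa using (hG.casc hgh).integrable (shift_smul (Real.sqrt (c * r0))) 0)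
  have hH : ∫ ω : ℝ × E, cmean (stdGaussian ℝ) levM (sy κ) ls (lkU a ν σ) (kH a ν σ)
      ((κ * Real.sqrt q0) • ω.1) ∂γ' = tgtH a ν ls q0 κ σ := by
    rw [integral_fun_fst fun x : ℝ =>
      cmean (stdGaussian ℝ) levM (sy κ) ls (lkU a ν σ) (kH a ν σ) ((κ * Real.sqrt q0) • x),
      probReal_univ, one_smul]
    rfl
  have hR : ∀ j, ∫ ω : ℝ × E, csq (stdGaussian ℝ) levM (sy κ) ls (lkU a ν σ) (kD a ν σ) j
      ((κ * Real.sqrt q0) • ω.1) * csq (stdGaussian E) levM (sh c) ls (hBase μ w v) (hMean μ w v) j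
      (Real.sqrt (c * r0) • ω.2) ∂γ' = tgtR a ν ls q0 κ σ j * fldR μ v ls r0 c w j := fun j =>
    integral_prod_mul
      (fun x : ℝ => csq (stdGaussian ℝ) levM (sy κ) ls (lkU a ν σ) (kD a ν σ) j ((κ * Real.sqrt q0) • x))
      (fun y : E => csq (stdGaussian E) levM (sh c) ls (hBase μ w v) (hMean μ w v) j (Real.sqrt (c * r0) • y))
  rw [hA, hH] at key
  simp only [hR] at key
  have hs0 : (ls.map fun _ => (0 : ℝ)).sum = 0 := by simp
  rw [hs0, pen_zero_scale] at key
  have key2 := (abs_le.1 key).2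
  linear_combination key2

end Vale.Agent.P157.RSB
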