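import Vale.Agent.P157.RSB.Approx

/-!
The expansion of a whole nested functional and the Gaussian average of its quadratic term.
-/

namespace Vale.Agent.P157.RSB

open MeasureTheory ProbabilityTheory Filter
open scoped RealInnerProductSpace Topology

variable {ι Z S F : Type} [MeasurableSpace Z] [NormedAddCommGroup S] [MeasurableSpace S] [BorelSpace S]
  [SecondCountableTopology S] [NormedAddCommGroup F] [InnerProductSpace ℝ F] [FiniteDimensional ℝ F]
  [MeasurableSpace F] [BorelSpace F]

lemma good_joint {γ : Measure Z} [IsProbabilityMeasure γ] {m : ι → ℝ} {σ : ι → Z → S} (e : ι → ℝ)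
    {ls : List ι} (h : Good γ m σ ls) :
    Good (γ.prod (stdGaussian F)) m (joint (F := F) σ e) ls :=
  fun i hi => ⟨(h i hi).1, ((h i hi).2).prodMk (shift_smul _)⟩

/-- The approximation survives all levels. -/
theorem approx_casc (m : ι → ℝ) : ∀ (ls : List ι), (∀ i ∈ ls, 0 < m i ∧ m i ≤ 1) → ∀ C, 1 ≤ C →
    ∃ C', 1 ≤ C' ∧ ∀ {γ : Measure Z} [IsProbabilityMeasure γ] {σ : ι → Z → S} {e : ι → ℝ} {ε K K' : ℝ}
      {G : S → ℝ} {G' : S × F → ℝ} {Λ : S → F} {Q : S × F → ℝ}, Good γ m σ ls →
      (∀ i ∈ ls, 0 ≤ e i ∧ Real.sqrt (e i) ≤ ε) → ε ≤ 1 → Lip K G → Lip K' G' →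
      Approx C ε G G' Λ Q →
      Approx C' ε (casc γ m σ ls G) (casc (γ.prod (stdGaussian F)) m (joint σ e) ls G')
        (cmean γ m σ ls G Λ) (qRec γ m σ e G Λ Q ls)
  | [], _, C, hC => ⟨C, hC, by
      intro γ _ σ e ε K K' G G' Λ Q _ _ _ _ _ hA
      exact hA⟩
  | i :: ls, hm, C, hC => by
    obtain ⟨C1, hC1, h1⟩ := approx_casc m ls (fun j hj => hm j (List.mem_cons_of_mem _ hj)) C hC
    obtain ⟨h0, hle⟩ := hm i (List.mem_cons_self ..)
    obtain ⟨C2, hC2, h2⟩ := approx_step (Z := Z) (S := S) (F := F) h0 hle hC1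
    refine ⟨C2, hC2, ?_⟩
    intro γ _ σ e ε K K' G G' Λ Q hg he hε hG hG' hA
    have hin := h1 (good_cons.1 hg).2 (fun j hj => he j (List.mem_cons_of_mem _ hj)) hε hG hG' hA
    exact h2 (good_cons.1 hg).1.2.meas (he i (List.mem_cons_self ..)).1 (he i (List.mem_cons_self ..)).2 hε
      (hG.casc (good_cons.1 hg).2).meas
      (hG'.casc (good_cons.1 (good_joint (F := F) e hg)).2).meas
      (fun x => (casc_wgt hg hG x).int) hin

section pen

variable {γ : Measure Z} [IsProbabilityMeasure γ] {X : Z → ℝ} {c : ℝ}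

omit [IsProbabilityMeasure γ] in
lemma integrable_pen (m d : ι → ℝ) : ∀ (ls : List ι) (q : ℝ) (R : Z → ℕ → ℝ),
    (∀ j, Integrable (fun z => Real.exp (c * X z) * R z j) γ) →
    Integrable (fun z => Real.exp (c * X z) * pen m d ls q (R z)) γ
  | [], q, R, h => ((h 0).const_mul q).congr (Eventually.of_forall fun z => by simp only [pen]; ring)
  | i :: ls, q, R, h => (((((h 0).const_mul (m i * q)).sub ((h 1).const_mul (m i * (q + d i)))).add
      (integrable_pen m d ls (q + d i) (fun z j => R z (j + 1)) fun j => h (j + 1)))).congr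
      (Eventually.of_forall fun z => by simp only [pen, Pi.add_apply, Pi.sub_apply]; ring)

omit [IsProbabilityMeasure γ] in
lemma tilt_pen (m d : ι → ℝ) : ∀ (ls : List ι) (q : ℝ) (R : Z → ℕ → ℝ),
    (∀ j, Integrable (fun z => Real.exp (c * X z) * R z j) γ) →
    tilt γ c X (fun z => pen m d ls q (R z)) = pen m d ls q fun j => tilt γ c X fun z => R z j
  | [], q, R, h => by simp only [pen]; exact tilt_const_mul q _
  | i :: ls, q, R, h => by
    have ih := tilt_pen m d ls (q + d i) (fun z j => R z (j + 1)) fun j => h (j + 1)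
    simp only [pen, sub_eq_add_neg, ← neg_mul]
    have i0 : ∀ k, Integrable (fun z => Real.exp (c * X z) • (k * R z 0)) γ := fun k =>
      ((h 0).const_mul k).congr (Eventually.of_forall fun z => by simp only [smul_eq_mul]; ring)
    have i1 : ∀ k, Integrable (fun z => Real.exp (c * X z) • (k * R z 1)) γ := fun k =>
      ((h 1).const_mul k).congr (Eventually.of_forall fun z => by simp only [smul_eq_mul]; ring)
    have i01 : ∀ k k', Integrable (fun z => Real.exp (c * X z) • (k * R z 0 + k' * R z 1)) γ :=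
      fun k k' => ((i0 k).add (i1 k')).congr (Eventually.of_forall fun z => by
        simp only [Pi.add_apply, smul_eq_mul]; ring)
    rw [tilt_add (i01 _ _) (integrable_pen m d ls _ _ fun j => h (j + 1)), tilt_add (i0 _) (i1 _),
      tilt_const_mul, tilt_const_mul, ih]

end pen

lemma integrable_sq_bound {C ε : ℝ} : Integrable (fun h : F => C * (ε + ‖h‖) ^ 2) (stdGaussian F) := by
  refine ((((integrable_norm_pow (E := F) 2).add ((integrable_norm_pow (E := F) 1).const_mul (2 * ε))).add
    (integrable_const (ε ^ 2))).const_mul C).congr (Eventually.of_forall fun h => ?_)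
  simp only [Pi.add_apply]
  ring

lemma integral_inner_sq' (a : F) (k : ℝ) :
    ∫ h : F, ⟪a, k • h⟫ ^ 2 ∂stdGaussian F = k ^ 2 * ‖a‖ ^ 2 := by
  have e : ∀ h : F, ⟪a, k • h⟫ ^ 2 = k ^ 2 * ⟪h, a⟫ ^ 2 := fun h => by
    rw [real_inner_smul_right, real_inner_comm, mul_pow]
  simp only [e]
  rw [integral_const_mul, integral_inner_sq]

/-- Merging the increment of a level with the outer perturbation. -/
lemma integral_gauss_merge {φ : F → ℝ} (hφ : Measurable φ) {acc ee : ℝ} (ha : 0 ≤ acc) (he : 0 ≤ ee)
    (hi : Integrable (fun p : F × F => φ (Real.sqrt acc • p.1 + Real.sqrt ee • p.2))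
      ((stdGaussian F).prod (stdGaussian F))) :
    ∫ z : F, ∫ h : F, φ (Real.sqrt acc • z + Real.sqrt ee • h) ∂stdGaussian F ∂stdGaussian F =
      ∫ u : F, φ (Real.sqrt (acc + ee) • u) ∂stdGaussian F := by
  have hg := gauss_add (E := F) (a := Real.sqrt acc) (b := Real.sqrt ee) (c := Real.sqrt (acc + ee))
    (by rw [Real.sq_sqrt ha, Real.sq_sqrt he, Real.sq_sqrt (add_nonneg ha he)])
  have h1 : Measurable fun p : F × F => Real.sqrt acc • p.1 + Real.sqrt ee • p.2 := by fun_prop
  have h2 : Measurable fun u : F => Real.sqrt (acc + ee) • u := by fun_prop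
  rw [← integral_prod (fun p : F × F => φ (Real.sqrt acc • p.1 + Real.sqrt ee • p.2)) hi,
    ← integral_map h1.aemeasurable hφ.aestronglyMeasurable, hg,
    integral_map h2.aemeasurable hφ.aestronglyMeasurable]

/-- The Gaussian average of the quadratic term. -/
theorem integral_qRec {γ : Measure Z} [IsProbabilityMeasure γ] {m : ι → ℝ} {σ : ι → Z → S}
    {e : ι → ℝ} {K ε C : ℝ} {G : S → ℝ} {Λ : S → F} {Q : S × F → ℝ} {a1 a0 : S → ℝ}
    (hε0 : 0 ≤ ε) (hG : Lip K G) (hΛ : Measurable Λ) (hΛC : ∀ x, ‖Λ x‖ ≤ C)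
    (ha1 : Measurable a1) (ha0 : Measurable a0) (hb1 : ∀ x, |a1 x| ≤ C) (hb0 : ∀ x, |a0 x| ≤ C)
    (htop : ∀ x acc, 0 ≤ acc → ∫ z : F, Q (x, Real.sqrt acc • z) ∂stdGaussian F =
      (a1 x * acc + a0 x - acc * ‖Λ x‖ ^ 2) / 2) :
    ∀ {ls : List ι}, Good γ m σ ls → (∀ i ∈ ls, 0 ≤ e i) →
    (∀ ls', ls' <:+ ls → ∃ C', Measurable (qRec γ m σ e G Λ Q ls') ∧
      ∀ x ζ, |qRec γ m σ e G Λ Q ls' (x, ζ)| ≤ C' * (ε + ‖ζ‖) ^ 2) →
    ∀ x acc, 0 ≤ acc → ∫ z : F, qRec γ m σ e G Λ Q ls (x, Real.sqrt acc • z) ∂stdGaussian F =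
      (cmean γ m σ ls G a1 x * (acc + (ls.map e).sum) + cmean γ m σ ls G a0 x -
        pen m e ls acc fun j => csq γ m σ ls G Λ j x) / 2
  | [], _, _, _, x, acc, hacc => by
    simp only [qRec, cmean, List.map_nil, List.sum_nil, add_zero, pen, csq]
    exact htop x acc hacc
  | i :: ls, hg, he, hreg, x, acc, hacc => by
    have hgl := (good_cons.1 hg).2
    have ih := integral_qRec hε0 hG hΛ hΛC ha1 ha0 hb1 hb0 htop hgl
      (fun j hj => he j (List.mem_cons_of_mem _ hj))
      fun ls' h' => hreg ls' (h'.trans (List.suffix_cons i ls))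
    obtain ⟨C', hQm, hQb⟩ := hreg ls (List.suffix_cons i ls)
    have hei := he i (List.mem_cons_self ..)
    have hwg := casc_wgt hg hG x
    set γF := stdGaussian F
    set X : Z → ℝ := fun z => casc γ m σ ls G (x + σ i z) with hX
    set lam : Z → F := fun z => cmean γ m σ ls G Λ (x + σ i z) with hlam
    set τ := γ.tilted fun z => m i * X z
    have : IsProbabilityMeasure τ := isProbabilityMeasure_tilted hwg.int
    have hsh : Measurable fun z => x + σ i z := (good_cons.1 hg).1.2.meas.const_add x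
    have hlamm : Measurable lam := (measurable_cmean hG hΛ hgl).comp hsh
    have hlamb : ∀ z, ‖lam z‖ ≤ C := fun z => norm_cmean_le hG hΛC hgl _
    set J : Z → F → ℝ := fun z u => qRec γ m σ e G Λ Q ls (x + σ i z, u) + m i / 2 * ⟪lam z, u⟫ ^ 2
    have hJm : Measurable (Function.uncurry J) := by
      have hp : Measurable fun p : Z × F => ((x + σ i p.1, p.2) : S × F) :=
        (hsh.comp measurable_fst).prodMk measurable_snd
      exact (hQm.comp hp).add ((((hlamm.comp measurable_fst).inner measurable_snd).pow_const 2).const_mul _)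
    set C'' := |C'| + |m i / 2| * C ^ 2
    have hJb : ∀ z u, |J z u| ≤ C'' * (ε + ‖u‖) ^ 2 := fun z u => by
      refine (abs_add_le _ _).trans ?_
      rw [abs_mul, abs_of_nonneg (sq_nonneg ⟪lam z, u⟫), add_mul, mul_assoc]
      refine add_le_add ((hQb _ _).trans (mul_le_mul_of_nonneg_right (le_abs_self C') (sq_nonneg _)))
        (mul_le_mul_of_nonneg_left ?_ (abs_nonneg _))
      rw [← sq_abs, ← mul_pow]
      refine pow_le_pow_left₀ (abs_nonneg _) ((abs_real_inner_le_norm _ _).trans ?_) 2
      exact mul_le_mul (hlamb z) (le_add_of_nonneg_left hε0) (norm_nonneg _) ((norm_nonneg _).trans (hlamb z))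
    set k1 := Real.sqrt acc
    set k2 := Real.sqrt (e i)
    have hb2 : ∀ p : F × F, (ε + ‖k1 • p.1 + k2 • p.2‖) ^ 2 ≤
        2 * (ε + |k1| * ‖p.1‖) ^ 2 + 2 * (|k2| * ‖p.2‖) ^ 2 := fun p => by
      have h := norm_add_le (k1 • p.1) (k2 • p.2)
      rw [norm_smul, norm_smul, Real.norm_eq_abs, Real.norm_eq_abs] at h
      have h2 : ε + ‖k1 • p.1 + k2 • p.2‖ ≤ (ε + |k1| * ‖p.1‖) + |k2| * ‖p.2‖ := by linarith
      refine (pow_le_pow_left₀ (by positivity) h2 2).trans ?_
      nlinarith [sq_nonneg ((ε + |k1| * ‖p.1‖) - |k2| * ‖p.2‖)]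
    have hdomA : Integrable (fun p : F × F => C'' * (2 * (ε + |k1| * ‖p.1‖) ^ 2 + 2 * (|k2| * ‖p.2‖) ^ 2))
        (γF.prod γF) := by
      have n1 := integrable_norm_pow (E := F) 1
      have n2 := integrable_norm_pow (E := F) 2
      refine (((((integrable_const (ε ^ 2)).add (n1.const_mul (2 * ε * |k1|))).add
        (n2.const_mul (|k1| ^ 2))).comp_fst γF |>.const_mul 2).add
        (((n2.const_mul (|k2| ^ 2)).comp_snd γF).const_mul 2) |>.const_mul C'').congr
        (Eventually.of_forall fun p => ?_)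
      simp only [Pi.add_apply]
      ring
    have hC''0 : 0 ≤ C'' := by positivity
    have hdom : ∀ z, Integrable (fun p : F × F => J z (k1 • p.1 + k2 • p.2)) (γF.prod γF) := fun z =>
      Integrable.mono' hdomA ((hJm.comp measurable_prodMk_left).comp (by fun_prop)).aestronglyMeasurable
        (Eventually.of_forall fun p => (hJb z _).trans (mul_le_mul_of_nonneg_left (hb2 p) hC''0))
    -- the mixture over the level
    have hswap : Integrable (fun p : F × Z => ∫ h, J p.2 (k1 • p.1 + k2 • h) ∂γF) (γF.prod τ) := by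
      have hbig : Integrable (fun q : (F × Z) × F => J q.1.2 (k1 • q.1.1 + k2 • q.2))
          ((γF.prod τ).prod γF) := by
        have hmap : Measurable fun q : (F × Z) × F => ((q.1.2, k1 • q.1.1 + k2 • q.2) : Z × F) :=
          (measurable_snd.comp measurable_fst).prodMk
            (((measurable_fst.comp measurable_fst).const_smul k1).add (measurable_snd.const_smul k2))
        refine Integrable.mono' (g := fun q : (F × Z) × F =>
          C'' * (2 * (ε + |k1| * ‖q.1.1‖) ^ 2 + 2 * (|k2| * ‖q.2‖) ^ 2)) ?_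
          (hJm.comp hmap).aestronglyMeasurable
          (Eventually.of_forall fun q => (hJb _ _).trans (mul_le_mul_of_nonneg_left (hb2 (q.1.1, q.2)) hC''0))
        have n1 := integrable_norm_pow (E := F) 1
        have n2 := integrable_norm_pow (E := F) 2
        refine ((((((integrable_const (ε ^ 2)).add (n1.const_mul (2 * ε * |k1|))).add
          (n2.const_mul (|k1| ^ 2))).comp_fst τ).comp_fst γF |>.const_mul 2).add
          (((n2.const_mul (|k2| ^ 2)).comp_snd (γF.prod τ)).const_mul 2) |>.const_mul C'').congr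
          (Eventually.of_forall fun p => ?_)
        simp only [Pi.add_apply]
        ring
      exact hbig.integral_prod_left
    have hqi : Integrable (fun z : F => ⟪cmean γ m σ (i :: ls) G Λ x, k1 • z⟫ ^ 2) γF := by
      refine Integrable.mono' ((integrable_norm_pow (E := F) 2).const_mul
        (‖cmean γ m σ (i :: ls) G Λ x‖ ^ 2 * |k1| ^ 2))
        (((measurable_const.inner (measurable_id.const_smul k1))).pow_const 2).aestronglyMeasurable
        (Eventually.of_forall fun z => ?_)
      rw [Real.norm_eq_abs, abs_pow, ← mul_pow, ← mul_pow]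
      refine pow_le_pow_left₀ (abs_nonneg _) ((abs_real_inner_le_norm _ _).trans (le_of_eq ?_)) 2
      rw [norm_smul, Real.norm_eq_abs]; ring
    have hdef : ∀ z : F, qRec γ m σ e G Λ Q (i :: ls) (x, k1 • z) =
        ∫ w, ∫ h, J w (k1 • z + k2 • h) ∂γF ∂τ -
          m i / 2 * ⟪cmean γ m σ (i :: ls) G Λ x, k1 • z⟫ ^ 2 := fun z => by
      simp only [qRec]
      rw [tilt_eq_integral]
    simp only [hdef]
    rw [integral_sub hswap.integral_prod_left (hqi.const_mul _), integral_const_mul, integral_inner_sq',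
      integral_integral_swap (f := fun z w => ∫ h, J w (k1 • z + k2 • h) ∂γF) hswap,
      Real.sq_sqrt hacc, ← tilt_eq_integral]
    have hinner : ∀ w, ∫ z, ∫ h, J w (k1 • z + k2 • h) ∂γF ∂γF =
        ((cmean γ m σ ls G a1 (x + σ i w) * (acc + e i + (ls.map e).sum) +
          cmean γ m σ ls G a0 (x + σ i w) -
          pen m e ls (acc + e i) fun j => csq γ m σ ls G Λ j (x + σ i w)) / 2) +
        m i / 2 * (acc + e i) * csq γ m σ ls G Λ 0 (x + σ i w) := fun w => by
      rw [integral_gauss_merge (φ := J w) (hJm.comp measurable_prodMk_left) hacc hei (hdom w)]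
      have i2 : Integrable (fun u : F => m i / 2 * ⟪lam w, Real.sqrt (acc + e i) • u⟫ ^ 2) γF := by
        refine Integrable.mono' (((integrable_norm_pow (E := F) 2).const_mul
          (|m i / 2| * (‖lam w‖ ^ 2 * Real.sqrt (acc + e i) ^ 2))))
          ((((measurable_const.inner (measurable_id.const_smul _))).pow_const 2).const_mul _).aestronglyMeasurable
          (Eventually.of_forall fun z => ?_)
        rw [Real.norm_eq_abs, abs_mul, abs_pow, ← mul_pow, mul_assoc |m i / 2|, ← mul_pow]
        refine mul_le_mul_of_nonneg_left (pow_le_pow_left₀ (abs_nonneg _)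
          ((abs_real_inner_le_norm _ _).trans (le_of_eq ?_)) 2) (abs_nonneg _)
        rw [norm_smul, Real.norm_eq_abs, abs_of_nonneg (Real.sqrt_nonneg _)]; ring
      have i1 : Integrable (fun u : F => qRec γ m σ e G Λ Q ls (x + σ i w, Real.sqrt (acc + e i) • u)) γF := by
        have hp : Measurable fun u : F => ((x + σ i w, Real.sqrt (acc + e i) • u) : S × F) :=
          measurable_const.prodMk (measurable_id.const_smul _)
        refine Integrable.mono' (g := fun u : F => |C'| * (ε + Real.sqrt (acc + e i) * ‖u‖) ^ 2) ?_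
          (hQm.comp hp).aestronglyMeasurable (Eventually.of_forall fun u => ?_)
        · refine ((((integrable_const (ε ^ 2)).add ((integrable_norm_pow (E := F) 1).const_mul
            (2 * ε * Real.sqrt (acc + e i)))).add ((integrable_norm_pow (E := F) 2).const_mul
            (Real.sqrt (acc + e i) ^ 2))).const_mul |C'|).congr (Eventually.of_forall fun u => ?_)
          simp only [Pi.add_apply]; ring
        · rw [Real.norm_eq_abs]
          refine (hQb _ _).trans (le_of_le_of_eq (mul_le_mul_of_nonneg_right (le_abs_self C') (sq_nonneg _)) ?_)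
          rw [norm_smul, Real.norm_eq_abs, abs_of_nonneg (Real.sqrt_nonneg _)]
      simp only [J]
      rw [integral_add i1 i2, integral_const_mul, integral_inner_sq', Real.sq_sqrt (add_nonneg hacc hei),
        ih _ _ (add_nonneg hacc hei), csq_zero]
      ring
    simp only [hinner]
    set A := acc + e i + (ls.map e).sum
    have iC : ∀ {V : S → ℝ} {B : ℝ}, Measurable V → (∀ y, |V y| ≤ B) →
        Integrable (fun z => Real.exp (m i * X z) * V (x + σ i z)) γ := fun {V B} hV hB => by
      simpa only [smul_eq_mul] using hwg.integrable_smul (F := fun z => V (x + σ i z))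
        (hV.comp hsh).aestronglyMeasurable fun z => (Real.norm_eq_abs _).le.trans (hB _)
    have j1 := iC (measurable_cmean (γ := γ) (m := m) (σ := σ) hG ha1 hgl) fun y =>
      (Real.norm_eq_abs _).symm.le.trans (norm_cmean_le hG (fun y => (Real.norm_eq_abs _).le.trans (hb1 y)) hgl y)
    have j0 := iC (measurable_cmean (γ := γ) (m := m) (σ := σ) hG ha0 hgl) fun y =>
      (Real.norm_eq_abs _).symm.le.trans (norm_cmean_le hG (fun y => (Real.norm_eq_abs _).le.trans (hb0 y)) hgl y)
    have jR := fun j => iC (measurable_csq (γ := γ) (m := m) (σ := σ) hG hΛ hgl j) fun y =>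
      abs_csq_le hG hΛC hgl j y
    have jP := integrable_pen m e ls (acc + e i) (fun z j => csq γ m σ ls G Λ j (x + σ i z)) jR
    have eT : tilt γ (m i) X (fun w =>
        ((cmean γ m σ ls G a1 (x + σ i w) * A + cmean γ m σ ls G a0 (x + σ i w) -
          pen m e ls (acc + e i) fun j => csq γ m σ ls G Λ j (x + σ i w)) / 2) +
        m i / 2 * (acc + e i) * csq γ m σ ls G Λ 0 (x + σ i w)) =
        ((cmean γ m σ (i :: ls) G a1 x * A + cmean γ m σ (i :: ls) G a0 x -
          pen m e ls (acc + e i) fun j => csq γ m σ (i :: ls) G Λ (j + 1) x) / 2) +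
        m i / 2 * (acc + e i) * csq γ m σ (i :: ls) G Λ 1 x := by
      have eP := tilt_pen m e ls (acc + e i) (fun z j => csq γ m σ ls G Λ j (x + σ i z)) jR
      simp only [tilt, smul_eq_mul] at eP
      simp only [tilt, smul_eq_mul, cmean, csq, ← hX]
      rw [← eP]
      have j1' := j1.const_mul A
      have ja : Integrable (fun z => (A * (Real.exp (m i * X z) * cmean γ m σ ls G a1 (x + σ i z)) +
          Real.exp (m i * X z) * cmean γ m σ ls G a0 (x + σ i z) -
          Real.exp (m i * X z) * pen m e ls (acc + e i) fun j => csq γ m σ ls G Λ j (x + σ i z)) / 2) γ :=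
        ((j1'.add j0).sub jP).div_const 2
      have ew : ∀ w, Real.exp (m i * X w) * (((cmean γ m σ ls G a1 (x + σ i w) * A +
          cmean γ m σ ls G a0 (x + σ i w) - pen m e ls (acc + e i) fun j => csq γ m σ ls G Λ j (x + σ i w)) / 2) +
          m i / 2 * (acc + e i) * csq γ m σ ls G Λ 0 (x + σ i w)) =
          (A * (Real.exp (m i * X w) * cmean γ m σ ls G a1 (x + σ i w)) +
          Real.exp (m i * X w) * cmean γ m σ ls G a0 (x + σ i w) -
          Real.exp (m i * X w) * pen m e ls (acc + e i) fun j => csq γ m σ ls G Λ j (x + σ i w)) / 2 +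
          m i / 2 * (acc + e i) * (Real.exp (m i * X w) * csq γ m σ ls G Λ 0 (x + σ i w)) := fun w => by ring
      simp only [ew]
      rw [integral_add ja ((jR 0).const_mul _), integral_div, integral_sub (j1'.fun_add j0) jP,
        integral_add j1' j0, integral_const_mul, integral_const_mul]
      ring
    rw [eT]
    simp only [pen, List.map_cons, List.sum_cons, csq_zero, A]
    ring

end Vale.Agent.P157.RSB
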