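import Vale.Agent.P157.RSB.Cont

/-!
One small time step of the nested interpolation.
-/

namespace Vale.Agent.P157.RSB

open MeasureTheory ProbabilityTheory Filter
open scoped RealInnerProductSpace Topology

lemma pen_sub {ι : Type} (m d : ι → ℝ) : ∀ (ls : List ι) (q : ℝ) (R R' : ℕ → ℝ),
    pen m d ls q (fun j => R j - R' j) = pen m d ls q R - pen m d ls q R'
  | [], q, R, R' => by simp only [pen]; ring
  | i :: ls, q, R, R' => by simp only [pen]; rw [pen_sub m d ls]; ring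

lemma abs_cum_le {ι : Type} (d : ι → ℝ) : ∀ (ls : List ι) (q : ℝ) (j : ℕ), (∀ i ∈ ls, 0 ≤ d i) → 0 ≤ q →
    |cum d ls q j| ≤ q + (ls.map d).sum
  | [], q, j, _, hq => by simp [cum, abs_of_nonneg hq]
  | i :: ls, q, 0, hd, hq => by
    simp only [cum, abs_of_nonneg hq]
    exact le_add_of_nonneg_right (List.sum_nonneg fun t ht => by
      obtain ⟨k, hk, rfl⟩ := List.mem_map.1 ht
      exact hd k hk)
  | i :: ls, q, j + 1, hd, hq => by
    have h := abs_cum_le d ls (q + d i) j (fun k hk => hd k (List.mem_cons_of_mem _ hk))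
      (add_nonneg hq (hd i (List.mem_cons_self ..)))
    simp only [cum, List.map_cons, List.sum_cons]
    linarith

/-- The value per pattern of an admissible order parameter. -/
noncomputable def stepCst (a : ℝ) (ν : Measure ℝ) (ls : List Lev) (q0 r0 S : ℝ) : ℝ :=
  tgtA a ν ls q0 1 S + (pen levM (fun i => i.2.1) ls q0 (tgtR a ν ls q0 1 S) -
    (r0 + (ls.map fun i => i.2.2).sum)) / 2

variable {X : Type} [MeasurableSpace X] {E : Type} [NormedAddCommGroup E] [InnerProductSpace ℝ E]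
  [FiniteDimensional ℝ E] [MeasurableSpace E] [BorelSpace E]
variable {f : ℝ → ℝ} {a : ℝ} {ν : Measure ℝ} {ls : List Lev} {q0 r0 S : ℝ}

lemma abs_fldR_le {μ : Measure X} [IsProbabilityMeasure μ] {w : X → ℝ} {v : X → E} (hw : Wt w)
    (hv : Measurable v) (hv1 : ∀ x, ‖v x‖ = 1) (hl : Ordered ls) (c : ℝ) (j : ℕ) :
    |fldR μ v ls r0 c w j| ≤ 1 := by
  rw [fldR, ← Real.norm_eq_abs]
  refine (norm_integral_le_of_norm_le_const (C := (1 : ℝ)) (Eventually.of_forall fun h => ?_)).trans_eq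
    (by simp)
  exact ((Real.norm_eq_abs _).le.trans (abs_csq_le (lip_hBase (μ := μ) hw hv hv1)
    (fun H => norm_hMean_le hw hv hv1 H) (good_sh hl c) j _)).trans_eq (by norm_num)

/-- A pattern of probability `p` costs at most the time step `p` and the value per pattern. -/
theorem rsb_step (hk : Ker f a ν) (h : Adm ls q0 r0 S)
    (hcum : ∀ j, j ≤ ls.length → cum (fun i : Lev => i.2.2) ls r0 j = tgtR a ν ls q0 1 S j)
    {η : ℝ} (hη : 0 < η) :
    ∃ p0, 0 < p0 ∧ p0 ≤ 1 ∧ ∀ {μ : Measure X} [IsProbabilityMeasure μ] {w : X → ℝ} {v : X → E},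
      Wt w → Measurable v → (∀ x, ‖v x‖ = 1) → ∀ c p, 0 ≤ c → 0 < p → p ≤ p0 →
      p * avg (stdGaussian E) (pw f v) (fldPsi μ v ls r0 c) w + (1 - p) * fldPsi μ v ls r0 c w ≤
        fldPsi μ v ls r0 (c + p) w + p * (stepCst a ν ls q0 r0 S + η) := by
  obtain ⟨C1, hC1, hT⟩ := target_lower hk h
  obtain ⟨C2, p₁, hC2, hp₁, hF⟩ := field_lower (X := X) (E := E) h
  obtain ⟨C3, hC3, hP⟩ := phi_upper (X := X) (E := E) hk h
  set D : ℝ → ℝ := fun p => ∑ j ∈ Finset.range (ls.length + 1),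
    |tgtR a ν ls q0 (Real.sqrt (1 - p)) ((1 - p) * S) j - tgtR a ν ls q0 1 S j| with hD
  set L := 2 * (ls.length : ℝ) + 1
  have hlim : Tendsto (fun p : ℝ => L * D p + (C1 + C2 + C3) * Real.sqrt p) (𝓝 0) (𝓝 0) := by
    have h1 : Tendsto D (𝓝 0) (𝓝 0) := by
      have h2 := tendsto_finsetSum (Finset.range (ls.length + 1)) fun j _ =>
        ((tendsto_tgtR hk h j).sub_const (tgtR a ν ls q0 1 S j)).abs
      simpa using h2
    have h3 := (h1.const_mul L).add ((Real.continuous_sqrt.tendsto 0).const_mul (C1 + C2 + C3))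
    simpa using h3
  obtain ⟨δ, hδ, hδ'⟩ := Metric.eventually_nhds_iff.1 (hlim.eventually (Iio_mem_nhds hη))
  refine ⟨min (min (δ / 2) p₁) (1 / 2), by positivity, (min_le_right _ _).trans (by norm_num), ?_⟩
  intro μ _ w v hw hv hv1 c p hc hp hpp
  have hp2 : p ≤ 1 / 2 := hpp.trans (min_le_right _ _)
  have hpp1 : p ≤ p₁ := hpp.trans ((min_le_left _ _).trans (min_le_right _ _))
  have hpd : p ≤ δ / 2 := hpp.trans ((min_le_left _ _).trans (min_le_left _ _))
  have herr : L * D p + (C1 + C2 + C3) * Real.sqrt p < η :=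
    hδ' (by rw [Real.dist_eq, sub_zero, abs_of_pos hp]; linarith)
  have hconc := (concaveOn_phiI (μ := μ) hk hw hv hv1 h.S_pos (q0 := q0) (e0 := c * r0) (h.ord.scale c)).2
    (Set.left_mem_Icc.2 zero_le_one) (Set.right_mem_Icc.2 zero_le_one) (by linarith : (0 : ℝ) ≤ 1 - p)
    hp.le (by ring)
  simp only [smul_eq_mul, mul_zero, mul_one, zero_add] at hconc
  rw [phiI_zero hk hw hv hv1 h c, phiI_one hk hw hv hv1 h c] at hconc
  have hup := hP (μ := μ) hw hv hv1 c p hp.le hp2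
  have htl := hT p hp.le hp2
  have hfl := hF (μ := μ) hw hv hv1 c p hc hp.le hpp1
  set Rp := tgtR a ν ls q0 (Real.sqrt (1 - p)) ((1 - p) * S)
  set Rb := tgtR a ν ls q0 1 S with hRb
  set R := fldR μ v ls r0 c w
  have hdp : ∀ j, j ≤ ls.length → |Rp j - Rb j| ≤ D p := fun j hj =>
    Finset.single_le_sum (f := fun j => |Rp j - Rb j|) (fun j _ => abs_nonneg _)
      (Finset.mem_range.2 (Nat.lt_succ_of_le hj))
  have hD0 : 0 ≤ D p := Finset.sum_nonneg fun j _ => abs_nonneg _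
  have hm : ∀ i ∈ ls, 0 ≤ levM i ∧ levM i ≤ 1 := fun i hi => ⟨(h.ord.bounds i hi).1.le, (h.ord.bounds i hi).2⟩
  have e1 : pen levM (fun i => i.2.2) ls r0 R - pen levM (fun _ => 0) ls 1 (fun j => Rp j * R j) ≤ L * D p := by
    rw [pen_eq_zero_cum, pen_ext levM _ ls 1 (R' := fun j => Rb j * R j) (fun j hj => by
      simp only [hcum j hj, hRb]), ← pen_sub]
    refine (le_abs_self _).trans (abs_pen_zero_le levM ls hm fun j hj => ?_)
    rw [← sub_mul, abs_mul, abs_sub_comm]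
    exact (mul_le_of_le_one_right (abs_nonneg _) (abs_fldR_le hw hv hv1 h.ord c j)).trans (hdp j hj)
  have e2 : pen levM (fun i => i.2.1) ls q0 Rp - pen levM (fun i => i.2.1) ls q0 Rb ≤ L * D p := by
    rw [← pen_sub, pen_eq_zero_cum]
    refine (le_abs_self _).trans (abs_pen_zero_le levM ls hm fun j hj => ?_)
    rw [abs_mul]
    refine (mul_le_of_le_one_left (abs_nonneg _) ?_).trans (hdp j hj)
    exact (abs_cum_le _ ls q0 j h.d_nonneg h.q0_nonneg).trans (by linarith [h.total, h.S_pos])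
  have hs : Real.sqrt p ^ 3 = p * Real.sqrt p := by
    rw [pow_succ, Real.sq_sqrt hp.le]
  have n1 : p / 2 * (pen levM (fun i => i.2.2) ls r0 R - pen levM (fun _ => 0) ls 1 (fun j => Rp j * R j)) ≤
      p / 2 * (L * D p) := mul_le_mul_of_nonneg_left e1 (by linarith)
  have n2 : p / 2 * (pen levM (fun i => i.2.1) ls q0 Rp - pen levM (fun i => i.2.1) ls q0 Rb) ≤
      p / 2 * (L * D p) := mul_le_mul_of_nonneg_left e2 (by linarith)
  have n3 : p * (L * D p + (C1 + C2 + C3) * Real.sqrt p) ≤ p * η := mul_le_mul_of_nonneg_left herr.le hp.le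
  rw [hs] at hup htl hfl
  simp only [stepCst, ← hRb]
  linear_combination hconc + hup + htl + hfl + n1 + n2 + n3

end Vale.Agent.P157.RSB
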