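import Vale.Agent.P157.RSB.Average

/-!
The nested functional of the target, and its expansion when a share of its variance is moved.
-/

namespace Vale.Agent.P157.RSB

open MeasureTheory ProbabilityTheory Filter
open scoped RealInnerProductSpace Topology

lemma levM_le_one : ∀ {ls : List Lev}, Ordered ls → ∀ i ∈ ls, levM i ≤ 1
  | [], _, i, hi => absurd hi (by simp)
  | j :: ls, h, i, hi => by
    have ih := levM_le_one h.2.2
    rcases List.mem_cons.1 hi with rfl | hi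
    · refine h.2.1.trans ?_
      cases ls with
      | nil => exact le_rfl
      | cons k ls => exact ih k (List.mem_cons_self ..)
    · exact ih i hi

lemma Ordered.bounds {ls : List Lev} (h : Ordered ls) : ∀ i ∈ ls, 0 < levM i ∧ levM i ≤ 1 :=
  fun i hi => ⟨h.pos i hi, levM_le_one h i hi⟩

lemma Approx.mono {S F : Type} [NormedAddCommGroup S] [MeasurableSpace S]
    [NormedAddCommGroup F] [InnerProductSpace ℝ F] [MeasurableSpace F] {C C' ε : ℝ} {Φ : S → ℝ}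
    {Φ' : S × F → ℝ} {Λ : S → F} {Q : S × F → ℝ} (hC : 0 ≤ C) (hε : 0 ≤ ε) (h : C ≤ C')
    (hA : Approx C ε Φ Φ' Λ Q) : Approx C' ε Φ Φ' Λ Q where
  measΛ := hA.measΛ
  measQ := hA.measQ
  bdΛ x := (hA.bdΛ x).trans h
  bdQ x ζ := (hA.bdQ x ζ).trans (mul_le_mul_of_nonneg_right h (sq_nonneg _))
  bd1 x ζ := (hA.bd1 x ζ).trans (mul_le_mul_of_nonneg_right h (by positivity))
  bd3 x ζ := (hA.bd3 x ζ).trans (env_mono hC h (by positivity) le_rfl)

/-- The levels of an admissible order parameter. -/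
structure Adm (ls : List Lev) (q0 r0 S : ℝ) : Prop where
  ord : Ordered ls
  q0_nonneg : 0 ≤ q0
  d_nonneg : ∀ i ∈ ls, 0 ≤ i.2.1
  S_pos : 0 < S
  total : q0 + (ls.map fun i => i.2.1).sum + S = 1
  r0_nonneg : 0 ≤ r0
  r_nonneg : ∀ i ∈ ls, 0 ≤ i.2.2

lemma Adm.sum_d_nonneg {ls : List Lev} {q0 r0 S : ℝ} (h : Adm ls q0 r0 S) :
    0 ≤ (ls.map fun i => i.2.1).sum :=
  List.sum_nonneg fun t ht => by
    obtain ⟨i, hi, rfl⟩ := List.mem_map.1 ht
    exact h.d_nonneg i hi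

lemma Adm.d_le_one {ls : List Lev} {q0 r0 S : ℝ} (h : Adm ls q0 r0 S) : ∀ i ∈ ls, i.2.1 ≤ 1 := fun i hi => by
  have h2 := List.single_le_sum (l := ls.map fun i => i.2.1) (fun t ht => by
    obtain ⟨k, hk, rfl⟩ := List.mem_map.1 ht
    exact h.d_nonneg k hk) _ (List.mem_map.2 ⟨i, hi, rfl⟩)
  linarith [h.total, h.q0_nonneg, h.S_pos]

/-- The target increments, shrunk by `κ`. -/
noncomputable def sy (κ : ℝ) (i : Lev) (y : ℝ) : ℝ := (κ * Real.sqrt i.2.1) • y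

/-- The smoothed potential. -/
noncomputable def lkU (a : ℝ) (ν : Measure ℝ) (σ y : ℝ) : ℝ := Real.log (kU a ν σ y)

/-- The nested functional of the target. -/
noncomputable def tgtA (a : ℝ) (ν : Measure ℝ) (ls : List Lev) (q0 κ σ : ℝ) : ℝ :=
  ∫ y : ℝ, casc (stdGaussian ℝ) levM (sy κ) ls (lkU a ν σ) ((κ * Real.sqrt q0) • y) ∂stdGaussian ℝ

/-- The averaged curvature. -/
noncomputable def tgtH (a : ℝ) (ν : Measure ℝ) (ls : List Lev) (q0 κ σ : ℝ) : ℝ :=
  ∫ y : ℝ, cmean (stdGaussian ℝ) levM (sy κ) ls (lkU a ν σ) (kH a ν σ) ((κ * Real.sqrt q0) • y)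
    ∂stdGaussian ℝ

/-- The averaged level values of the slope. -/
noncomputable def tgtR (a : ℝ) (ν : Measure ℝ) (ls : List Lev) (q0 κ σ : ℝ) (j : ℕ) : ℝ :=
  ∫ y : ℝ, csq (stdGaussian ℝ) levM (sy κ) ls (lkU a ν σ) (kD a ν σ) j ((κ * Real.sqrt q0) • y)
    ∂stdGaussian ℝ

variable {f : ℝ → ℝ} {a : ℝ} {ν : Measure ℝ} {ls : List Lev} {q0 r0 S : ℝ}

lemma good_sy (h : Ordered ls) (κ : ℝ) : Good (stdGaussian ℝ) levM (sy κ) ls :=
  fun i hi => ⟨h.pos i hi, shift_smul _⟩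

lemma lip_lkU (hk : Ker f a ν) {σ₀ C : ℝ} (hC0 : 0 ≤ C)
    (hC : ∀ σ, σ₀ ≤ σ → ∀ y z : ℝ, |Real.log (kU a ν σ (y + z)) - Real.log (kU a ν σ y)| ≤ C * |z|)
    {σ : ℝ} (hσ : σ₀ ≤ σ) : Lip C (lkU a ν σ) :=
  ⟨(measurable_kU_right hk σ).log, hC0, fun y z => by simpa [lkU] using hC σ hσ y z⟩

lemma cmean_const {ι Z S : Type} [MeasurableSpace Z] [NormedAddCommGroup S] [MeasurableSpace S]
    [BorelSpace S] [SecondCountableTopology S] {γ : Measure Z} [IsProbabilityMeasure γ] {m : ι → ℝ}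
    {σ : ι → Z → S} {K : ℝ} {G : S → ℝ} (hG : Lip K G) (c : ℝ) :
    ∀ {ls : List ι}, Good γ m σ ls → ∀ x, cmean γ m σ ls G (fun _ => c) x = c
  | [], _, _ => rfl
  | i :: ls, h, x => by
    simp only [cmean, cmean_const hG c (good_cons.1 h).2]
    exact tilt_const (casc_wgt h hG x) c

lemma cmean_const_mul {ι Z S : Type} [MeasurableSpace Z] [AddGroup S]
    (γ : Measure Z) (m : ι → ℝ) (σ : ι → Z → S) (G : S → ℝ) (c : ℝ) (F : S → ℝ) :
    ∀ (ls : List ι) x, cmean γ m σ ls G (fun y => c * F y) x = c * cmean γ m σ ls G F x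
  | [], _ => rfl
  | i :: ls, x => by
    simp only [cmean, cmean_const_mul γ m σ G c F ls, tilt, smul_eq_mul, mul_left_comm _ c]
    rw [integral_const_mul]
    ring

/-- Moving the share `p` of every variance out of the target. -/
theorem target_lower (hk : Ker f a ν) (h : Adm ls q0 r0 S) :
    ∃ C, 0 ≤ C ∧ ∀ p, 0 ≤ p → p ≤ 1 / 2 →
      tgtA a ν ls q0 (Real.sqrt (1 - p)) ((1 - p) * S) +
        p / 2 * (tgtH a ν ls q0 (Real.sqrt (1 - p)) ((1 - p) * S) -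
          pen levM (fun i => i.2.1) ls q0 (tgtR a ν ls q0 (Real.sqrt (1 - p)) ((1 - p) * S))) -
        C * Real.sqrt p ^ 3 ≤ tgtA a ν ls q0 1 S := by
  have hS := h.S_pos
  have hσ₀ : 0 < S / 2 := by linarith
  obtain ⟨Ck, hCk1, hCk⟩ := kern_bounds hk hσ₀
  obtain ⟨Ca, hCa1, hCa⟩ := approx_self hk hσ₀ hS.le
  set C0 := Ca + Ck * (1 + S)
  have hCkS : Ck ≤ Ck * (1 + S) := le_mul_of_one_le_right (by linarith) (by linarith)
  obtain ⟨C', hC'0, hexp⟩ := expand_mean (Z := ℝ) (S := ℝ) (F := ℝ) levM ls h.ord.bounds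
    (C := C0) (by simp only [C0]; linarith)
  refine ⟨C', hC'0, fun p hp0 hp1 => ?_⟩
  set κ := Real.sqrt (1 - p)
  have hκ2 : κ ^ 2 = 1 - p := Real.sq_sqrt (by linarith)
  set σ := (1 - p) * S
  have hσ : S / 2 ≤ σ := by simp only [σ]; nlinarith
  have hsum : σ + p * S = S := by simp only [σ]; ring
  have hq1 : q0 ≤ 1 := by linarith [h.total, h.sum_d_nonneg]
  have hG : Lip Ck (lkU a ν σ) := lip_lkU hk (by linarith) (fun σ' hσ' y z => (hCk σ' hσ' y z).2.2.2.2) hσ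
  have hGS : Lip Ck (lkU a ν S) :=
    lip_lkU hk (by linarith) (fun σ' hσ' y z => (hCk σ' hσ' y z).2.2.2.2) (by linarith)
  have hG' : Lip (2 * Ck) fun q : ℝ × ℝ => lkU a ν S (q.1 + q.2) := by
    refine ⟨hGS.meas.comp (by fun_prop), by linarith, fun x y => ?_⟩
    have e : (x + y).1 + (x + y).2 = x.1 + x.2 + (y.1 + y.2) := by
      simp only [Prod.fst_add, Prod.snd_add]; ring
    rw [e]
    refine (hGS.lip _ _).trans ?_
    have h1 := norm_fst_le y
    have h2 := norm_snd_le y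
    calc Ck * ‖y.1 + y.2‖ ≤ Ck * (2 * ‖y‖) := by
          refine mul_le_mul_of_nonneg_left ((norm_add_le _ _).trans ?_) (by linarith)
          linarith
      _ = _ := by ring
  have hA : Approx C0 (Real.sqrt p) (lkU a ν σ) (fun q : ℝ × ℝ => lkU a ν S (q.1 + q.2)) (kD a ν σ)
      (fun q : ℝ × ℝ => (kH a ν σ q.1 * (q.2 ^ 2 + p * S) - ⟪kD a ν σ q.1, q.2⟫ ^ 2) / 2) := by
    have h0 := hCa (σ := σ) (p := p) (ε := Real.sqrt p) hσ hp0 le_rfl
    rw [hsum] at h0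
    exact h0.mono (by linarith) (Real.sqrt_nonneg _) (by simp only [C0]; linarith)
  have hg := good_sy h.ord κ
  have htop : ∀ y t : ℝ, 0 ≤ t →
      ∫ z : ℝ, (kH a ν σ y * ((Real.sqrt t • z) ^ 2 + p * S) - ⟪kD a ν σ y, Real.sqrt t • z⟫ ^ 2) / 2
        ∂stdGaussian ℝ = (kH a ν σ y * t + p * S * kH a ν σ y - t * ‖kD a ν σ y‖ ^ 2) / 2 := fun y t ht => by
    have hi : Integrable (fun z : ℝ => z ^ 2) (stdGaussian ℝ) :=
      (IsGaussian.memLp_id (stdGaussian ℝ) 2 (by simp)).integrable_sq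
    have h2 : ∫ z : ℝ, z ^ 2 ∂stdGaussian ℝ = 1 := by simpa using integral_inner_sq (E := ℝ) 1
    have e : ∀ z : ℝ, (kH a ν σ y * ((Real.sqrt t • z) ^ 2 + p * S) - ⟪kD a ν σ y, Real.sqrt t • z⟫ ^ 2) / 2 =
        (kH a ν σ y - kD a ν σ y ^ 2) * t / 2 * z ^ 2 + kH a ν σ y * (p * S) / 2 := fun z => by
      have := Real.sq_sqrt ht
      simp only [smul_eq_mul, RCLike.inner_apply, conj_trivial]
      linear_combination (kH a ν σ y - kD a ν σ y ^ 2) * z ^ 2 / 2 * this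
    simp only [e]
    rw [integral_add (hi.const_mul _) (integrable_const _), integral_const_mul, h2, integral_const,
      probReal_univ, one_smul, Real.norm_eq_abs, sq_abs]
    ring
  have hpS : |p * S| ≤ S := by
    rw [abs_of_nonneg (mul_nonneg hp0 hS.le)]
    exact mul_le_of_le_one_left hS.le (by linarith)
  have key := hexp (γ := stdGaussian ℝ) (σ := sy κ) (e := fun i => p * i.2.1) (ε := Real.sqrt p)
    (P := stdGaussian ℝ) (x := fun ω : ℝ => (κ * Real.sqrt q0) • ω) (acc := p * q0) hg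
    (fun i hi => ⟨mul_nonneg hp0 (h.d_nonneg i hi),
      Real.sqrt_le_sqrt (mul_le_of_le_one_right hp0 (h.d_le_one i hi))⟩)
    (Real.sqrt_le_one.2 (by linarith)) (mul_nonneg hp0 h.q0_nonneg)
    (Real.sqrt_le_sqrt (mul_le_of_le_one_right hp0 hq1)) hG hG' hA (measurable_kH hk σ)
    ((measurable_kH hk σ).const_mul (p * S))
    (fun y => (hCk σ hσ y 0).2.1.trans (by simp only [C0]; linarith))
    (fun y => by
      rw [abs_mul]
      refine (mul_le_mul hpS (hCk σ hσ y 0).2.1 (abs_nonneg _) hS.le).trans ?_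
      simp only [C0]; linarith)
    htop (shift_smul _)
  have hsplit : ∀ x g : ℝ, casc ((stdGaussian ℝ).prod (stdGaussian ℝ)) levM
      (joint (sy κ) fun i => p * i.2.1) ls (fun q => lkU a ν S (q.1 + q.2)) (x, g) =
      casc (stdGaussian ℝ) levM (sy 1) ls (lkU a ν S) (x + g) := fun x g =>
    casc_split h.ord.pos (a := fun i => κ * Real.sqrt i.2.1) (c := fun i => 1 * Real.sqrt i.2.1)
      (e := fun i => p * i.2.1) (fun i hi => ⟨by
        rw [mul_pow, hκ2, Real.sq_sqrt (h.d_nonneg i hi), one_mul, Real.sq_sqrt (h.d_nonneg i hi)]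
        ring, mul_nonneg hp0 (h.d_nonneg i hi)⟩) hGS x g
  have hmerge : ∫ x : ℝ, ∫ g : ℝ, casc ((stdGaussian ℝ).prod (stdGaussian ℝ)) levM
      (joint (sy κ) fun i => p * i.2.1) ls (fun q => lkU a ν S (q.1 + q.2))
        ((κ * Real.sqrt q0) • x, Real.sqrt (p * q0) • g) ∂stdGaussian ℝ ∂stdGaussian ℝ =
      tgtA a ν ls q0 1 S := by
    simp only [hsplit]
    exact integral_merge (hGS.casc (good_sy h.ord 1)) (mul_nonneg hp0 h.q0_nonneg) (c := 1 * Real.sqrt q0)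
      (by rw [mul_pow, hκ2, Real.sq_sqrt h.q0_nonneg, one_mul, Real.sq_sqrt h.q0_nonneg]; ring)
  rw [hmerge] at key
  simp only [cmean_const_mul, integral_const_mul, List.sum_map_mul_left, pen_scale] at key
  have ht : q0 + (ls.map fun i => i.2.1).sum = 1 - S := by linarith [h.total]
  have key2 := (abs_le.1 key).1
  have eR : tgtR a ν ls q0 κ σ = fun j => ∫ y : ℝ, csq (stdGaussian ℝ) levM (sy κ) ls (lkU a ν σ)
      (kD a ν σ) j ((κ * Real.sqrt q0) • y) ∂stdGaussian ℝ := rfl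
  rw [eR]
  simp only [tgtA, tgtH] at key2 ⊢
  linear_combination key2 - (p / 2 * ∫ y : ℝ, cmean (stdGaussian ℝ) levM (sy κ) ls (lkU a ν σ) (kH a ν σ)
    ((κ * Real.sqrt q0) • y) ∂stdGaussian ℝ) * ht

end Vale.Agent.P157.RSB
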