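import Vale.Agent.P157.RSB.Step
import Vale.Agent.P157.RS

/-!
The nested interpolation for the Poissonised log-partition function.
-/

namespace Vale.Agent.P157.RSB

open MeasureTheory ProbabilityTheory Filter
open scoped RealInnerProductSpace Topology

variable {X : Type} [MeasurableSpace X] {E : Type} [NormedAddCommGroup E] [InnerProductSpace ℝ E]
  [FiniteDimensional ℝ E] [MeasurableSpace E] [BorelSpace E]
variable {μ : Measure X} [IsProbabilityMeasure μ] {v : X → E} {f : ℝ → ℝ} {a : ℝ} {ν : Measure ℝ}
  {ls : List Lev} {q0 r0 S : ℝ}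

lemma nice_fldPsi (hv : Measurable v) (hv1 : ∀ x, ‖v x‖ = 1) (hl : Ordered ls) (c : ℝ) :
    Nice (fldPsi μ v ls r0 c) 1 where
  nonneg := zero_le_one
  meas Q _ W hW hWt := by
    have hW' : Measurable fun z : (Q × E) × X => W z.1.1 z.2 :=
      hW.comp ((measurable_fst.comp measurable_fst).prodMk measurable_snd)
    have he : Measurable fun z : (Q × E) × X => Real.exp ⟪z.1.2, v z.2⟫ :=
      ((measurable_snd.comp measurable_fst).inner (hv.comp measurable_snd)).exp
    have hG : Measurable (Function.uncurry fun (q : Q) (H : E) => hBase μ (W q) v H) :=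
      ((hW'.mul he).stronglyMeasurable.integral_prod_right' (ν := μ)).measurable.log
    have h1 := measurable_casc_param (G := fun (q : Q) (H : E) => hBase μ (W q) v H) hG
      (good_sh (E := E) hl c)
    have h2 : Measurable fun p : Q × E => ((p.1, Real.sqrt (c * r0) • p.2) : Q × E) := by fun_prop
    exact ((h1.comp h2).stronglyMeasurable.integral_prod_right' (ν := stdGaussian E)).measurable
  lip w u β hw hu hβ hb := by
    have hG := lip_hBase (μ := μ) hw hv hv1
    have hG' := lip_hBase (μ := μ) (hw.mul hu) hv hv1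
    have hd : ∀ H, |hBase μ (fun x => w x * u x) v H - hBase μ w v H| ≤ β := fun H =>
      abs_log_integral_sub_le (wt_field (hw.mul hu) hv hv1 H) (wt_field hw hv hv1 H) fun x => by
        rw [Real.log_mul (mul_pos (hw.pos x) (hu.pos x)).ne' (Real.exp_pos _).ne',
          Real.log_mul (hw.pos x).ne' (hu.pos x).ne', Real.log_mul (hw.pos x).ne' (Real.exp_pos _).ne']
        convert hb x using 2
        ring
    have hl1 : ∀ k : ℝ, Lip 1 fun H => hBase μ w v H + k := fun k =>
      ⟨hG.meas.add_const k, zero_le_one, fun x y => by simpa using hG.lip x y⟩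
    have hc : ∀ H, |casc (stdGaussian E) levM (sh c) ls (hBase μ (fun x => w x * u x) v) H -
        casc (stdGaussian E) levM (sh c) ls (hBase μ w v) H| ≤ β := fun H => by
      have g := good_sh (E := E) hl c
      have u1 := casc_mono hG' (hl1 β) (fun H => by linarith [(abs_le.1 (hd H)).2]) g H
      have u2 := casc_mono (hl1 (-β)) hG' (fun H => by linarith [(abs_le.1 (hd H)).1]) g H
      rw [casc_add_const hG β g] at u1
      rw [casc_add_const hG (-β) g] at u2
      rw [abs_le]
      constructor <;> linarith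
    have i1 : Integrable (fun h : E => casc (stdGaussian E) levM (sh c) ls
        (hBase μ (fun x => w x * u x) v) (Real.sqrt (c * r0) • h)) (stdGaussian E) := by
      simpa using (hG'.casc (good_sh hl c)).integrable (shift_smul (Real.sqrt (c * r0))) 0
    have i2 : Integrable (fun h : E => casc (stdGaussian E) levM (sh c) ls (hBase μ w v)
        (Real.sqrt (c * r0) • h)) (stdGaussian E) := by
      simpa using (hG.casc (good_sh hl c)).integrable (shift_smul (Real.sqrt (c * r0))) 0
    simp only [fldPsi]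
    rw [← integral_sub i1 i2, one_mul, ← Real.norm_eq_abs]
    exact ((norm_integral_le_of_norm_le_const (C := β) (Eventually.of_forall fun h =>
      (Real.norm_eq_abs _).le.trans (hc _))).trans_eq (show β * (stdGaussian E).real Set.univ = β by simp)).trans (by linarith)

lemma casc_no_shift {ι Z S : Type} [MeasurableSpace Z] [NormedAddCommGroup S] {γ : Measure Z}
    [IsProbabilityMeasure γ] {m : ι → ℝ} {G : S → ℝ} : ∀ {ls : List ι}, (∀ i ∈ ls, m i ≠ 0) → ∀ x,
      casc γ m (fun _ _ => (0 : S)) ls G x = G x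
  | [], _, _ => rfl
  | i :: ls, h, x => by
    simp only [casc, add_zero, casc_no_shift fun j hj => h j (List.mem_cons_of_mem _ hj)]
    exact lexp_const (h i (List.mem_cons_self ..)) _

lemma fldPsi_zero (hl : Ordered ls) : fldPsi μ v ls r0 0 = logI μ := by
  funext w
  have e : (sh (E := E) 0) = fun (_ : Lev) (_ : E) => (0 : E) := by
    funext i h; simp [sh]
  simp [fldPsi, e, casc_no_shift fun i hi => (hl.pos i hi).ne', hBase, logI]

/-- The Poissonised log-partition function is below every nested value. -/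
theorem rsb_bound (hk : Ker f a ν) (h : Adm ls q0 r0 S)
    (hcum : ∀ j, j ≤ ls.length → cum (fun i : Lev => i.2.2) ls r0 j = tgtR a ν ls q0 1 S j)
    (hv : Measurable v) (hv1 : ∀ x, ‖v x‖ = 1) {lam : ℝ} (hlam : 0 ≤ lam) :
    poiE lam (fun k => L μ f v k fun _ => 1) ≤
      fldPsi μ v ls r0 lam (fun _ => 1) + lam * stepCst a ν ls q0 r0 S := by
  have hf := hk.pot
  refine le_of_forall_pos_le_add fun η' hη' => ?_
  obtain ⟨η, hη, hηl⟩ : ∃ η, 0 < η ∧ lam * η ≤ η' := ⟨η' / (lam + 1), by positivity, by
    rw [← mul_div_assoc, div_le_iff₀ (by linarith)]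
    nlinarith⟩
  obtain ⟨p0, hp0, hp1, hstep⟩ := rsb_step (X := X) (E := E) hk h hcum hη
  set cst := stepCst a ν ls q0 r0 S + η
  have hN := fun c => nice_fldPsi (μ := μ) (r0 := r0) hv hv1 h.ord c
  have hlift : ∀ c p, 0 ≤ c → 0 < p → p ≤ p0 → ∀ k,
      p * iter f v (k + 1) (fldPsi μ v ls r0 c) (fun _ => 1) +
        (1 - p) * iter f v k (fldPsi μ v ls r0 c) (fun _ => 1) ≤
      iter f v k (fldPsi μ v ls r0 (c + p)) (fun _ => 1) + p * cst := fun c p hc hp hpp k => by
    have hn1 := Nice.avg (mult_pw (E := E) hf hv) (hN c)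
    have hh := iter_mono hf hv ((hn1.const_mul p).add ((hN c).const_mul (1 - p)))
      ((hN (c + p)).add (Nice.const (p * cst))) (fun w hw => hstep hw hv hv1 c p hc hp hpp) k _ Wt.one
    rw [iter_add hf hv (hn1.const_mul p) ((hN c).const_mul (1 - p)) k _ Wt.one, iter_const_mul,
      iter_const_mul, ← iter_succ', iter_add hf hv (hN (c + p)) (Nice.const _) k _ Wt.one, iter_const] at hh
    exact hh
  have htel : ∀ p, 0 < p → p ≤ p0 → ∀ (j : ℕ) (c : ℝ), 0 ≤ c →
      binE j p (fun k => iter f v k (fldPsi μ v ls r0 c) fun _ => 1) ≤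
        fldPsi μ v ls r0 (c + j * p) (fun _ => 1) + j * (p * cst) := fun p hp hpp j => by
    induction j with
    | zero => intro c _; simp [binE, iter]
    | succ j ih =>
      intro c hc
      simp only [binE]
      rw [← binE_const_mul, ← binE_const_mul, ← binE_add]
      refine (binE_mono hp.le (hpp.trans hp1) j fun k _ => hlift c p hc hp hpp k).trans ?_
      rw [binE_add, binE_const]
      refine (add_le_add (ih (c + p) (by linarith)) le_rfl).trans (le_of_eq ?_)
      rw [show c + p + (j : ℝ) * p = c + ((j + 1 : ℕ) : ℝ) * p by push_cast; ring]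
      push_cast
      ring
  rcases hlam.eq_or_lt with rfl | hlam'
  · have h0 : poiE 0 (fun k => L μ f v k fun _ => (1 : ℝ)) = L μ f v 0 fun _ => 1 := by
      rw [poiE, tsum_eq_single 0 fun k hk => by simp [zero_pow hk]]
      simp
    rw [h0, fldPsi_zero h.ord]
    simp [L, iter]
    linarith
  refine le_trans (le_of_tendsto (tendsto_binE_div hlam (abs_L_one (μ := μ) hf hv))
    (b := fldPsi μ v ls r0 lam (fun _ => 1) + lam * cst) ?_) (by simp only [cst]; linarith)
  filter_upwards [eventually_ge_atTop (⌈lam / p0⌉₊ + 1)] with K hK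
  have hK0 : (0 : ℝ) < K := by exact_mod_cast (by omega : 0 < K)
  have hKp : lam / K ≤ p0 := by
    rw [div_le_iff₀ hK0]
    have : lam / p0 ≤ K := (Nat.le_ceil _).trans (by exact_mod_cast (by omega : ⌈lam / p0⌉₊ ≤ K))
    rw [div_le_iff₀ hp0] at this
    linarith
  have hh := htel (lam / K) (div_pos hlam' hK0) hKp K 0 le_rfl
  rw [fldPsi_zero h.ord, zero_add, mul_div_cancel₀ _ hK0.ne', ← mul_assoc, mul_div_cancel₀ _ hK0.ne'] at hh
  exact hh

end Vale.Agent.P157.RSB
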