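import Vale.Agent.P157.RSB.Recursion

/-!
The expansions at the innermost level.
-/

namespace Vale.Agent.P157.RSB

open MeasureTheory ProbabilityTheory Filter
open scoped RealInnerProductSpace Topology

lemma stdGaussian_real : stdGaussian ℝ = gaussianReal 0 1 := by
  refine Measure.ext_of_charFun ?_
  funext t
  rw [charFun_stdGaussian, charFun_gaussianReal]
  congr 1
  rw [show ((‖t‖ : ℝ) : ℂ) ^ 2 = ((‖t‖ ^ 2 : ℝ) : ℂ) by push_cast; rfl, Real.norm_eq_abs, sq_abs]
  push_cast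
  ring

lemma sq_le_mul_exp {t : ℝ} (ht : 0 ≤ t) : t ≤ Real.exp t ∧ 1 ≤ Real.exp t :=
  ⟨by linarith [Real.add_one_le_exp t], Real.one_le_exp ht⟩

/-- From the expansion of a ratio to the expansion of its logarithm. -/
lemma log_ratio_expand {A t x u w : ℝ} (hA : 1 ≤ A) (ht : 0 ≤ t) (hx : 0 < 1 + x)
    (bx : |x| ≤ A * t * Real.exp (A * t)) (bu : |u| ≤ A * t) (bw : |w| ≤ A * t ^ 2)
    (be : |x - u - w| ≤ env A 3 t) (binv : (1 + x)⁻¹ ≤ A * Real.exp (A * t)) :
    |Real.log (1 + x) - u - (w - u ^ 2 / 2)| ≤ env (30 * A ^ 4) 3 t := by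
  have hA0 : 0 ≤ A := by linarith
  simp only [env] at be
  set e := Real.exp (A * t)
  have he : 1 ≤ e := Real.one_le_exp (by positivity)
  have h4 : e ^ 4 ≤ Real.exp (30 * A ^ 4 * t) := by
    rw [← Real.exp_nat_mul, Real.exp_le_exp]
    have : A ≤ A ^ 4 := le_self_pow₀ hA (by norm_num)
    have := mul_le_mul_of_nonneg_right this ht
    have : 0 ≤ A ^ 4 * t := by positivity
    push_cast
    linarith
  have hte : t ≤ e := (le_mul_of_one_le_left ht hA).trans (sq_le_mul_exp (by positivity)).1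
  have k1 : 9 * |x| ^ 3 * (1 + (1 + x)⁻¹) ≤ 18 * A ^ 4 * (t ^ 3 * e ^ 4) := by
    have h1 : 1 + (1 + x)⁻¹ ≤ 2 * (A * e) := by nlinarith
    have h2 : |x| ^ 3 ≤ A ^ 3 * t ^ 3 * e ^ 3 :=
      (pow_le_pow_left₀ (abs_nonneg x) bx 3).trans_eq (by ring)
    calc 9 * |x| ^ 3 * (1 + (1 + x)⁻¹) ≤ 9 * (A ^ 3 * t ^ 3 * e ^ 3) * (2 * (A * e)) :=
          mul_le_mul (by linarith) h1 (by have := inv_pos.2 hx; linarith) (by positivity)
      _ = _ := by ring
  have k2 : |x ^ 2 / 2 - u ^ 2 / 2| ≤ 2 * A ^ 4 * (t ^ 3 * e ^ 4) := by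
    rw [show x ^ 2 / 2 - u ^ 2 / 2 = (x - u) * ((x + u) / 2) by ring, abs_mul]
    have h1 : |x - u| ≤ 2 * A * t ^ 2 * e ^ 2 := by
      calc |x - u| = |(x - u - w) + w| := by ring_nf
        _ ≤ |x - u - w| + |w| := abs_add_le _ _
        _ ≤ A * t ^ 3 * e + A * t ^ 2 := add_le_add be bw
        _ ≤ _ := by
          have a1 : A * t ^ 3 * e ≤ A * t ^ 2 * e ^ 2 := by
            have := mul_le_mul_of_nonneg_left hte (by positivity : 0 ≤ A * t ^ 2 * e)
            nlinarith
          have a2 : A * t ^ 2 ≤ A * t ^ 2 * e ^ 2 :=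
            le_mul_of_one_le_right (by positivity) (one_le_pow₀ he)
          linarith
    have h2 : |(x + u) / 2| ≤ A * t * e := by
      rw [abs_div, abs_two, div_le_iff₀ two_pos]
      refine (abs_add_le _ _).trans ?_
      have : A * t ≤ A * t * e := le_mul_of_one_le_right (by positivity) he
      linarith
    refine (mul_le_mul h1 h2 (abs_nonneg _) (by positivity)).trans ?_
    rw [show 2 * A * t ^ 2 * e ^ 2 * (A * t * e) = 2 * A ^ 2 * (t ^ 3 * e ^ 3) by ring]
    have a1 : A ^ 2 ≤ A ^ 4 := pow_le_pow_right₀ hA (by norm_num)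
    have a2 : e ^ 3 ≤ e ^ 4 := pow_le_pow_right₀ he (by norm_num)
    gcongr
  have k3 : |x - u - w| ≤ A ^ 4 * (t ^ 3 * e ^ 4) := by
    refine be.trans ?_
    have a1 : A ≤ A ^ 4 := le_self_pow₀ hA (by norm_num)
    have a2 : e ≤ e ^ 4 := le_self_pow₀ he (by norm_num)
    rw [mul_assoc]
    gcongr
  have k0 := log_taylor2 hx
  calc |Real.log (1 + x) - u - (w - u ^ 2 / 2)|
      = |(Real.log (1 + x) - x + x ^ 2 / 2) + (x - u - w) + (-(x ^ 2 / 2 - u ^ 2 / 2))| := by ring_nf
    _ ≤ |Real.log (1 + x) - x + x ^ 2 / 2| + |x - u - w| + |-(x ^ 2 / 2 - u ^ 2 / 2)| := abs_add_three _ _ _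
    _ ≤ 21 * A ^ 4 * (t ^ 3 * e ^ 4) := by rw [abs_neg]; linarith
    _ ≤ _ := by
      simp only [env]
      rw [mul_assoc (30 * A ^ 4)]
      gcongr
      · norm_num

/-- A linear bound for the logarithm near `1`. -/
lemma log_abs_le {x R B : ℝ} (hR : 0 ≤ R) (hx : 0 < 1 + x) (hinv : (1 + x)⁻¹ ≤ R) (hB : |x| ≤ B) :
    |Real.log (1 + x)| ≤ B + R * B := by
  have hB0 : 0 ≤ B := (abs_nonneg x).trans hB
  have hup : Real.log (1 + x) ≤ B := by
    linarith [Real.log_le_sub_one_of_pos hx, le_abs_self x]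
  have hdn : -(R * B) ≤ Real.log (1 + x) := by
    refine le_trans ?_ (Real.one_sub_inv_le_log_of_pos hx)
    rw [show 1 - (1 + x)⁻¹ = x * (1 + x)⁻¹ by field_simp; ring]
    have h1 : |x * (1 + x)⁻¹| ≤ R * B := by
      rw [abs_mul, abs_of_pos (inv_pos.2 hx), mul_comm]
      exact mul_le_mul hinv hB (abs_nonneg _) hR
    linarith [neg_abs_le (x * (1 + x)⁻¹)]
  have : 0 ≤ R * B := mul_nonneg hR hB0
  rw [abs_le]
  constructor <;> linarith

variable {X : Type} [MeasurableSpace X] {μ : Measure X} [IsProbabilityMeasure μ]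
variable {E : Type} [NormedAddCommGroup E] [InnerProductSpace ℝ E] [FiniteDimensional ℝ E]
  [MeasurableSpace E] [BorelSpace E]
variable {w : X → ℝ} {v : X → E} {f : ℝ → ℝ} {a : ℝ} {ν : Measure ℝ}

/-- The magnetisation in the field `H`. -/
noncomputable def hMean (μ : Measure X) (w : X → ℝ) (v : X → E) (H : E) : E :=
  (∫ x, w x * Real.exp ⟪H, v x⟫ ∂μ)⁻¹ • ∫ x, (w x * Real.exp ⟪H, v x⟫) • v x ∂μ

/-- The second moment of the overlap with `ζ` in the field `H`. -/
noncomputable def hSq (μ : Measure X) (w : X → ℝ) (v : X → E) (H ζ : E) : ℝ :=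
  (∫ x, w x * Real.exp ⟪H, v x⟫ * ⟪ζ, v x⟫ ^ 2 ∂μ) / ∫ x, w x * Real.exp ⟪H, v x⟫ ∂μ

section gibbsfacts

variable (hw : Wt w) (hv : Measurable v) (hv1 : ∀ x, ‖v x‖ = 1)
include hw hv hv1

omit hv hv1 in
lemma hMean_eq (H : E) (hF : Wt fun x => w x * Real.exp ⟪H, v x⟫) :
    hMean μ w v H = ∫ x, v x ∂gibbs μ fun x => w x * Real.exp ⟪H, v x⟫ := by
  have hI := hF.integral_pos (μ := μ)
  rw [hMean, gibbs, integral_withDensity_eq_integral_toReal_smul
    (hF.meas.div_const _).ennreal_ofReal (Eventually.of_forall fun x => ENNReal.ofReal_lt_top),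
    ← integral_smul]
  refine integral_congr_ae (Eventually.of_forall fun x => ?_)
  simp only [smul_smul, ENNReal.toReal_ofReal (div_nonneg (hF.pos x).le hI.le)]
  ring_nf

lemma norm_hMean_le (H : E) : ‖hMean μ w v H‖ ≤ 1 := by
  have hF := wt_field hw hv hv1 H
  have := isProbabilityMeasure_gibbs (μ := μ) hF
  rw [hMean_eq hw H hF]
  exact (norm_integral_le_of_norm_le_const (C := 1) (Eventually.of_forall fun x => (hv1 x).le)).trans_eq
    (by simp)

lemma abs_hSq_le (H ζ : E) : |hSq μ w v H ζ| ≤ ‖ζ‖ ^ 2 := by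
  have hF := wt_field hw hv hv1 H
  have := isProbabilityMeasure_gibbs (μ := μ) hF
  rw [hSq, ← integral_gibbs hF (fun x => ⟪ζ, v x⟫ ^ 2), ← Real.norm_eq_abs]
  refine (norm_integral_le_of_norm_le_const (C := ‖ζ‖ ^ 2) (Eventually.of_forall fun x => ?_)).trans_eq
    (by simp)
  rw [Real.norm_eq_abs, abs_pow]
  exact pow_le_pow_left₀ (abs_nonneg _) (abs_inner_le hv1 ζ x) 2

omit hv1 in
lemma measurable_hMean : Measurable (hMean μ w v) := by
  have h : Measurable fun z : E × X => w z.2 * Real.exp ⟪z.1, v z.2⟫ :=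
    (hw.meas.comp measurable_snd).mul (measurable_fst.inner (hv.comp measurable_snd)).exp
  exact (h.stronglyMeasurable.integral_prod_right' (ν := μ)).measurable.inv.smul
    (h.smul (hv.comp measurable_snd)).stronglyMeasurable.integral_prod_right'.measurable

omit hv1 in
lemma measurable_hSq : Measurable fun p : E × E => hSq μ w v p.1 p.2 := by
  have h : Measurable fun z : (E × E) × X => w z.2 * Real.exp ⟪z.1.1, v z.2⟫ :=
    (hw.meas.comp measurable_snd).mul
      ((measurable_fst.comp measurable_fst).inner (hv.comp measurable_snd)).exp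
  have h2 : Measurable fun z : (E × E) × X => ⟪z.1.2, v z.2⟫ ^ 2 :=
    ((measurable_snd.comp measurable_fst).inner (hv.comp measurable_snd)).pow_const 2
  exact (h.mul h2).stronglyMeasurable.integral_prod_right'.measurable.div
    h.stronglyMeasurable.integral_prod_right'.measurable

/-- The Gaussian average of the second overlap moment. -/
lemma integral_hSq (H : E) {acc : ℝ} (hacc : 0 ≤ acc) :
    ∫ z : E, hSq μ w v H (Real.sqrt acc • z) ∂stdGaussian E = acc := by
  have hF := wt_field hw hv hv1 H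
  have := isProbabilityMeasure_gibbs (μ := μ) hF
  simp only [hSq, ← integral_gibbs hF]
  have hm : Measurable fun q : E × X => ⟪Real.sqrt acc • q.1, v q.2⟫ ^ 2 :=
    ((measurable_fst.const_smul _).inner (hv.comp measurable_snd)).pow_const 2
  have hi : Integrable (fun q : E × X => ⟪Real.sqrt acc • q.1, v q.2⟫ ^ 2)
      ((stdGaussian E).prod (gibbs μ fun x => w x * Real.exp ⟪H, v x⟫)) :=
    Integrable.mono' (((integrable_norm_pow (E := E) 2).const_mul acc).comp_fst _)
      hm.aestronglyMeasurable (Eventually.of_forall fun q => by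
        rw [Real.norm_eq_abs, abs_pow]
        refine (pow_le_pow_left₀ (abs_nonneg _) (abs_inner_le hv1 _ q.2) 2).trans_eq ?_
        rw [norm_smul, mul_pow, Real.norm_eq_abs, sq_abs, Real.sq_sqrt hacc])
  rw [integral_integral_swap (f := fun z x => ⟪Real.sqrt acc • z, v x⟫ ^ 2) hi]
  have e : ∀ x, ∫ z, ⟪Real.sqrt acc • z, v x⟫ ^ 2 ∂stdGaussian E = acc := fun x => by
    simp only [real_inner_smul_left, mul_pow, Real.sq_sqrt hacc]
    rw [integral_const_mul, integral_inner_sq, hv1]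
    ring
  simp [e]

end gibbsfacts

/-- One smoothed pattern in the state `(Y, H)`, shifted by the perturbation. -/
noncomputable def patTop (μ : Measure X) (w : X → ℝ) (v : X → E) (a : ℝ) (ν : Measure ℝ) (σ : ℝ)
    (p : (ℝ × E) × E) : ℝ :=
  Real.log (∫ x, w x * Real.exp ⟪p.1.2, v x⟫ * kU a ν σ (p.1.1 + ⟪p.2, v x⟫) ∂μ)

/-- The unperturbed value. -/
noncomputable def patBase (μ : Measure X) (w : X → ℝ) (v : X → E) (a : ℝ) (ν : Measure ℝ) (σ : ℝ)
    (p : ℝ × E) : ℝ :=
  Real.log (kU a ν σ p.1) + hBase μ w v p.2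

/-- The linear term. -/
noncomputable def patLin (μ : Measure X) (w : X → ℝ) (v : X → E) (a : ℝ) (ν : Measure ℝ) (σ : ℝ)
    (p : ℝ × E) : E :=
  kD a ν σ p.1 • hMean μ w v p.2

/-- The quadratic term. -/
noncomputable def patQuad (μ : Measure X) (w : X → ℝ) (v : X → E) (a : ℝ) (ν : Measure ℝ) (σ : ℝ)
    (p : (ℝ × E) × E) : ℝ :=
  (kH a ν σ p.1.1 * hSq μ w v p.1.2 p.2 - ⟪patLin μ w v a ν σ p.1, p.2⟫ ^ 2) / 2

/-- The ratio behind one pattern. -/
lemma pat_facts (hk : Ker f a ν) (hw : Wt w) (hv : Measurable v) (hv1 : ∀ x, ‖v x‖ = 1) {σ C t : ℝ}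
    (hC : 0 ≤ C) (hσ0 : 0 ≤ σ) (h3 : ∀ y z, |kU a ν σ (y + z) / kU a ν σ y - 1| ≤ C * |z|)
    (h4 : ∀ y z, |kU a ν σ (y + z) / kU a ν σ y - 1 - kD a ν σ y * z - kH a ν σ y * (z ^ 2 / 2)| ≤
      C * |z| ^ 3) (Y : ℝ) (H ζ : E) (hζ : ‖ζ‖ ≤ t) :
    ∃ x0, patTop μ w v a ν σ ((Y, H), ζ) - patBase μ w v a ν σ (Y, H) = Real.log (1 + x0) ∧
      (a - ν.real Set.univ) / (a + ν.real Set.univ) ≤ 1 + x0 ∧ |x0| ≤ C * t ∧
      |x0 - ⟪patLin μ w v a ν σ (Y, H), ζ⟫ - kH a ν σ Y * (hSq μ w v H ζ / 2)| ≤ C * t ^ 3 := by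
  have hF := wt_field hw hv hv1 H
  have hG := isProbabilityMeasure_gibbs (μ := μ) hF
  set ρ := gibbs μ fun x => w x * Real.exp ⟪H, v x⟫ with hρ
  have hM := wt_mix hk hw hv hv1 hσ0 H (fun x => Y + ⟪ζ, v x⟫) ((measurable_const.inner hv).const_add Y)
  have hU := kU_pos hk hσ0 Y
  set r : X → ℝ := fun x => kU a ν σ (Y + ⟪ζ, v x⟫) / kU a ν σ Y with hr
  have hrm : Measurable r :=
    ((measurable_kU_right hk σ).comp ((measurable_const.inner hv).const_add Y)).div_const _
  have hz : ∀ x, |⟪ζ, v x⟫| ≤ t := fun x => (abs_inner_le hv1 ζ x).trans hζ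
  have hb1 : ∀ x, |r x - 1| ≤ C * t := fun x =>
    (h3 Y ⟪ζ, v x⟫).trans (mul_le_mul_of_nonneg_left (hz x) hC)
  have hri : Integrable r ρ := Integrable.mono' (integrable_const (C * t + 1)) hrm.aestronglyMeasurable
    (Eventually.of_forall fun x => by
      rw [Real.norm_eq_abs]
      calc |r x| = |(r x - 1) + 1| := by ring_nf
        _ ≤ |r x - 1| + 1 := (abs_add_le _ _).trans (by norm_num)
        _ ≤ _ := by linarith [hb1 x])
  refine ⟨∫ x, r x ∂ρ - 1, ?_, ?_, ?_, ?_⟩
  · rw [add_sub_cancel, hρ, integral_gibbs hF]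
    simp only [patTop, patBase, hBase, r, ← mul_div_assoc]
    rw [integral_div, div_div, Real.log_div hM.integral_pos.ne'
      (mul_pos hU hF.integral_pos).ne', Real.log_mul hU.ne' hF.integral_pos.ne']
  · rw [add_sub_cancel]
    have h := integral_mono (integrable_const ((a - ν.real Set.univ) / (a + ν.real Set.univ))) hri
      fun x => div_le_div₀ (kU_pos hk hσ0 _).le (kU_bounds hk hσ0 (Y + ⟪ζ, v x⟫)).1 hU
        (kU_bounds hk hσ0 Y).2
    simpa using h
  · have e : ∫ x, r x ∂ρ - 1 = ∫ x, (r x - 1) ∂ρ := by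
      rw [integral_sub hri (integrable_const _)]; simp
    rw [e, ← Real.norm_eq_abs]
    exact (norm_integral_le_of_norm_le_const (C := C * t) (Eventually.of_forall hb1)).trans_eq (by simp)
  · have hzi : Integrable (fun x => ⟪ζ, v x⟫) ρ := Integrable.mono' (integrable_const t)
      (measurable_const.inner hv).aestronglyMeasurable (Eventually.of_forall hz)
    have hz2i : Integrable (fun x => ⟪ζ, v x⟫ ^ 2) ρ := Integrable.mono' (integrable_const (t ^ 2))
      ((measurable_const.inner hv).pow_const 2).aestronglyMeasurable (Eventually.of_forall fun x => by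
        rw [Real.norm_eq_abs, abs_pow]; exact pow_le_pow_left₀ (abs_nonneg _) (hz x) 2)
    have hvi : Integrable v ρ := Integrable.mono' (integrable_const (1 : ℝ)) hv.aestronglyMeasurable
      (Eventually.of_forall fun x => (hv1 x).le)
    have eu : ⟪patLin μ w v a ν σ (Y, H), ζ⟫ = kD a ν σ Y * ∫ x, ⟪ζ, v x⟫ ∂ρ := by
      simp only [patLin, real_inner_smul_left]
      rw [hMean_eq hw H hF, ← hρ, _root_.integral_inner hvi ζ, real_inner_comm]
    have ew : hSq μ w v H ζ = ∫ x, ⟪ζ, v x⟫ ^ 2 ∂ρ := by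
      simp only [hSq, hρ, integral_gibbs hF]
    have he : ∫ x, r x ∂ρ - 1 - ⟪patLin μ w v a ν σ (Y, H), ζ⟫ - kH a ν σ Y * (hSq μ w v H ζ / 2) =
        ∫ x, (r x - 1 - kD a ν σ Y * ⟪ζ, v x⟫ - kH a ν σ Y * (⟪ζ, v x⟫ ^ 2 / 2)) ∂ρ := by
      rw [eu, ew, integral_sub ((hri.sub' (integrable_const _)).sub' (hzi.const_mul _))
        ((hz2i.div_const 2).const_mul _), integral_sub (hri.sub' (integrable_const _)) (hzi.const_mul _),
        integral_sub hri (integrable_const _), integral_const_mul, integral_const_mul]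
      simp [integral_div]
    rw [he, ← Real.norm_eq_abs]
    exact (norm_integral_le_of_norm_le_const (C := C * t ^ 3) (Eventually.of_forall fun x =>
      (h4 Y ⟪ζ, v x⟫).trans (mul_le_mul_of_nonneg_left (pow_le_pow_left₀ (abs_nonneg _) (hz x) 3) hC))
      ).trans_eq (by simp)

/-- Expansion of one pattern. -/
theorem approx_pat (hk : Ker f a ν) {σ₀ : ℝ} (hσ₀ : 0 < σ₀) :
    ∃ C, 1 ≤ C ∧ ∀ {μ : Measure X} [IsProbabilityMeasure μ] {w : X → ℝ} {v : X → E} {σ ε : ℝ},
      Wt w → Measurable v → (∀ x, ‖v x‖ = 1) → σ₀ ≤ σ → 0 ≤ ε →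
      Approx C ε (patBase μ w v a ν σ) (patTop μ w v a ν σ) (patLin μ w v a ν σ) (patQuad μ w v a ν σ) := by
  obtain ⟨C, hC1, hC⟩ := kern_bounds hk hσ₀
  set b := ν.real Set.univ
  have hab : 0 < a - b := by linarith [hk.lt]
  set R := (a + b) / (a - b)
  have hb0 : 0 ≤ b := measureReal_nonneg
  have hR : 0 ≤ R := div_nonneg (by linarith) hab.le
  set A := C ^ 2 + R + C
  have hA : 1 ≤ A := by simp only [A]; nlinarith
  have hAC : C ≤ A := by simp only [A]; nlinarith
  have hA4 : A ≤ 30 * A ^ 4 := by nlinarith [le_self_pow₀ hA (show 4 ≠ 0 by norm_num)]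
  refine ⟨30 * A ^ 4, hA.trans hA4, ?_⟩
  intro μ _ w v σ ε hw hv hv1 hσ hε
  have hσ0 : 0 ≤ σ := hσ₀.le.trans hσ
  have hCA : C ^ 2 ≤ A := by simp only [A]; nlinarith
  have hLin : ∀ p : ℝ × E, ‖patLin μ w v a ν σ p‖ ≤ C := fun p => by
    rw [patLin, norm_smul, Real.norm_eq_abs]
    exact (mul_le_of_le_one_right (abs_nonneg _) (norm_hMean_le hw hv hv1 _)).trans (hC σ hσ p.1 0).1
  have hlin2 : ∀ (p : ℝ × E) ζ, ⟪patLin μ w v a ν σ p, ζ⟫ ^ 2 ≤ C ^ 2 * ‖ζ‖ ^ 2 := fun p ζ => by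
    rw [← sq_abs, ← mul_pow]
    exact pow_le_pow_left₀ (abs_nonneg _)
      ((abs_real_inner_le_norm _ _).trans (mul_le_mul_of_nonneg_right (hLin p) (norm_nonneg _))) 2
  have hbd : ∀ (Y : ℝ) (H ζ : E), |patQuad μ w v a ν σ ((Y, H), ζ)| ≤ A * ‖ζ‖ ^ 2 := fun Y H ζ => by
    rw [patQuad, abs_div, abs_two, div_le_iff₀ two_pos]
    refine (abs_sub _ _).trans ?_
    rw [abs_mul, abs_of_nonneg (sq_nonneg ⟪patLin μ w v a ν σ (Y, H), ζ⟫)]
    have h1 := mul_le_mul (hC σ hσ Y 0).2.1 (abs_hSq_le (μ := μ) hw hv hv1 H ζ) (abs_nonneg _)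
      (by linarith)
    have h2 := hlin2 (Y, H) ζ
    have := mul_le_mul_of_nonneg_right hAC (sq_nonneg ‖ζ‖)
    have := mul_le_mul_of_nonneg_right hCA (sq_nonneg ‖ζ‖)
    linarith
  refine ⟨?_, ?_, fun p => (hLin p).trans (hAC.trans hA4), fun p ζ => ?_, fun p ζ => ?_, fun p ζ => ?_⟩
  · exact ((measurable_kD hk σ).comp measurable_fst).smul ((measurable_hMean hw hv).comp measurable_snd)
  · have h1 : Measurable fun p : (ℝ × E) × E => hSq μ w v p.1.2 p.2 :=
      (measurable_hSq hw hv).comp ((measurable_snd.comp measurable_fst).prodMk measurable_snd)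
    have h2 : Measurable fun p : (ℝ × E) × E => patLin μ w v a ν σ p.1 :=
      ((measurable_kD hk σ).comp (measurable_fst.comp measurable_fst)).smul
        ((measurable_hMean hw hv).comp (measurable_snd.comp measurable_fst))
    exact ((((measurable_kH hk σ).comp (measurable_fst.comp measurable_fst)).mul h1).sub
      ((h2.inner measurable_snd).pow_const 2)).div_const 2
  · refine (hbd p.1 p.2 ζ).trans ?_
    exact mul_le_mul hA4 (pow_le_pow_left₀ (norm_nonneg ζ) (le_add_of_nonneg_left hε) 2) (sq_nonneg _)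
      (by positivity)
  all_goals
    obtain ⟨Y, H⟩ := p
    obtain ⟨x0, hval, hlo, habs, hcub⟩ := pat_facts (μ := μ) (t := ε + ‖ζ‖) hk hw hv hv1 (by linarith : 0 ≤ C)
      hσ0 (fun y z => (hC σ hσ y z).2.2.1) (fun y z => (hC σ hσ y z).2.2.2.1) Y H ζ
      (le_add_of_nonneg_left hε)
    set t := ε + ‖ζ‖
    have ht0 : 0 ≤ t := by positivity
    have hden : 0 < a + b := by linarith
    have hpos : 0 < 1 + x0 := (div_pos hab hden).trans_le hlo
    have hinv : (1 + x0)⁻¹ ≤ R := (inv_anti₀ (div_pos hab hden) hlo).trans_eq (by rw [inv_div])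
  · rw [hval]
    refine (log_abs_le hR hpos hinv habs).trans ?_
    rw [← mul_assoc, ← add_mul]
    refine mul_le_mul_of_nonneg_right ?_ ht0
    have h1 : R * C ≤ A * A := mul_le_mul (by simp only [A]; nlinarith) hAC (by linarith) (by linarith)
    have h2 : A * A ≤ A ^ 4 := by rw [← pow_two]; exact pow_le_pow_right₀ hA (by norm_num)
    linarith [le_self_pow₀ hA (show 4 ≠ 0 by norm_num)]
  · have bw : |kH a ν σ Y * (hSq μ w v H ζ / 2)| ≤ A * t ^ 2 := by
      rw [abs_mul]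
      refine mul_le_mul ((hC σ hσ Y 0).2.1.trans hAC) ?_ (abs_nonneg _) (by linarith)
      rw [abs_div, abs_two, div_le_iff₀ two_pos]
      refine (abs_hSq_le (μ := μ) hw hv hv1 H ζ).trans ?_
      have := pow_le_pow_left₀ (norm_nonneg ζ) (le_add_of_nonneg_left hε : ‖ζ‖ ≤ t) 2
      linarith [sq_nonneg t]
    have bu : |⟪patLin μ w v a ν σ (Y, H), ζ⟫| ≤ A * t :=
      (abs_real_inner_le_norm _ _).trans (mul_le_mul ((hLin _).trans hAC) (le_add_of_nonneg_left hε)
        (norm_nonneg _) (by linarith))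
    have hexp : 1 ≤ Real.exp (A * t) := Real.one_le_exp (by positivity)
    have bx : |x0| ≤ A * t * Real.exp (A * t) :=
      (habs.trans (mul_le_mul_of_nonneg_right hAC ht0)).trans (le_mul_of_one_le_right (by positivity) hexp)
    have be : |x0 - ⟪patLin μ w v a ν σ (Y, H), ζ⟫ - kH a ν σ Y * (hSq μ w v H ζ / 2)| ≤ env A 3 t :=
      (hcub.trans (mul_le_mul_of_nonneg_right hAC (by positivity))).trans
        (le_mul_of_one_le_right (by positivity) hexp)
    have binv : (1 + x0)⁻¹ ≤ A * Real.exp (A * t) :=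
      hinv.trans ((show R ≤ A by simp only [A]; nlinarith).trans (le_mul_of_one_le_right (by linarith) hexp))
    have h := log_ratio_expand hA ht0 hpos bx bu bw be binv
    rw [← hval] at h
    refine le_trans (le_of_eq ?_) h
    simp only [patQuad]
    congr 1
    ring

/-- Expansion of a small field. -/
theorem approx_field : ∃ C, 1 ≤ C ∧ ∀ {μ : Measure X} [IsProbabilityMeasure μ] {w : X → ℝ} {v : X → E}
    {ε : ℝ}, Wt w → Measurable v → (∀ x, ‖v x‖ = 1) → 0 ≤ ε →
    Approx C ε (hBase μ w v) (fun p : E × E => hBase μ w v (p.1 + p.2)) (hMean μ w v)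
      (fun p : E × E => (hSq μ w v p.1 p.2 - ⟪hMean μ w v p.1, p.2⟫ ^ 2) / 2) := by
  refine ⟨30 * (8 : ℝ) ^ 4, by norm_num, ?_⟩
  intro μ _ w v ε hw hv hv1 hε
  have hlin2 : ∀ H ζ : E, ⟪hMean μ w v H, ζ⟫ ^ 2 ≤ ‖ζ‖ ^ 2 := fun H ζ => by
    rw [← sq_abs]
    exact pow_le_pow_left₀ (abs_nonneg _) ((abs_real_inner_le_norm _ _).trans
      (mul_le_of_le_one_left (norm_nonneg _) (norm_hMean_le hw hv hv1 H))) 2
  refine ⟨measurable_hMean hw hv, ?_, fun H => (norm_hMean_le hw hv hv1 H).trans (by norm_num),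
    fun H ζ => ?_, fun H ζ => ?_, fun H ζ => ?_⟩
  · exact ((measurable_hSq hw hv).sub
      ((((measurable_hMean hw hv).comp measurable_fst).inner measurable_snd).pow_const 2)).div_const 2
  · have h1 := abs_hSq_le (μ := μ) hw hv hv1 H ζ
    have h2 := hlin2 H ζ
    have h3 : ‖ζ‖ ^ 2 ≤ (ε + ‖ζ‖) ^ 2 := pow_le_pow_left₀ (norm_nonneg _) (le_add_of_nonneg_left hε) 2
    rw [abs_div, abs_two, div_le_iff₀ two_pos]
    refine (abs_sub _ _).trans ?_
    rw [abs_of_nonneg (sq_nonneg ⟪hMean μ w v H, ζ⟫)]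
    nlinarith [sq_nonneg (ε + ‖ζ‖)]
  · refine ((lip_hBase (μ := μ) hw hv hv1).lip H ζ).trans ?_
    nlinarith [norm_nonneg ζ]
  · set t := ε + ‖ζ‖
    have ht0 : 0 ≤ t := by positivity
    have hF := wt_field hw hv hv1 H
    have hG := isProbabilityMeasure_gibbs (μ := μ) hF
    set ρ := gibbs μ fun x => w x * Real.exp ⟪H, v x⟫ with hρ
    have hF2 := wt_field hw hv hv1 (H + ζ)
    set r : X → ℝ := fun x => Real.exp ⟪ζ, v x⟫
    have hzm : Measurable fun x => ⟪ζ, v x⟫ := measurable_const.inner hv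
    have hz : ∀ x, |⟪ζ, v x⟫| ≤ t := fun x =>
      (abs_inner_le hv1 ζ x).trans (le_add_of_nonneg_left hε)
    have hrw : Wt r := Wt.exp hzm hz
    have hri : Integrable r ρ := hrw.integrable
    set x0 := ∫ x, r x ∂ρ - 1 with hx0
    have hval : hBase μ w v (H + ζ) - hBase μ w v H = Real.log (1 + x0) := by
      rw [hx0, add_sub_cancel, hρ, integral_gibbs hF, Real.log_div (hF.mul hrw).integral_pos.ne'
        hF.integral_pos.ne']
      simp only [hBase, r, inner_add_left, Real.exp_add, mul_assoc]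
    have hlo : Real.exp (-t) ≤ 1 + x0 := by
      rw [hx0, add_sub_cancel]
      have h := integral_mono (integrable_const (Real.exp (-t))) hri fun x =>
        Real.exp_le_exp.2 (abs_le.1 (hz x)).1
      simpa using h
    have hpos : 0 < 1 + x0 := (Real.exp_pos _).trans_le hlo
    have binv : (1 + x0)⁻¹ ≤ 8 * Real.exp (8 * t) := by
      refine (inv_anti₀ (Real.exp_pos _) hlo).trans ?_
      rw [← Real.exp_neg, neg_neg]
      have : Real.exp t ≤ Real.exp (8 * t) := Real.exp_le_exp.2 (by linarith)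
      linarith [Real.exp_pos t]
    have hzi : Integrable (fun x => ⟪ζ, v x⟫) ρ := Integrable.mono' (integrable_const t)
      hzm.aestronglyMeasurable (Eventually.of_forall hz)
    have hz2i : Integrable (fun x => ⟪ζ, v x⟫ ^ 2) ρ := Integrable.mono' (integrable_const (t ^ 2))
      (hzm.pow_const 2).aestronglyMeasurable (Eventually.of_forall fun x => by
        rw [Real.norm_eq_abs, abs_pow]; exact pow_le_pow_left₀ (abs_nonneg _) (hz x) 2)
    have hvi : Integrable v ρ := Integrable.mono' (integrable_const (1 : ℝ)) hv.aestronglyMeasurable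
      (Eventually.of_forall fun x => (hv1 x).le)
    set u := ⟪hMean μ w v H, ζ⟫ with hu
    set w2 := hSq μ w v H ζ / 2 with hw2
    rw [hval, show (hSq μ w v H ζ - u ^ 2) / 2 = w2 - u ^ 2 / 2 by rw [hw2]; ring]
    have he : x0 - u - w2 = ∫ x, (r x - 1 - ⟪ζ, v x⟫ - ⟪ζ, v x⟫ ^ 2 / 2) ∂ρ := by
      have eu : u = ∫ x, ⟪ζ, v x⟫ ∂ρ := by
        rw [hu, hMean_eq hw H hF, ← hρ, _root_.integral_inner hvi ζ, real_inner_comm]
      have ew : w2 = (∫ x, ⟪ζ, v x⟫ ^ 2 ∂ρ) / 2 := by
        simp only [hw2, hSq, hρ, integral_gibbs hF]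
      rw [eu, ew, hx0, integral_sub ((hri.sub' (integrable_const _)).sub' hzi) (hz2i.div_const 2),
        integral_sub (hri.sub' (integrable_const _)) hzi, integral_sub hri (integrable_const _),
        integral_div]
      simp
    have be : |x0 - u - w2| ≤ env 8 3 t := by
      rw [he, ← Real.norm_eq_abs]
      refine (norm_integral_le_of_norm_le_const (C := 4 * (t ^ 3 * Real.exp t))
        (Eventually.of_forall fun x => ?_)).trans ?_
      · rw [Real.norm_eq_abs]
        refine (exp_taylor2 _).trans ?_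
        rw [mul_assoc]
        exact mul_le_mul_of_nonneg_left (mul_le_mul (pow_le_pow_left₀ (abs_nonneg _) (hz x) 3)
          (Real.exp_le_exp.2 (hz x)) (Real.exp_pos _).le (by positivity)) (by norm_num)
      · simp only [probReal_univ, mul_one, env, mul_assoc]
        have : Real.exp t ≤ Real.exp (8 * t) := Real.exp_le_exp.2 (by linarith)
        exact mul_le_mul (by norm_num) (mul_le_mul_of_nonneg_left this (by positivity)) (by positivity)
          (by norm_num)
    have bu : |u| ≤ 8 * t := (abs_real_inner_le_norm _ _).trans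
      (mul_le_mul ((norm_hMean_le hw hv hv1 H).trans (by norm_num)) (le_add_of_nonneg_left hε)
        (norm_nonneg _) (by norm_num))
    have bw : |w2| ≤ 8 * t ^ 2 := by
      rw [abs_div, abs_two, div_le_iff₀ two_pos]
      refine (abs_hSq_le (μ := μ) hw hv hv1 H ζ).trans ?_
      have := pow_le_pow_left₀ (norm_nonneg ζ) (le_add_of_nonneg_left hε : ‖ζ‖ ≤ t) 2
      nlinarith
    have bx : |x0| ≤ 8 * t * Real.exp (8 * t) := by
      have e : x0 = ∫ x, (r x - 1) ∂ρ := by
        rw [hx0, integral_sub hri (integrable_const _)]; simp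
      rw [e, ← Real.norm_eq_abs]
      refine (norm_integral_le_of_norm_le_const (C := t * Real.exp t) (Eventually.of_forall fun x => ?_)).trans ?_
      · rw [Real.norm_eq_abs]
        have h1 := hz x
        have h2 := Real.exp_le_exp.2 (abs_le.1 h1).2
        have h3 := Real.add_one_le_exp ⟪ζ, v x⟫
        have h4 := mul_le_mul_of_nonneg_right (Real.add_one_le_exp (-t)) (Real.exp_pos t).le
        rw [← Real.exp_add, neg_add_cancel, Real.exp_zero] at h4
        have h5 : t ≤ t * Real.exp t := le_mul_of_one_le_right ht0 (Real.one_le_exp ht0)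
        rw [abs_le]
        simp only [r]
        constructor <;> linarith [(abs_le.1 h1).1]
      · simp only [probReal_univ, mul_one, mul_assoc]
        have : Real.exp t ≤ Real.exp (8 * t) := Real.exp_le_exp.2 (by linarith)
        nlinarith [Real.exp_pos t, mul_le_mul_of_nonneg_left this ht0]
    exact log_ratio_expand (by norm_num) ht0 hpos bx bu bw be binv

/-- The ratio behind the target. -/
lemma self_facts (hk : Ker f a ν) {σ C S p t : ℝ} (hC : 0 ≤ C) (hσ0 : 0 ≤ σ) (hS : 0 ≤ S) (hp : 0 ≤ p)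
    (h3 : ∀ y z, |kU a ν σ (y + z) / kU a ν σ y - 1| ≤ C * |z|)
    (h4 : ∀ y z, |kU a ν σ (y + z) / kU a ν σ y - 1 - kD a ν σ y * z - kH a ν σ y * (z ^ 2 / 2)| ≤
      C * |z| ^ 3) (Y ζ : ℝ) (hζ : |ζ| ≤ t) (hpt : Real.sqrt p ≤ t) :
    ∃ x0, Real.log (kU a ν (σ + p * S) (Y + ζ)) - Real.log (kU a ν σ Y) = Real.log (1 + x0) ∧
      (a - ν.real Set.univ) / (a + ν.real Set.univ) ≤ 1 + x0 ∧
      |x0| ≤ C * (∫ ξ : ℝ, (1 + Real.sqrt S * |ξ|) ∂gaussianReal 0 1) * t ∧
      |x0 - kD a ν σ Y * ζ - kH a ν σ Y * ((ζ ^ 2 + p * S) / 2)| ≤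
        C * (∫ ξ : ℝ, (1 + Real.sqrt S * |ξ|) ^ 3 ∂gaussianReal 0 1) * t ^ 3 := by
  set γ1 := gaussianReal 0 1
  set k := Real.sqrt S
  have hm1 : Integrable (fun ξ : ℝ => 1 + k * |ξ|) γ1 :=
    (integrable_const _).add ((IsGaussian.integrable_id (μ := γ1)).abs.const_mul k)
  have hm3 : Integrable (fun ξ : ℝ => (1 + k * |ξ|) ^ 3) γ1 := by
    have h := fun j : ℕ => (IsGaussian.memLp_id γ1 j (by simp)).integrable_norm_pow'
    refine ((((integrable_const (1 : ℝ)).add ((h 1).const_mul (3 * k))).add ((h 2).const_mul (3 * k ^ 2))).add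
      ((h 3).const_mul (k ^ 3))).congr (Eventually.of_forall fun ξ => ?_)
    simp only [Pi.add_apply, id, Real.norm_eq_abs]
    ring
  have ht0 : 0 ≤ t := (abs_nonneg ζ).trans hζ
  have hpS : 0 ≤ p * S := mul_nonneg hp hS
  set z : ℝ → ℝ := fun ξ => ζ + Real.sqrt (p * S) * ξ with hzdef
  have hz : ∀ ξ, |z ξ| ≤ t * (1 + k * |ξ|) := fun ξ => by
    simp only [z]
    refine (abs_add_le _ _).trans ?_
    rw [abs_mul, abs_of_nonneg (Real.sqrt_nonneg _), Real.sqrt_mul hp, mul_add, mul_one, mul_assoc]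
    exact add_le_add hζ (mul_le_mul hpt le_rfl (by positivity) ht0)
  have hzm : Measurable z := by simp only [z]; fun_prop
  have hU := kU_pos hk hσ0 Y
  set r : ℝ → ℝ := fun ξ => kU a ν σ (Y + z ξ) / kU a ν σ Y with hr
  have hrm : Measurable r := ((measurable_kU_right hk σ).comp (hzm.const_add Y)).div_const _
  have hab : 0 < a - ν.real Set.univ := by linarith [hk.lt]
  have hri : Integrable r γ1 := Integrable.mono'
    (integrable_const ((a + ν.real Set.univ) / (a - ν.real Set.univ))) hrm.aestronglyMeasurable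
    (Eventually.of_forall fun ξ => by
      rw [Real.norm_eq_abs, abs_div, abs_of_pos hU, abs_of_pos (kU_pos hk hσ0 _)]
      exact div_le_div₀ (by linarith [(measureReal_nonneg : 0 ≤ ν.real Set.univ)]) (kU_bounds hk hσ0 _).2
        hab (kU_bounds hk hσ0 Y).1)
  refine ⟨∫ ξ, r ξ ∂γ1 - 1, ?_, ?_, ?_, ?_⟩
  · rw [add_sub_cancel, hr, integral_div, ← Real.log_div (kU_pos hk (by positivity) _).ne' hU.ne']
    congr 2
    rw [← integral_kU_add hk hσ0 hpS (Y + ζ)]
    simp only [z, add_assoc, γ1]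
  · rw [add_sub_cancel]
    have h := integral_mono (integrable_const ((a - ν.real Set.univ) / (a + ν.real Set.univ))) hri
      fun ξ => div_le_div₀ (kU_pos hk hσ0 _).le (kU_bounds hk hσ0 (Y + z ξ)).1 hU (kU_bounds hk hσ0 Y).2
    simpa using h
  · have e : ∫ ξ, r ξ ∂γ1 - 1 = ∫ ξ, (r ξ - 1) ∂γ1 := by
      rw [integral_sub hri (integrable_const _)]; simp
    rw [e, ← Real.norm_eq_abs]
    refine (norm_integral_le_of_norm_le (hm1.const_mul (C * t)) (Eventually.of_forall fun ξ => ?_)).trans ?_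
    · rw [Real.norm_eq_abs]
      exact (h3 Y (z ξ)).trans ((mul_le_mul_of_nonneg_left (hz ξ) hC).trans_eq (by ring))
    · rw [integral_const_mul]; exact le_of_eq (by ring)
  · have hzi : Integrable z γ1 := Integrable.mono' (hm1.const_mul t) hzm.aestronglyMeasurable
      (Eventually.of_forall hz)
    have hξ2 : Integrable (fun ξ : ℝ => ξ ^ 2) γ1 := (IsGaussian.memLp_id γ1 2 (by simp)).integrable_sq
    have hξ1 : Integrable (fun ξ : ℝ => ξ) γ1 := IsGaussian.integrable_id
    have hz2i : Integrable (fun ξ => z ξ ^ 2) γ1 := by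
      refine (((integrable_const (ζ ^ 2)).add (hξ1.const_mul (2 * ζ * Real.sqrt (p * S)))).add
        (hξ2.const_mul (Real.sqrt (p * S) ^ 2))).congr (Eventually.of_forall fun ξ => ?_)
      simp only [Pi.add_apply, z]
      ring
    have ez : ∫ ξ, z ξ ∂γ1 = ζ := by
      simp only [z]
      rw [integral_add (integrable_const _) (hξ1.const_mul _), integral_const_mul]
      simp [γ1, integral_id_gaussianReal]
    have ez2 : ∫ ξ, z ξ ^ 2 / 2 ∂γ1 = (ζ ^ 2 + p * S) / 2 := by
      have e : ∀ ξ, z ξ ^ 2 = ζ ^ 2 + (2 * ζ * Real.sqrt (p * S)) * ξ + (p * S) * ξ ^ 2 := fun ξ => by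
        have hs := Real.sq_sqrt hpS
        simp only [z]
        linear_combination ξ ^ 2 * hs
      have hv2 : ∫ ξ : ℝ, ξ ^ 2 ∂γ1 = 1 := by
        have h := integral_inner_sq (E := ℝ) 1
        rw [stdGaussian_real] at h
        simpa [γ1] using h
      simp only [e]
      rw [integral_div, integral_add ((integrable_const _).fun_add (hξ1.const_mul _)) (hξ2.const_mul _),
        integral_add (integrable_const _) (hξ1.const_mul _), integral_const_mul, integral_const_mul, hv2]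
      simp [γ1, integral_id_gaussianReal]
    have he : ∫ ξ, r ξ ∂γ1 - 1 - kD a ν σ Y * ζ - kH a ν σ Y * ((ζ ^ 2 + p * S) / 2) =
        ∫ ξ, (r ξ - 1 - kD a ν σ Y * z ξ - kH a ν σ Y * (z ξ ^ 2 / 2)) ∂γ1 := by
      rw [integral_sub ((hri.sub' (integrable_const _)).sub' (hzi.const_mul _))
          ((hz2i.div_const 2).const_mul _), integral_sub (hri.sub' (integrable_const _)) (hzi.const_mul _),
        integral_sub hri (integrable_const _), integral_const_mul, integral_const_mul, ez, ez2]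
      simp [γ1]
    rw [he, ← Real.norm_eq_abs]
    refine (norm_integral_le_of_norm_le (hm3.const_mul (C * t ^ 3)) (Eventually.of_forall fun ξ => ?_)).trans ?_
    · rw [Real.norm_eq_abs]
      refine (h4 Y (z ξ)).trans ?_
      refine (mul_le_mul_of_nonneg_left (pow_le_pow_left₀ (abs_nonneg _) (hz ξ) 3) hC).trans_eq ?_
      ring
    · rw [integral_const_mul]; exact le_of_eq (by ring)

/-- Expansion of a small self-perturbation of the target. -/
theorem approx_self (hk : Ker f a ν) {σ₀ S : ℝ} (hσ₀ : 0 < σ₀) (hS : 0 ≤ S) :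
    ∃ C, 1 ≤ C ∧ ∀ {σ p ε : ℝ}, σ₀ ≤ σ → 0 ≤ p → Real.sqrt p ≤ ε →
      Approx C ε (fun y : ℝ => Real.log (kU a ν σ y))
        (fun q : ℝ × ℝ => Real.log (kU a ν (σ + p * S) (q.1 + q.2))) (kD a ν σ)
        (fun q : ℝ × ℝ => (kH a ν σ q.1 * (q.2 ^ 2 + p * S) - ⟪kD a ν σ q.1, q.2⟫ ^ 2) / 2) := by
  obtain ⟨C, hC1, hC⟩ := kern_bounds hk hσ₀
  set b := ν.real Set.univ
  have hab : 0 < a - b := by linarith [hk.lt]
  set R := (a + b) / (a - b)
  have hb0 : 0 ≤ b := measureReal_nonneg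
  have hR : 0 ≤ R := div_nonneg (by linarith) hab.le
  set γ1 := gaussianReal 0 1
  set k := Real.sqrt S
  have hm1 : Integrable (fun ξ : ℝ => 1 + k * |ξ|) γ1 :=
    (integrable_const _).add ((IsGaussian.integrable_id (μ := γ1)).abs.const_mul k)
  have hm3 : Integrable (fun ξ : ℝ => (1 + k * |ξ|) ^ 3) γ1 := by
    have h := fun j : ℕ => (IsGaussian.memLp_id γ1 j (by simp)).integrable_norm_pow'
    refine ((((integrable_const (1 : ℝ)).add ((h 1).const_mul (3 * k))).add ((h 2).const_mul (3 * k ^ 2))).add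
      ((h 3).const_mul (k ^ 3))).congr (Eventually.of_forall fun ξ => ?_)
    simp only [Pi.add_apply, id, Real.norm_eq_abs]
    ring
  set M1 := ∫ ξ : ℝ, (1 + k * |ξ|) ∂γ1
  set M3 := ∫ ξ : ℝ, (1 + k * |ξ|) ^ 3 ∂γ1
  have hM10 : 0 ≤ M1 := integral_nonneg fun ξ => by positivity
  have hM30 : 0 ≤ M3 := integral_nonneg fun ξ => by positivity
  set A := C ^ 2 + R + C * M1 + C * M3 + C * (1 + S)
  have hCS : C ≤ C * (1 + S) := le_mul_of_one_le_right (by linarith) (by linarith)
  have q1 : 0 ≤ C * M1 := by positivity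
  have q3 : 0 ≤ C * M3 := by positivity
  have q2 : C ≤ C ^ 2 := le_self_pow₀ hC1 (by norm_num)
  have hA : 1 ≤ A := by simp only [A]; linarith
  have hA4 : A ≤ 30 * A ^ 4 := by nlinarith [le_self_pow₀ hA (show 4 ≠ 0 by norm_num)]
  refine ⟨30 * A ^ 4, hA.trans hA4, ?_⟩
  intro σ p ε hσ hp hpε
  have hε : 0 ≤ ε := (Real.sqrt_nonneg p).trans hpε
  have hσ0 : 0 ≤ σ := hσ₀.le.trans hσ
  have hpS : 0 ≤ p * S := mul_nonneg hp hS
  have hAC : C ≤ A := by simp only [A]; linarith
  have hpε2 : p ≤ ε ^ 2 := by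
    have := pow_le_pow_left₀ (Real.sqrt_nonneg p) hpε 2
    rwa [Real.sq_sqrt hp] at this
  have hqsum : ∀ ζ : ℝ, ζ ^ 2 + p * S ≤ (1 + S) * (ε + ‖ζ‖) ^ 2 := fun ζ => by
    rw [Real.norm_eq_abs, ← sq_abs ζ]
    have h1 : ε ^ 2 * S ≤ (ε + |ζ|) ^ 2 * S :=
      mul_le_mul_of_nonneg_right (pow_le_pow_left₀ hε (le_add_of_nonneg_right (abs_nonneg _)) 2) hS
    have h2 : |ζ| ^ 2 ≤ (ε + |ζ|) ^ 2 := pow_le_pow_left₀ (abs_nonneg _) (le_add_of_nonneg_left hε) 2
    have h3 := mul_le_mul_of_nonneg_right hpε2 hS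
    linarith
  refine ⟨measurable_kD hk σ, ?_, fun y => ?_, fun Y ζ => ?_, fun Y ζ => ?_, fun Y ζ => ?_⟩
  · exact ((((measurable_kH hk σ).comp measurable_fst).mul ((measurable_snd.pow_const 2).add_const _)).sub
      ((((measurable_kD hk σ).comp measurable_fst).inner measurable_snd).pow_const 2)).div_const 2
  · rw [Real.norm_eq_abs]
    exact (hC σ hσ y 0).1.trans (hAC.trans hA4)
  · simp only [RCLike.inner_apply, conj_trivial]
    rw [abs_div, abs_two, div_le_iff₀ two_pos]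
    refine (abs_sub _ _).trans ?_
    rw [abs_mul, abs_of_nonneg (by positivity : 0 ≤ ζ ^ 2 + p * S), abs_pow, abs_mul]
    have h1 := mul_le_mul (hC σ hσ Y 0).2.1 (hqsum ζ) (by positivity) (by linarith : 0 ≤ C)
    have h2 : (|ζ| * |kD a ν σ Y|) ^ 2 ≤ C ^ 2 * (ε + ‖ζ‖) ^ 2 := by
      rw [mul_comm, mul_pow, Real.norm_eq_abs]
      exact mul_le_mul (pow_le_pow_left₀ (abs_nonneg _) (hC σ hσ Y 0).1 2)
        (pow_le_pow_left₀ (abs_nonneg _) (le_add_of_nonneg_left hε) 2) (sq_nonneg _) (sq_nonneg _)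
    have h3 : C * (1 + S) + C ^ 2 ≤ 30 * A ^ 4 * 2 := by
      have : C * (1 + S) + C ^ 2 ≤ A := by simp only [A]; linarith
      linarith
    have := mul_le_mul_of_nonneg_right h3 (sq_nonneg (ε + ‖ζ‖))
    linarith
  all_goals
    obtain ⟨x0, hval, hlo, habs, hcub⟩ := self_facts (t := ε + ‖ζ‖) hk (by linarith : 0 ≤ C) hσ0 hS hp
      (fun y z => (hC σ hσ y z).2.2.1) (fun y z => (hC σ hσ y z).2.2.2.1) Y ζ
      ((Real.norm_eq_abs ζ).ge.trans (le_add_of_nonneg_left hε))
      (hpε.trans (le_add_of_nonneg_right (norm_nonneg ζ)))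
    set t := ε + ‖ζ‖
    have ht0 : 0 ≤ t := by positivity
    have hden : 0 < a + b := by linarith
    have hpos : 0 < 1 + x0 := (div_pos hab hden).trans_le hlo
    have hinv : (1 + x0)⁻¹ ≤ R := (inv_anti₀ (div_pos hab hden) hlo).trans_eq (by rw [inv_div])
    have a1 : C * M1 ≤ A := by simp only [A]; linarith [sq_nonneg C]
  · rw [hval]
    refine (log_abs_le hR hpos hinv habs).trans ?_
    rw [← mul_assoc, ← add_mul]
    refine mul_le_mul_of_nonneg_right ?_ ht0
    have h1 : R * (C * M1) ≤ A * A :=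
      mul_le_mul (by simp only [A]; linarith [sq_nonneg C]) a1 q1 (by linarith)
    have h2 : A * A ≤ A ^ 4 := by rw [← pow_two]; exact pow_le_pow_right₀ hA (by norm_num)
    linarith [le_self_pow₀ hA (show 4 ≠ 0 by norm_num)]
  · have e : ⟪kD a ν σ Y, ζ⟫ = kD a ν σ Y * ζ := by
      simp only [RCLike.inner_apply, conj_trivial]; ring
    rw [hval, e]
    have hexp : 1 ≤ Real.exp (A * t) := Real.one_le_exp (by positivity)
    have bu : |kD a ν σ Y * ζ| ≤ A * t := by
      rw [abs_mul]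
      exact mul_le_mul ((hC σ hσ Y 0).1.trans hAC)
        ((Real.norm_eq_abs ζ).ge.trans (le_add_of_nonneg_left hε)) (abs_nonneg _) (by linarith)
    have bw : |kH a ν σ Y * ((ζ ^ 2 + p * S) / 2)| ≤ A * t ^ 2 := by
      rw [abs_mul]
      refine (mul_le_mul (hC σ hσ Y 0).2.1 (d := (1 + S) * t ^ 2) ?_ (abs_nonneg _) (by linarith)).trans ?_
      · rw [abs_of_nonneg (by positivity)]
        have := hqsum ζ
        have : 0 ≤ ζ ^ 2 + p * S := by positivity
        linarith
      · rw [← mul_assoc]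
        exact mul_le_mul_of_nonneg_right (by simp only [A]; linarith [sq_nonneg C]) (sq_nonneg t)
    have be : |x0 - kD a ν σ Y * ζ - kH a ν σ Y * ((ζ ^ 2 + p * S) / 2)| ≤ env A 3 t :=
      (hcub.trans (mul_le_mul_of_nonneg_right (by simp only [A]; linarith [sq_nonneg C]) (by positivity))).trans
        (le_mul_of_one_le_right (by positivity) hexp)
    have bx : |x0| ≤ A * t * Real.exp (A * t) :=
      (habs.trans (mul_le_mul_of_nonneg_right a1 ht0)).trans (le_mul_of_one_le_right (by positivity) hexp)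
    have binv : (1 + x0)⁻¹ ≤ A * Real.exp (A * t) :=
      hinv.trans ((show R ≤ A by simp only [A]; linarith [sq_nonneg C]).trans
        (le_mul_of_one_le_right (by linarith) hexp))
    refine le_trans (le_of_eq ?_) (log_ratio_expand hA ht0 hpos bx bu bw be binv)
    congr 1
    ring

end Vale.Agent.P157.RSB
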